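import Claimed.Agent.R286.W.Leaves

/-!
# Row 286, folder W, file ConeA : Leaf CONE-A, elementary properties of the cone envelope `H_f` (LL Lemma 8.2, "The deviation cone")      (helper214; prefix `skw_cone`)      0 sorry
-/

set_option autoImplicit false

namespace Claimed.Agent.R286

open Set MeasureTheory

theorem skw_cone_R_le_one (z : ℝ) : skwR z ≤ 1 := min_le_right _ _

theorem skw_cone_R_nonneg {z : ℝ} (hz : 0 ≤ z) : 0 ≤ skwR z := le_min hz zero_le_one

theorem skw_cone_R_lip (s z : ℝ) : skwR s ≤ skwR z + |s - z| := by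
  unfold skwR
  have h := le_abs_self (s - z)
  have h0 := abs_nonneg (s - z)
  rcases le_total z 1 with h1 | h1
  · rw [min_eq_left h1]
    exact (min_le_left _ _).trans (by linarith)
  · rw [min_eq_right h1]
    exact (min_le_right _ _).trans (by linarith)

theorem skw_cone_src_le_bR (d : SkwD) (s : ℝ) : skwSrc d s ≤ d.b * skwR s := min_le_left _ _

theorem skw_cone_src_le_b {c : SkwC} {d : SkwD} (h : SkwHyp c d) (s : ℝ) : skwSrc d s ≤ d.b :=
  (skw_cone_src_le_bR d s).trans (by nlinarith [h.b0, skw_cone_R_le_one s])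

/-- the family of cones at `z` is bounded above -/
theorem skw_cone_bdd {c : SkwC} {d : SkwD} (h : SkwHyp c d) (z : ℝ) :
    BddAbove ((fun s : ℝ => max 0 (skwSrc d s - d.A * |s - z|)) '' Icc 0 c.zs) := by
  refine ⟨d.b, ?_⟩
  rintro _ ⟨s, _, rfl⟩
  refine max_le h.b0.le ?_
  have := skw_cone_src_le_b h s
  have h2 : 0 ≤ d.A * |s - z| := mul_nonneg (by linarith [h.A1]) (abs_nonneg _)
  linarith

theorem skw_cone_ne {c : SkwC} (hc : c.Ok) (d : SkwD) (z : ℝ) :
    ((fun s : ℝ => max 0 (skwSrc d s - d.A * |s - z|)) '' Icc 0 c.zs).Nonempty :=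
  ⟨_, ⟨0, ⟨le_rfl, hc.zs.le⟩, rfl⟩⟩

/-- each cone is below the envelope -/
theorem skw_cone_le_Hf {c : SkwC} {d : SkwD} (h : SkwHyp c d) (z : ℝ) {s : ℝ} (hs : s ∈ Icc 0 c.zs) :
    max 0 (skwSrc d s - d.A * |s - z|) ≤ skwHf c d z :=
  le_csSup (skw_cone_bdd h z) ⟨s, hs, rfl⟩

/-- a common bound of the cones bounds the envelope -/
theorem skw_cone_Hf_le {c : SkwC} (hc : c.Ok) (d : SkwD) (z B : ℝ)
    (hB : ∀ s ∈ Icc 0 c.zs, max 0 (skwSrc d s - d.A * |s - z|) ≤ B) : skwHf c d z ≤ B := by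
  refine csSup_le (skw_cone_ne hc d z) ?_
  rintro _ ⟨s, hs, rfl⟩
  exact hB s hs

theorem skw_cone_half_lip {c : SkwC} (hc : c.Ok) {d : SkwD} (h : SkwHyp c d) (z z' : ℝ) :
    skwHf c d z ≤ skwHf c d z' + d.A * |z - z'| := by
  have hA : 0 ≤ d.A := by linarith [h.A1]
  refine skw_cone_Hf_le hc d z _ fun s hs => ?_
  have h1 := skw_cone_le_Hf h z' hs
  have h2 : 0 ≤ d.A * |z - z'| := mul_nonneg hA (abs_nonneg _)
  have h3 : |s - z'| ≤ |s - z| + |z - z'| := by
    have : s - z' = (s - z) + (z - z') := by ring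
    rw [this]
    exact abs_add_le _ _
  have h4 : d.A * |s - z'| ≤ d.A * |s - z| + d.A * |z - z'| := by nlinarith
  refine max_le ?_ ?_
  · have := (le_max_left 0 (skwSrc d s - d.A * |s - z'|)).trans h1
    linarith
  · have := (le_max_right 0 (skwSrc d s - d.A * |s - z'|)).trans h1
    linarith

/-- **Leaf CONE-A** -/
theorem skw_leaf_coneA : SkwLeafConeA := by
  intro c hc d h
  have hA : 0 ≤ d.A := by linarith [h.A1]
  refine ⟨?_, ?_, ?_, ?_, ?_⟩
  · intro z z'
    rw [abs_le]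
    have h1 := skw_cone_half_lip hc h z z'
    have h2 := skw_cone_half_lip hc h z' z
    rw [abs_sub_comm z' z] at h2
    constructor <;> linarith
  · intro z
    exact (le_max_left 0 _).trans (skw_cone_le_Hf h z (s := 0) ⟨le_rfl, hc.zs.le⟩)
  · intro z hz
    have := skw_cone_le_Hf h z hz
    rw [sub_self, abs_zero, mul_zero, sub_zero] at this
    exact (le_max_right _ _).trans this
  · intro z hz
    refine skw_cone_Hf_le hc d z _ fun s _ => ?_
    refine max_le (mul_nonneg h.b0.le (skw_cone_R_nonneg hz)) ?_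
    have h1 := skw_cone_src_le_bR d s
    have h2 := skw_cone_R_lip s z
    have h3 := abs_nonneg (s - z)
    have h4 : d.b * skwR s ≤ d.b * (skwR z + |s - z|) := mul_le_mul_of_nonneg_left h2 h.b0.le
    have h5 : d.b * |s - z| ≤ d.A * |s - z| := mul_le_mul_of_nonneg_right (by linarith [h.b1, h.A1]) h3
    linarith
  · intro K₀ e₀ he₀ hK₀ hKA hsrc z hz
    refine skw_cone_Hf_le hc d z _ fun s hs => ?_
    refine max_le (mul_nonneg hK₀ (by linarith [hz.2])) ?_
    have h1 := hsrc s hs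
    have h3 := abs_nonneg (s - z)
    have h4 : z - s ≤ |s - z| := by rw [abs_sub_comm]; exact le_abs_self _
    have h5 : K₀ * (z - s) ≤ d.A * |s - z| :=
      (mul_le_mul_of_nonneg_left h4 hK₀).trans (mul_le_mul_of_nonneg_right hKA h3)
    nlinarith

end Claimed.Agent.R286
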