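import Claimed.Agent.R286.W.ConeA

/-!
# Row 286, folder W, file ConeB : Leaf CONE-B (LL 08 "The deviation cone", l.202-240: the squared budget)      OWNER helper145 (prefix `skw_cb_`)      0 sorry

Proof without covering: pointwise, `G(z) H_f(z)² ≲ Z⁻⁴ δ⁻¹ ∫_{|t-z| ≤ 2δ} f² G + tiny + U⁴` for the dyadic class `δ` of a source serving `z`
(persistence of the deviation + adjacent-interval comparison); sum over the `≤ 2 L` classes; the `z`-integral of a window integral is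
computed with the primitive `Ψ` (no Fubini); (D1) on three bands.
-/

set_option autoImplicit false

namespace Claimed.Agent.R286

open Set MeasureTheory

/-- the primitive trick replacing Fubini -/
theorem skw_cb_shift (Ψ : ℝ → ℝ) (I a b δ : ℝ) (hm : Monotone Ψ) (h0 : ∀ t, 0 ≤ Ψ t) (hI : ∀ t, Ψ t ≤ I)
    (hδ : 0 ≤ δ) : ∫ z in a..b, (Ψ (z + δ) - Ψ (z - δ)) ≤ 2 * δ * I := by
  have hi : ∀ u v : ℝ, IntervalIntegrable Ψ volume u v := fun u v => hm.intervalIntegrable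
  have hi1 : IntervalIntegrable (fun z => Ψ (z + δ)) volume a b :=
    (hm.comp (fun x y hxy => by linarith : Monotone fun z : ℝ => z + δ)).intervalIntegrable
  have hi2 : IntervalIntegrable (fun z => Ψ (z - δ)) volume a b :=
    (hm.comp (fun x y hxy => by linarith : Monotone fun z : ℝ => z - δ)).intervalIntegrable
  rw [intervalIntegral.integral_sub hi1 hi2, intervalIntegral.integral_comp_add_right (fun z => Ψ z),
    intervalIntegral.integral_comp_sub_right (fun z => Ψ z)]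
  have e1 : ∫ x in (a + δ)..(b + δ), Ψ x = (∫ x in (a + δ)..(b - δ), Ψ x) + ∫ x in (b - δ)..(b + δ), Ψ x :=
    (intervalIntegral.integral_add_adjacent_intervals (hi _ _) (hi _ _)).symm
  have e2 : ∫ x in (a - δ)..(b - δ), Ψ x = (∫ x in (a - δ)..(a + δ), Ψ x) + ∫ x in (a + δ)..(b - δ), Ψ x :=
    (intervalIntegral.integral_add_adjacent_intervals (hi _ _) (hi _ _)).symm
  have b1 : ∫ x in (b - δ)..(b + δ), Ψ x ≤ ∫ _x in (b - δ)..(b + δ), I :=
    intervalIntegral.integral_mono_on (by linarith) (hi _ _) intervalIntegrable_const (fun x _ => hI x)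
  have b2 : 0 ≤ ∫ x in (a - δ)..(a + δ), Ψ x :=
    intervalIntegral.integral_nonneg (by linarith) (fun x _ => h0 x)
  rw [intervalIntegral.integral_const, smul_eq_mul] at b1
  rw [e1, e2]
  linarith

/-- number of dyadic classes -/
theorem skw_cb_N (t : ℝ) (h0 : 0 < t) (h1 : t ≤ 1) :
    ∃ N : ℕ, (1 / 2 : ℝ) ^ N ≤ t ∧ (N : ℝ) ≤ 2 * (1 + Real.log (1 / t)) := by
  have hl : 0 ≤ Real.log (1 / t) := Real.log_nonneg (by rw [le_div_iff₀ h0]; linarith)
  have hl2 : (1 / 2 : ℝ) < Real.log 2 := by have := Real.log_two_gt_d9; linarith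
  refine ⟨⌈Real.log (1 / t) / Real.log 2⌉₊, ?_, ?_⟩
  · have h2 : Real.log (1 / t) / Real.log 2 ≤ (⌈Real.log (1 / t) / Real.log 2⌉₊ : ℝ) := Nat.le_ceil _
    have h3 : Real.log (1 / t) ≤ (⌈Real.log (1 / t) / Real.log 2⌉₊ : ℝ) * Real.log 2 := by
      rwa [div_le_iff₀ (by linarith)] at h2
    have h4 : (1 / 2 : ℝ) ^ ⌈Real.log (1 / t) / Real.log 2⌉₊
        = Real.exp (-((⌈Real.log (1 / t) / Real.log 2⌉₊ : ℝ) * Real.log 2)) := by
      rw [← Real.rpow_natCast, Real.rpow_def_of_pos (by norm_num)]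
      congr 1
      rw [one_div, Real.log_inv]
      ring
    rw [h4]
    calc Real.exp (-((⌈Real.log (1 / t) / Real.log 2⌉₊ : ℝ) * Real.log 2)) ≤ Real.exp (-Real.log (1 / t)) :=
          Real.exp_le_exp.mpr (by linarith)
      _ = t := by rw [one_div, Real.log_inv, neg_neg, Real.exp_log h0]
  · have h2 : (⌈Real.log (1 / t) / Real.log 2⌉₊ : ℝ) < Real.log (1 / t) / Real.log 2 + 1 :=
      Nat.ceil_lt_add_one (div_nonneg hl (by linarith))
    have h3 : Real.log (1 / t) / Real.log 2 ≤ 2 * Real.log (1 / t) := by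
      rw [div_le_iff₀ (by linarith)]
      nlinarith
    linarith

/-- the integrand of (D1) -/
def skwCbg (d : SkwD) (t : ℝ) : ℝ := skwF d t ^ 2 * d.G t

theorem skw_cb_F_abs_le {c : SkwC} {d : SkwD} (h : SkwHyp c d) {t : ℝ} (ht : t ∈ Icc 0 d.zmax) :
    |skwF d t| ≤ 1 := by
  unfold skwF
  rw [abs_le]
  constructor <;> linarith [h.S0 t ht, h.S1 t ht, h.q0 t ht, h.q1 t ht]

theorem skw_cb_q_cont {c : SkwC} (hc : c.Ok) {d : SkwD} (h : SkwHyp c d) : ContinuousOn d.q (Icc 0 d.zmax) := by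
  have hL : LipschitzOnWith (Real.toNNReal c.Lq) d.q (Icc 0 d.zmax) := by
    refine LipschitzOnWith.of_dist_le_mul fun x hx y hy => ?_
    rw [Real.dist_eq, Real.dist_eq, Real.coe_toNNReal _ (by linarith [hc.Lq])]
    exact h.qlip x hx y hy
  exact hL.continuousOn

theorem skw_cb_g_int {c : SkwC} (hc : c.Ok) {d : SkwD} (h : SkwHyp c d) {a b : ℝ} (ha : 0 ≤ a) (hab : a ≤ b)
    (hb : b ≤ d.zmax) : IntervalIntegrable (skwCbg d) volume a b := by
  have hsub : uIcc a b ⊆ Icc 0 d.zmax := by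
    rw [uIcc_of_le hab]; exact Icc_subset_Icc ha hb
  have hS : IntervalIntegrable d.S volume a b := (h.Smono.mono hsub).intervalIntegrable
  have hq : IntervalIntegrable d.q volume a b := ((skw_cb_q_cont hc h).mono hsub).intervalIntegrable
  have hf : IntervalIntegrable (skwF d) volume a b := hS.sub hq
  have hG : IntervalIntegrable d.G volume a b := by
    refine h.Gi.mono_set ?_
    rw [uIcc_of_le hab, uIcc_of_le (le_trans ha (le_trans hab hb))]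
    exact Icc_subset_Icc ha hb
  rw [intervalIntegrable_iff_integrableOn_Ioc_of_le hab] at hf hG ⊢
  refine Integrable.bdd_mul (c := 1) hG (hf.aestronglyMeasurable.pow 2) ?_
  refine ae_restrict_of_forall_mem measurableSet_Ioc fun t ht => ?_
  have h1 := skw_cb_F_abs_le h (t := t) ⟨by linarith [ht.1], by linarith [ht.2]⟩
  rw [Real.norm_eq_abs, abs_pow]
  exact pow_le_one₀ (abs_nonneg _) h1

theorem skw_cb_g_nonneg {c : SkwC} {d : SkwD} (h : SkwHyp c d) {t : ℝ} (ht : t ∈ Icc 0 d.zmax) :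
    0 ≤ skwCbg d t := mul_nonneg (sq_nonneg _) (h.G0 t ht)

/-- forward persistence of a positive deviation -/
theorem skw_cb_fwd {c : SkwC} {d : SkwD} (h : SkwHyp c d) {s t σ : ℝ} (hs : 0 ≤ s) (hst : s ≤ t)
    (ht : t ≤ d.zmax) (hσ : 0 ≤ σ) (hf : d.Z ^ 2 * σ ≤ skwF d s) (hτ : c.Lq * (t - s) ≤ σ / 2) :
    (d.Z ^ 2 * σ / 2) ^ 2 ≤ skwF d t ^ 2 := by
  have hsm : s ∈ Icc 0 d.zmax := ⟨hs, by linarith⟩
  have htm : t ∈ Icc 0 d.zmax := ⟨by linarith, ht⟩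
  have h1 := h.Smono hsm htm hst
  have h2 := h.qlip t htm s hsm
  rw [abs_of_nonneg (by linarith : 0 ≤ t - s)] at h2
  have h3 := (abs_le.mp h2).2
  have hZ : 1 ≤ d.Z ^ 2 := one_le_pow₀ h.Z1
  have h4 : σ ≤ d.Z ^ 2 * σ := by nlinarith
  have h5 : d.Z ^ 2 * σ / 2 ≤ skwF d t := by unfold skwF at hf ⊢; linarith
  exact pow_le_pow_left₀ (by positivity) h5 2

/-- backward persistence of a negative deviation -/
theorem skw_cb_bwd {c : SkwC} {d : SkwD} (h : SkwHyp c d) {s t σ : ℝ} (ht : 0 ≤ t) (hst : t ≤ s)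
    (hs : s ≤ d.zmax) (hσ : 0 ≤ σ) (hf : d.Z ^ 2 * σ ≤ -skwF d s) (hτ : c.Lq * (s - t) ≤ σ / 2) :
    (d.Z ^ 2 * σ / 2) ^ 2 ≤ skwF d t ^ 2 := by
  have hsm : s ∈ Icc 0 d.zmax := ⟨by linarith, hs⟩
  have htm : t ∈ Icc 0 d.zmax := ⟨ht, by linarith⟩
  have h1 := h.Smono htm hsm hst
  have h2 := h.qlip s hsm t htm
  rw [abs_of_nonneg (by linarith : 0 ≤ s - t)] at h2
  have h3 := (abs_le.mp h2).2
  have hZ : 1 ≤ d.Z ^ 2 := one_le_pow₀ h.Z1
  have h4 : σ ≤ d.Z ^ 2 * σ := by nlinarith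
  have h5 : d.Z ^ 2 * σ / 2 ≤ -skwF d t := by unfold skwF at hf ⊢; linarith
  have h6 := pow_le_pow_left₀ (by positivity) h5 2
  rwa [neg_sq] at h6

/-- the mass of a persistence interval is paid by (D1) -/
theorem skw_cb_mass {c : SkwC} (hc : c.Ok) {d : SkwD} (h : SkwHyp c d) {u v m : ℝ} (hu : 0 ≤ u) (huv : u ≤ v)
    (hv : v ≤ d.zmax) (hm : ∀ t ∈ Icc u v, m ≤ skwF d t ^ 2) :
    m * ∫ t in u..v, d.G t ≤ ∫ t in u..v, skwCbg d t := by
  have hG : IntervalIntegrable d.G volume u v := by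
    refine h.Gi.mono_set ?_
    rw [uIcc_of_le huv, uIcc_of_le (le_trans hu (le_trans huv hv))]
    exact Icc_subset_Icc hu hv
  rw [← intervalIntegral.integral_const_mul]
  refine intervalIntegral.integral_mono_on huv (hG.const_mul m) (skw_cb_g_int hc h hu huv hv) fun t ht => ?_
  exact mul_le_mul_of_nonneg_right (hm t ht) (h.G0 t ⟨by linarith [ht.1], by linarith [ht.2]⟩)

/-- one persistence interval `[u, u+τ]`, `τ = σ/(2 Lq)`, near the cut `z` -/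
theorem skw_cb_win {c : SkwC} (hc : c.Ok) {d : SkwD} (h : SkwHyp c d) {z σ u D : ℝ}
    (hz0 : 0 ≤ z) (hzs : z ≤ c.zs) (hσ0 : 0 < σ) (hσb : σ ≤ d.b) (hu0 : 0 ≤ u) (hus : u + σ / (2 * c.Lq) ≤ c.zs)
    (hnear : |z - u| ≤ 3 / 2 * σ)
    (hper : ∀ t ∈ Icc u (u + σ / (2 * c.Lq)), (d.Z ^ 2 * σ / 2) ^ 2 ≤ skwF d t ^ 2)
    (hD : ∫ t in u..(u + σ / (2 * c.Lq)), skwCbg d t ≤ D) :
    d.G z * σ ^ 2 ≤ c.Cadj (2 * c.Lq) * d.tiny + c.Cadj (2 * c.Lq) * (8 * c.Lq) / (d.Z ^ 4 * σ) * D := by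
  have hLq : 1 ≤ c.Lq := hc.Lq
  have hC : 1 ≤ c.Cadj (2 * c.Lq) := hc.Cadj _
  have hZ : 0 < d.Z := by linarith [h.Z1]
  set τ : ℝ := σ / (2 * c.Lq) with hτ
  have hτ0 : 0 < τ := by positivity
  have hτσ : τ ≤ σ / 2 := by
    rw [hτ, div_le_div_iff₀ (by positivity) (by norm_num)]
    nlinarith
  have hτe : τ * (2 * c.Lq) = σ := by rw [hτ]; field_simp
  have hab := abs_le.mp hnear
  -- the comparison
  have hadj := h.adj (2 * c.Lq) σ (min z u) (max z (u + τ) - min z u) u τ (by linarith) hσ0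
    (by nlinarith [h.b0]) (by
      have h1 : u + τ ≤ max z (u + τ) := le_max_right _ _
      have h2 : min z u ≤ u := min_le_right _ _
      linarith) (by
      have h3 : max z (u + τ) - min z u ≤ 2 * σ := by
        rcases le_total z u with hzu | hzu
        · rw [min_eq_left hzu, max_eq_right (by linarith)]; linarith
        · rw [min_eq_right hzu]
          have : max z (u + τ) ≤ u + 3 / 2 * σ := max_le (by linarith) (by linarith)
          linarith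
      nlinarith) le_rfl (by nlinarith) (le_min hz0 hu0) (by
      have : max z (u + τ) ≤ c.zs := max_le hzs hus
      linarith) hu0 hus (by
      rw [abs_le]
      have h2 : u - 3 / 2 * σ ≤ min z u := le_min (by linarith) (by linarith)
      have h3 : min z u ≤ u := min_le_right _ _
      constructor <;> nlinarith) z ⟨min_le_left _ _, by
        have : z ≤ max z (u + τ) := le_max_left _ _
        linarith⟩
  set M : ℝ := ∫ t in u..(u + τ), d.G t with hM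
  have hzm : c.zs ≤ d.zmax := h.zmax
  have hM0 : 0 ≤ M := intervalIntegral.integral_nonneg (by linarith)
    (fun t ht => h.G0 t ⟨by linarith [ht.1], by linarith [ht.2]⟩)
  have hmass := skw_cb_mass hc h hu0 (by linarith : u ≤ u + τ) (by linarith) hper
  have hMD : (d.Z ^ 2 * σ / 2) ^ 2 * M ≤ D := hmass.trans hD
  have hZ4 : 0 < d.Z ^ 4 * σ := by positivity
  -- `σ * M ≤ 4 D / (Z⁴ σ)`
  have h1 : σ * M ≤ 4 / (d.Z ^ 4 * σ) * D := by
    rw [div_mul_eq_mul_div, le_div_iff₀ hZ4]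
    nlinarith
  have h2 : σ ^ 2 * (M / τ) = 2 * c.Lq * (σ * M) := by
    rw [← hτe]; field_simp
  have hσ1 : σ ^ 2 ≤ 1 := by
    have : σ ≤ 1 := by linarith [h.b1]
    nlinarith
  calc d.G z * σ ^ 2 ≤ c.Cadj (2 * c.Lq) * (M / τ + d.tiny) * σ ^ 2 :=
        mul_le_mul_of_nonneg_right hadj (by positivity)
    _ = c.Cadj (2 * c.Lq) * (σ ^ 2 * d.tiny) + c.Cadj (2 * c.Lq) * (σ ^ 2 * (M / τ)) := by ring
    _ ≤ c.Cadj (2 * c.Lq) * d.tiny + c.Cadj (2 * c.Lq) * (2 * c.Lq * (4 / (d.Z ^ 4 * σ) * D)) := by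
        rw [h2]
        have ha : σ ^ 2 * d.tiny ≤ d.tiny := by nlinarith [h.t0]
        have hb : 2 * c.Lq * (σ * M) ≤ 2 * c.Lq * (4 / (d.Z ^ 4 * σ) * D) :=
          mul_le_mul_of_nonneg_left h1 (by linarith)
        have hc0 : 0 ≤ c.Cadj (2 * c.Lq) := by linarith
        nlinarith [mul_le_mul_of_nonneg_left ha hc0, mul_le_mul_of_nonneg_left hb hc0]
    _ = c.Cadj (2 * c.Lq) * d.tiny + c.Cadj (2 * c.Lq) * (8 * c.Lq) / (d.Z ^ 4 * σ) * D := by
        field_simp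
        ring

/-- the contribution of one source `s` serving the cut `z` -/
theorem skw_cb_source {c : SkwC} (hc : c.Ok) {d : SkwD} (h : SkwHyp c d) {Ce α β : ℝ} (hCe : 1 ≤ Ce)
    (hα : d.zlo / 2 ≤ α) (hβ2 : β ≤ 2 * α) (hβ : β ≤ c.zs)
    (hedge : β + 2 * d.b ≤ c.zs ∨ SkwEdge Ce c d)
    (Ψ : ℝ → ℝ) (hΨm : Monotone Ψ)
    (hΨ : ∀ u v p r : ℝ, α / 2 ≤ u → u ≤ v → v ≤ min (4 * α) d.zmax → p ≤ u → v ≤ r →
      ∫ t in u..v, skwCbg d t ≤ Ψ r - Ψ p)
    {z s δ : ℝ} (hz : z ∈ Icc α β) (hs : s ∈ Icc 0 c.zs) (hσ0 : 0 < skwSrc d s) (hsz : |s - z| ≤ skwSrc d s)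
    (hδ : skwSrc d s ≤ δ) :
    d.G z * skwSrc d s ^ 2 ≤ c.M0 * Ce ^ 2 * d.U ^ 4 + c.Cadj (2 * c.Lq) * d.tiny
      + c.Cadj (2 * c.Lq) * (8 * c.Lq) / (d.Z ^ 4 * skwSrc d s) * (Ψ (z + 2 * δ) - Ψ (z - 2 * δ)) := by
  have hα0 : 0 < α := by linarith [h.zlo0]
  have hLq : 1 ≤ c.Lq := hc.Lq
  have hC : 1 ≤ c.Cadj (2 * c.Lq) := hc.Cadj _
  have hM0 : 1 ≤ c.M0 := hc.M0
  have hZ : 0 < d.Z := by linarith [h.Z1]
  have hZ2 : 0 < d.Z ^ 2 := by positivity
  have hzm : c.zs ≤ d.zmax := h.zmax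
  have h1 : skwSrc d s ≤ d.b * skwR s := min_le_left _ _
  have h2 : skwSrc d s ≤ |skwF d s| / d.Z ^ 2 := min_le_right _ _
  have hEdge : SkwEdge Ce c d → 0 < skwF d s → c.zs - s < skwSrc d s / (2 * c.Lq) → skwSrc d s ≤ Ce * d.U ^ 2 :=
    fun hE => hE s hs
  generalize skwSrc d s = σ at *
  have h2' : d.Z ^ 2 * σ ≤ |skwF d s| := by rwa [le_div_iff₀ hZ2, mul_comm] at h2
  have hRs : skwR s ≤ s := min_le_left _ _
  have hR1 : skwR s ≤ 1 := min_le_right _ _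
  have hb0 := h.b0
  have hb1 := h.b1
  have hσb : σ ≤ d.b := by nlinarith
  have hσs : σ ≤ s / 8 := by
    have e1 : d.b * skwR s ≤ d.b * s := mul_le_mul_of_nonneg_left hRs hb0.le
    have e2 : d.b * s ≤ 1 / 8 * s := mul_le_mul_of_nonneg_right hb1 hs.1
    linarith
  have hab := abs_le.mp hsz
  have hτ0 : 0 < σ / (2 * c.Lq) := by positivity
  have hτσ : σ / (2 * c.Lq) ≤ σ / 2 := by
    rw [div_le_div_iff₀ (by positivity) (by norm_num)]
    nlinarith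
  have hτe : c.Lq * (σ / (2 * c.Lq)) = σ / 2 := by field_simp
  have hΔ : 0 ≤ Ψ (z + 2 * δ) - Ψ (z - 2 * δ) := by
    have := hΨm (by linarith : z - 2 * δ ≤ z + 2 * δ)
    linarith
  have hE0 : 0 ≤ c.M0 * Ce ^ 2 * d.U ^ 4 := by
    have : 0 ≤ d.U := by linarith [h.x0, h.xU]
    positivity
  have hz1 := hz.1
  have hz2 := hz.2
  rcases lt_trichotomy (skwF d s) 0 with hneg | hzero | hpos
  · -- backward interval
    rw [abs_of_neg hneg] at h2'
    have hw := skw_cb_win hc h (z := z) (σ := σ) (u := s - σ / (2 * c.Lq))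
      (D := Ψ (z + 2 * δ) - Ψ (z - 2 * δ)) (by linarith) (by linarith) hσ0 hσb (by linarith)
      (by linarith [hs.2]) (by rw [abs_le]; constructor <;> linarith)
      (fun t ht => skw_cb_bwd h (by linarith [ht.1]) (by linarith [ht.2]) (by linarith [hs.2]) hσ0.le h2'
        (by
          have : c.Lq * (s - t) ≤ c.Lq * (σ / (2 * c.Lq)) :=
            mul_le_mul_of_nonneg_left (by linarith [ht.1]) (by linarith)
          linarith))
      (hΨ _ _ _ _ (by linarith) (by linarith) (le_min (by linarith) (by linarith [hs.2])) (by linarith)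
        (by linarith))
    linarith
  · rw [hzero, abs_zero] at h2'
    nlinarith
  · rw [abs_of_pos hpos] at h2'
    by_cases hed : s + σ / (2 * c.Lq) ≤ c.zs
    · have hw := skw_cb_win hc h (z := z) (σ := σ) (u := s)
        (D := Ψ (z + 2 * δ) - Ψ (z - 2 * δ)) (by linarith) (by linarith) hσ0 hσb hs.1 hed
        (by rw [abs_le]; constructor <;> linarith)
        (fun t ht => skw_cb_fwd h hs.1 ht.1 (by linarith [ht.2]) hσ0.le h2'
          (by
            have : c.Lq * (t - s) ≤ c.Lq * (σ / (2 * c.Lq)) :=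
              mul_le_mul_of_nonneg_left (by linarith [ht.2]) (by linarith)
            linarith))
        (hΨ _ _ _ _ (by linarith) (by linarith) (le_min (by linarith) (by linarith)) (by linarith)
          (by linarith))
      linarith
    · push Not at hed
      rcases hedge with hfar | hE
      · exfalso; linarith
      · have hσU := hEdge hE hpos (by linarith)
        have hG : d.G z ≤ c.M0 := h.GM z ⟨by linarith, by linarith⟩
        have hG0 : 0 ≤ d.G z := h.G0 z ⟨by linarith, by linarith⟩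
        have hsq : σ ^ 2 ≤ (Ce * d.U ^ 2) ^ 2 := pow_le_pow_left₀ hσ0.le hσU 2
        have e1 : d.G z * σ ^ 2 ≤ c.M0 * (Ce * d.U ^ 2) ^ 2 :=
          mul_le_mul hG hsq (by positivity) (by linarith)
        have e2 : c.M0 * (Ce * d.U ^ 2) ^ 2 = c.M0 * Ce ^ 2 * d.U ^ 4 := by ring
        have e3 : 0 ≤ c.Cadj (2 * c.Lq) * d.tiny := mul_nonneg (by linarith) h.t0.le
        have e4 : 0 ≤ c.Cadj (2 * c.Lq) * (8 * c.Lq) / (d.Z ^ 4 * σ) * (Ψ (z + 2 * δ) - Ψ (z - 2 * δ)) :=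
          mul_nonneg (by positivity) hΔ
        linarith

/-- the primitive of `f² G` restricted to `[lo, hi]` -/
noncomputable def skwCbPsi (d : SkwD) (lo hi t : ℝ) : ℝ :=
  ∫ u in Iic t, (Icc lo hi).indicator (skwCbg d) u

theorem skw_cb_ind_int {c : SkwC} (hc : c.Ok) {d : SkwD} (h : SkwHyp c d) {lo hi : ℝ} (hlo : 0 ≤ lo)
    (hlh : lo ≤ hi) (hhi : hi ≤ d.zmax) : Integrable ((Icc lo hi).indicator (skwCbg d)) volume := by
  have h1 := skw_cb_g_int hc h hlo hlh hhi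
  rw [intervalIntegrable_iff_integrableOn_Icc_of_le hlh] at h1
  exact h1.integrable_indicator measurableSet_Icc

theorem skw_cb_ind_nonneg {c : SkwC} {d : SkwD} (h : SkwHyp c d) {lo hi : ℝ} (hlo : 0 ≤ lo)
    (hhi : hi ≤ d.zmax) (u : ℝ) : 0 ≤ (Icc lo hi).indicator (skwCbg d) u := by
  refine indicator_nonneg (fun t ht => ?_) u
  exact skw_cb_g_nonneg h ⟨by linarith [ht.1], by linarith [ht.2]⟩

theorem skw_cb_Psi_mono {c : SkwC} (hc : c.Ok) {d : SkwD} (h : SkwHyp c d) {lo hi : ℝ} (hlo : 0 ≤ lo)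
    (hlh : lo ≤ hi) (hhi : hi ≤ d.zmax) : Monotone (skwCbPsi d lo hi) := by
  intro a b hab
  exact setIntegral_mono_set (skw_cb_ind_int hc h hlo hlh hhi).integrableOn
    (Filter.Eventually.of_forall (skw_cb_ind_nonneg h hlo hhi)) (Iic_subset_Iic.mpr hab).eventuallyLE

theorem skw_cb_Psi_nonneg {c : SkwC} {d : SkwD} (h : SkwHyp c d) {lo hi : ℝ} (hlo : 0 ≤ lo)
    (hhi : hi ≤ d.zmax) (t : ℝ) : 0 ≤ skwCbPsi d lo hi t :=
  setIntegral_nonneg measurableSet_Iic (fun u _ => skw_cb_ind_nonneg h hlo hhi u)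

theorem skw_cb_Psi_le {c : SkwC} (hc : c.Ok) {d : SkwD} (h : SkwHyp c d) {lo hi : ℝ} (hlo : 0 ≤ lo)
    (hlh : lo ≤ hi) (hhi : hi ≤ d.zmax) (t : ℝ) : skwCbPsi d lo hi t ≤ ∫ u in lo..hi, skwCbg d u := by
  have h1 : skwCbPsi d lo hi t ≤ ∫ u, (Icc lo hi).indicator (skwCbg d) u :=
    setIntegral_le_integral (skw_cb_ind_int hc h hlo hlh hhi)
      (Filter.Eventually.of_forall (skw_cb_ind_nonneg h hlo hhi))
  rwa [integral_indicator measurableSet_Icc, integral_Icc_eq_integral_Ioc,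
    ← intervalIntegral.integral_of_le hlh] at h1

theorem skw_cb_Psi_ge {c : SkwC} (hc : c.Ok) {d : SkwD} (h : SkwHyp c d) {lo hi : ℝ} (hlo : 0 ≤ lo)
    (hlh : lo ≤ hi) (hhi : hi ≤ d.zmax) (u v p r : ℝ) (hu : lo ≤ u) (huv : u ≤ v) (hv : v ≤ hi) (hp : p ≤ u)
    (hr : v ≤ r) : ∫ t in u..v, skwCbg d t ≤ skwCbPsi d lo hi r - skwCbPsi d lo hi p := by
  have hint := skw_cb_ind_int hc h hlo hlh hhi
  unfold skwCbPsi
  rw [intervalIntegral.integral_Iic_sub_Iic hint.integrableOn hint.integrableOn]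
  have e1 : ∫ t in u..v, skwCbg d t = ∫ t in u..v, (Icc lo hi).indicator (skwCbg d) t := by
    refine intervalIntegral.integral_congr fun t ht => ?_
    rw [uIcc_of_le huv] at ht
    have hmem : t ∈ Icc lo hi := ⟨by linarith [ht.1], by linarith [ht.2]⟩
    simp only [indicator_of_mem hmem]
  rw [e1]
  exact intervalIntegral.integral_mono_interval hp huv hr
    (Filter.Eventually.of_forall (skw_cb_ind_nonneg h hlo hhi)) hint.intervalIntegrable

theorem skw_cb_R_pos {z : ℝ} (hz : 0 < z) : 0 < skwR z := lt_min hz one_pos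

/-- (D1) on the three bands -/
theorem skw_cb_total {c : SkwC} (hc : c.Ok) {d : SkwD} (h : SkwHyp c d) {α : ℝ} (hα : d.zlo / 2 ≤ α)
    (hαs : α ≤ c.zs) :
    ∫ u in (α / 2)..(min (4 * α) d.zmax), skwCbg d u ≤ 6 * c.C1 * (d.U * d.Z) ^ 4 / skwR α := by
  have hα0 : 0 < α := by linarith [h.zlo0]
  have hzm : c.zs ≤ d.zmax := h.zmax
  have hY : 0 ≤ c.C1 * (d.U * d.Z) ^ 4 := by
    have := hc.C1
    positivity
  have hR := skw_cb_R_pos hα0
  have hbound : ∀ ρ : ℝ, α / 2 ≤ ρ → c.C1 * (d.U * d.Z) ^ 4 / skwR ρ ≤ 2 * (c.C1 * (d.U * d.Z) ^ 4 / skwR α) := by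
    intro ρ hρ
    have hρ0 : 0 < ρ := by linarith
    have h1 : skwR α ≤ 2 * skwR ρ := by
      unfold skwR
      rcases le_total ρ 1 with h1 | h1
      · rw [min_eq_left h1]; exact (min_le_left _ _).trans (by linarith)
      · rw [min_eq_right h1]; exact (min_le_right _ _).trans (by norm_num)
    rw [← mul_div_assoc, div_le_div_iff₀ (skw_cb_R_pos hρ0) hR]
    nlinarith
  have d1 := h.D1 (α / 2) ⟨by linarith, by linarith⟩
  have d2 := h.D1 α ⟨by linarith [h.zlo0], by linarith⟩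
  rw [show 2 * (α / 2) = α by ring, min_eq_left (by linarith : α ≤ d.zmax)] at d1
  have i1 := skw_cb_g_int hc h (a := α / 2) (b := α) (by linarith) (by linarith) (by linarith)
  have i2 := skw_cb_g_int hc h (a := α) (b := min (2 * α) d.zmax) (by linarith) (le_min (by linarith) (by linarith))
    (min_le_right _ _)
  have i3 := skw_cb_g_int hc h (a := min (2 * α) d.zmax) (b := min (4 * α) d.zmax)
    (le_min (by linarith) (by linarith)) (min_le_min_right _ (by linarith)) (min_le_right _ _)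
  have e : ∫ u in (α / 2)..(min (4 * α) d.zmax), skwCbg d u
      = (∫ u in (α / 2)..α, skwCbg d u) + (∫ u in α..(min (2 * α) d.zmax), skwCbg d u)
        + ∫ u in (min (2 * α) d.zmax)..(min (4 * α) d.zmax), skwCbg d u := by
    rw [intervalIntegral.integral_add_adjacent_intervals i1 i2,
      intervalIntegral.integral_add_adjacent_intervals (i1.trans i2) i3]
  have d3 : ∫ u in (min (2 * α) d.zmax)..(min (4 * α) d.zmax), skwCbg d u
      ≤ 2 * (c.C1 * (d.U * d.Z) ^ 4 / skwR α) := by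
    rcases le_total (2 * α) d.zmax with h2 | h2
    · have d3 := h.D1 (2 * α) ⟨by linarith [h.zlo0], h2⟩
      rw [show 2 * (2 * α) = 4 * α by ring] at d3
      rw [min_eq_left h2]
      exact d3.trans (hbound _ (by linarith))
    · rw [min_eq_right h2, min_eq_right (by linarith), intervalIntegral.integral_same]
      positivity
  have d1' := d1.trans (hbound _ le_rfl)
  have d2' := d2.trans (hbound _ (by linarith))
  have e6 : 6 * c.C1 * (d.U * d.Z) ^ 4 / skwR α = 3 * (2 * (c.C1 * (d.U * d.Z) ^ 4 / skwR α)) := by ring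
  rw [e, e6]
  unfold skwCbg at *
  linarith

/-- the pointwise bound: maximal function truncated to the dyadic scales `(1/2)^k`, `k < N` -/
theorem skw_cb_point {c : SkwC} (hc : c.Ok) {d : SkwD} (h : SkwHyp c d) {Ce α β : ℝ} (hCe : 1 ≤ Ce)
    (hα : d.zlo / 2 ≤ α) (hβ2 : β ≤ 2 * α) (hβ : β ≤ c.zs)
    (hedge : β + 2 * d.b ≤ c.zs ∨ SkwEdge Ce c d)
    (Ψ : ℝ → ℝ) (hΨm : Monotone Ψ)
    (hΨ : ∀ u v p r : ℝ, α / 2 ≤ u → u ≤ v → v ≤ min (4 * α) d.zmax → p ≤ u → v ≤ r →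
      ∫ t in u..v, skwCbg d t ≤ Ψ r - Ψ p)
    {N : ℕ} (hN : (1 / 2 : ℝ) ^ N ≤ d.tiny) {z : ℝ} (hz : z ∈ Icc α β) :
    d.G z * skwHf c d z ^ 2 ≤ 4 * (c.M0 * Ce ^ 2 * d.U ^ 4 + c.Cadj (2 * c.Lq) * d.tiny + c.M0 * d.tiny ^ 2)
      + ∑ k ∈ Finset.range N, 64 * c.Cadj (2 * c.Lq) * c.Lq / (d.Z ^ 4 * (1 / 2) ^ k)
          * (Ψ (z + 2 * (1 / 2) ^ k) - Ψ (z - 2 * (1 / 2) ^ k)) := by
  have hα0 : 0 < α := by linarith [h.zlo0]
  have hLq : 1 ≤ c.Lq := hc.Lq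
  have hC : 1 ≤ c.Cadj (2 * c.Lq) := hc.Cadj _
  have hM0 : 1 ≤ c.M0 := hc.M0
  have hZ : 0 < d.Z := by linarith [h.Z1]
  have hU : 0 ≤ d.U := by linarith [h.x0, h.xU]
  have ht0 := h.t0
  have hzm : c.zs ≤ d.zmax := h.zmax
  have hG : d.G z ≤ c.M0 := h.GM z ⟨by linarith [hz.1], by linarith [hz.2]⟩
  have hG0 : 0 ≤ d.G z := h.G0 z ⟨by linarith [hz.1], by linarith [hz.2]⟩
  have hterm : ∀ k ∈ Finset.range N, 0 ≤ 64 * c.Cadj (2 * c.Lq) * c.Lq / (d.Z ^ 4 * (1 / 2) ^ k)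
      * (Ψ (z + 2 * (1 / 2) ^ k) - Ψ (z - 2 * (1 / 2) ^ k)) := by
    intro k _
    have hk : (0 : ℝ) < (1 / 2) ^ k := by positivity
    have := hΨm (by linarith : z - 2 * (1 / 2) ^ k ≤ z + 2 * (1 / 2) ^ k)
    exact mul_nonneg (by positivity) (by linarith)
  have hsum := Finset.sum_nonneg hterm
  have hE0 : 0 ≤ c.M0 * Ce ^ 2 * d.U ^ 4 := by positivity
  have hE1 : 0 ≤ c.Cadj (2 * c.Lq) * d.tiny := by positivity
  have hE2 : 0 ≤ c.M0 * d.tiny ^ 2 := by positivity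
  have hη0 : 0 ≤ skwHf c d z := (skw_leaf_coneA c hc d h).nonneg z
  rcases hη0.eq_or_lt with h0 | hpos
  · rw [← h0]
    simp only [ne_eq, OfNat.ofNat_ne_zero, not_false_eq_true, zero_pow, mul_zero]
    linarith
  · obtain ⟨y, ⟨s, hs, rfl⟩, hy⟩ := exists_lt_of_lt_csSup (skw_cone_ne hc d z) (half_lt_self hpos)
    have hy2 : skwHf c d z / 2 < max 0 (skwSrc d s - d.A * |s - z|) := hy
    have hy' : skwHf c d z / 2 < skwSrc d s - d.A * |s - z| := by
      rcases lt_max_iff.mp hy2 with h1 | h1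
      · linarith
      · exact h1
    have habs := abs_nonneg (s - z)
    have hA : |s - z| ≤ d.A * |s - z| := by nlinarith [h.A1]
    have hσ0 : 0 < skwSrc d s := by linarith
    have hsz : |s - z| ≤ skwSrc d s := by linarith
    have hη2 : skwHf c d z ^ 2 ≤ 4 * skwSrc d s ^ 2 := by nlinarith
    have hσb : skwSrc d s ≤ d.b := skw_cone_src_le_b h s
    by_cases hst : skwSrc d s ≤ d.tiny
    · have e1 : skwSrc d s ^ 2 ≤ d.tiny ^ 2 := pow_le_pow_left₀ hσ0.le hst 2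
      have e2 : d.G z * skwHf c d z ^ 2 ≤ c.M0 * (4 * d.tiny ^ 2) :=
        mul_le_mul hG (by linarith) (by positivity) (by linarith)
      linarith
    · push Not at hst
      obtain ⟨k, hk1, hk2⟩ := exists_nat_pow_near_of_lt_one hσ0 (by linarith [h.b1] : skwSrc d s ≤ 1)
        (by norm_num : (0 : ℝ) < 1 / 2) (by norm_num : (1 / 2 : ℝ) < 1)
      have hkN : k < N := by
        by_contra hcon
        push Not at hcon
        have := pow_le_pow_of_le_one (by norm_num : (0 : ℝ) ≤ 1 / 2) (by norm_num) hcon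
        linarith
      have hsrc := skw_cb_source hc h hCe hα hβ2 hβ hedge Ψ hΨm hΨ hz hs hσ0 hsz hk2
      have hkp : (0 : ℝ) < (1 / 2) ^ k := by positivity
      have hΔ : 0 ≤ Ψ (z + 2 * (1 / 2) ^ k) - Ψ (z - 2 * (1 / 2) ^ k) := by
        have := hΨm (by linarith : z - 2 * (1 / 2) ^ k ≤ z + 2 * (1 / 2) ^ k)
        linarith
      have hcoef : 4 * (c.Cadj (2 * c.Lq) * (8 * c.Lq) / (d.Z ^ 4 * skwSrc d s))
          ≤ 64 * c.Cadj (2 * c.Lq) * c.Lq / (d.Z ^ 4 * (1 / 2) ^ k) := by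
        rw [← mul_div_assoc, div_le_div_iff₀ (by positivity) (by positivity)]
        have hk1' : (1 / 2 : ℝ) ^ k ≤ 2 * skwSrc d s := by
          rw [pow_succ] at hk1; linarith
        have hpos1 : 0 ≤ 32 * c.Cadj (2 * c.Lq) * c.Lq * d.Z ^ 4 := by positivity
        nlinarith [mul_le_mul_of_nonneg_left hk1' hpos1]
      have hone := Finset.single_le_sum hterm (Finset.mem_range.mpr hkN)
      have e1 : d.G z * skwHf c d z ^ 2 ≤ 4 * (d.G z * skwSrc d s ^ 2) := by nlinarith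
      have e2 := mul_le_mul_of_nonneg_right hcoef hΔ
      linarith

theorem skw_cb_Hf_cont {c : SkwC} (hc : c.Ok) {d : SkwD} (h : SkwHyp c d) : Continuous (skwHf c d) := by
  have hL : LipschitzWith (Real.toNNReal d.A) (skwHf c d) := by
    refine LipschitzWith.of_dist_le_mul fun x y => ?_
    rw [Real.dist_eq, Real.dist_eq, Real.coe_toNNReal _ (by linarith [h.A1])]
    exact (skw_leaf_coneA c hc d h).lip x y
  exact hL.continuous

/-- integration of the pointwise bound -/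
theorem skw_cb_integral {c : SkwC} (hc : c.Ok) {d : SkwD} (h : SkwHyp c d) {Ce α β : ℝ} (hCe : 1 ≤ Ce)
    (hα : d.zlo / 2 ≤ α) (hαβ : α ≤ β) (hβ2 : β ≤ 2 * α) (hβ : β ≤ c.zs)
    (hedge : β + 2 * d.b ≤ c.zs ∨ SkwEdge Ce c d) {N : ℕ} (hN : (1 / 2 : ℝ) ^ N ≤ d.tiny) :
    ∫ z in α..β, d.G z * skwHf c d z ^ 2
      ≤ (β - α) * (4 * (c.M0 * Ce ^ 2 * d.U ^ 4 + c.Cadj (2 * c.Lq) * d.tiny + c.M0 * d.tiny ^ 2))
        + (N : ℝ) * (256 * c.Cadj (2 * c.Lq) * c.Lq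
          * ((∫ u in (α / 2)..(min (4 * α) d.zmax), skwCbg d u) / d.Z ^ 4)) := by
  have hLq : 1 ≤ c.Lq := hc.Lq
  have hC : 1 ≤ c.Cadj (2 * c.Lq) := hc.Cadj _
  have hα0 : 0 < α := by linarith [h.zlo0]
  have hZ : 0 < d.Z := by linarith [h.Z1]
  have hzm : c.zs ≤ d.zmax := h.zmax
  have hlo : (0 : ℝ) ≤ α / 2 := by linarith
  have hlh : α / 2 ≤ min (4 * α) d.zmax := le_min (by linarith) (by linarith)
  have hhi : min (4 * α) d.zmax ≤ d.zmax := min_le_right _ _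
  obtain ⟨Ψ, hΨdef⟩ : ∃ Ψ : ℝ → ℝ, Ψ = skwCbPsi d (α / 2) (min (4 * α) d.zmax) := ⟨_, rfl⟩
  have hΨm : Monotone Ψ := hΨdef ▸ skw_cb_Psi_mono hc h hlo hlh hhi
  have hΨ0 : ∀ t, 0 ≤ Ψ t := hΨdef ▸ skw_cb_Psi_nonneg h hlo hhi
  obtain ⟨I, hI⟩ : ∃ I : ℝ, I = ∫ u in (α / 2)..(min (4 * α) d.zmax), skwCbg d u := ⟨_, rfl⟩
  have hΨI : ∀ t, Ψ t ≤ I := by rw [hΨdef, hI]; exact skw_cb_Psi_le hc h hlo hlh hhi
  have hΨ : ∀ u v p r : ℝ, α / 2 ≤ u → u ≤ v → v ≤ min (4 * α) d.zmax → p ≤ u → v ≤ r →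
      ∫ t in u..v, skwCbg d t ≤ Ψ r - Ψ p := hΨdef ▸ skw_cb_Psi_ge hc h hlo hlh hhi
  rw [← hI]
  obtain ⟨K, hK⟩ : ∃ K : ℕ → ℝ, K = fun k => 64 * c.Cadj (2 * c.Lq) * c.Lq / (d.Z ^ 4 * (1 / 2) ^ k) := ⟨_, rfl⟩
  obtain ⟨R0, hR0⟩ : ∃ R0 : ℝ, R0 = 4 * (c.M0 * Ce ^ 2 * d.U ^ 4 + c.Cadj (2 * c.Lq) * d.tiny + c.M0 * d.tiny ^ 2) :=
    ⟨_, rfl⟩
  have hpt : ∀ z ∈ Icc α β, d.G z * skwHf c d z ^ 2
      ≤ R0 + ∑ k ∈ Finset.range N, K k * (Ψ (z + 2 * (1 / 2) ^ k) - Ψ (z - 2 * (1 / 2) ^ k)) := by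
    intro z hz
    rw [hK, hR0]
    exact skw_cb_point hc h hCe hα hβ2 hβ hedge Ψ hΨm hΨ hN hz
  rw [← hR0]
  -- integrability
  have hiL : IntervalIntegrable (fun z => d.G z * skwHf c d z ^ 2) volume α β := by
    refine ContinuousOn.intervalIntegrable ?_
    rw [uIcc_of_le hαβ]
    exact (h.Gc.mono (Icc_subset_Icc hα0.le hβ)).mul ((skw_cb_Hf_cont hc h).pow 2).continuousOn
  have hik : ∀ k : ℕ, IntervalIntegrable (fun z => Ψ (z + 2 * (1 / 2) ^ k) - Ψ (z - 2 * (1 / 2) ^ k)) volume α β := by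
    intro k
    exact (hΨm.comp (fun x y hxy => by linarith : Monotone fun z : ℝ => z + 2 * (1 / 2) ^ k)).intervalIntegrable.sub
      (hΨm.comp (fun x y hxy => by linarith : Monotone fun z : ℝ => z - 2 * (1 / 2) ^ k)).intervalIntegrable
  have hik' : ∀ k ∈ Finset.range N, IntervalIntegrable
      (fun z => K k * (Ψ (z + 2 * (1 / 2) ^ k) - Ψ (z - 2 * (1 / 2) ^ k))) volume α β :=
    fun k _ => (hik k).const_mul _
  have hiS : IntervalIntegrable (fun z => ∑ k ∈ Finset.range N,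
      K k * (Ψ (z + 2 * (1 / 2) ^ k) - Ψ (z - 2 * (1 / 2) ^ k))) volume α β := by
    have h1 := IntervalIntegrable.sum (Finset.range N) hik'
    have e : (fun z => ∑ k ∈ Finset.range N, K k * (Ψ (z + 2 * (1 / 2) ^ k) - Ψ (z - 2 * (1 / 2) ^ k)))
        = ∑ k ∈ Finset.range N, fun z => K k * (Ψ (z + 2 * (1 / 2) ^ k) - Ψ (z - 2 * (1 / 2) ^ k)) := by
      ext z
      rw [Finset.sum_apply]
    rw [e]
    exact h1
  have hmain := intervalIntegral.integral_mono_on hαβ hiL (intervalIntegrable_const.add hiS) hpt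
  rw [intervalIntegral.integral_add intervalIntegrable_const hiS, intervalIntegral.integral_const, smul_eq_mul,
    intervalIntegral.integral_finsetSum hik'] at hmain
  -- each class
  have hclass : ∀ k ∈ Finset.range N, ∫ z in α..β, K k * (Ψ (z + 2 * (1 / 2) ^ k) - Ψ (z - 2 * (1 / 2) ^ k))
      ≤ 256 * c.Cadj (2 * c.Lq) * c.Lq * (I / d.Z ^ 4) := by
    intro k _
    have hkp : (0 : ℝ) < (1 / 2) ^ k := by positivity
    rw [intervalIntegral.integral_const_mul]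
    have hs := skw_cb_shift Ψ I α β (2 * (1 / 2) ^ k) hΨm hΨ0 hΨI (by positivity)
    have hKk : K k = 64 * c.Cadj (2 * c.Lq) * c.Lq / (d.Z ^ 4 * (1 / 2) ^ k) := by rw [hK]
    have hKk0 : 0 ≤ K k := by rw [hKk]; positivity
    calc K k * ∫ z in α..β, (Ψ (z + 2 * (1 / 2) ^ k) - Ψ (z - 2 * (1 / 2) ^ k))
        ≤ K k * (2 * (2 * (1 / 2) ^ k) * I) := mul_le_mul_of_nonneg_left hs hKk0
      _ = 256 * c.Cadj (2 * c.Lq) * c.Lq * (I / d.Z ^ 4) := by
          rw [hKk]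
          field_simp
          ring
  have hsum := Finset.sum_le_sum hclass
  rw [Finset.sum_const, Finset.card_range, nsmul_eq_mul] at hsum
  linarith

/-- the arithmetic of the constants -/
theorem skw_cb_arith {zs M0 Ce Ck Lq C1 U t L X I' len N : ℝ} (hzs : 0 < zs) (hM0 : 1 ≤ M0) (hCe : 1 ≤ Ce)
    (hCk : 1 ≤ Ck) (hLq : 1 ≤ Lq) (hC1 : 1 ≤ C1) (hU : 0 ≤ U) (ht0 : 0 < t) (ht1 : t ≤ U ^ 4) (hU41 : U ^ 4 ≤ 1)
    (hL1 : 1 ≤ L) (hXU : U ^ 4 ≤ X) (hI' : I' ≤ 6 * C1 * X) (hI0 : 0 ≤ I') (hlen0 : 0 ≤ len) (hlen : len ≤ zs)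
    (hN0 : 0 ≤ N) (hNL : N ≤ 2 * L) :
    len * (4 * (M0 * Ce ^ 2 * U ^ 4 + Ck * t + M0 * t ^ 2)) + N * (256 * Ck * Lq * I')
      ≤ (1 + zs * (4 * (M0 * Ce ^ 2 + Ck + M0)) + 3072 * Ck * Lq * C1) * (L * X) := by
  have hX0 : 0 ≤ X := (pow_nonneg hU 4).trans hXU
  have ht2 : t ^ 2 ≤ U ^ 4 := by nlinarith
  have hR0 : 4 * (M0 * Ce ^ 2 * U ^ 4 + Ck * t + M0 * t ^ 2) ≤ 4 * (M0 * Ce ^ 2 + Ck + M0) * X := by
    have a1 : M0 * Ce ^ 2 * U ^ 4 ≤ M0 * Ce ^ 2 * X := mul_le_mul_of_nonneg_left hXU (by positivity)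
    have a2 : Ck * t ≤ Ck * X := mul_le_mul_of_nonneg_left (ht1.trans hXU) (by linarith)
    have a3 : M0 * t ^ 2 ≤ M0 * X := mul_le_mul_of_nonneg_left (ht2.trans hXU) (by linarith)
    nlinarith
  have hR0' : 0 ≤ 4 * (M0 * Ce ^ 2 * U ^ 4 + Ck * t + M0 * t ^ 2) := by positivity
  have t1 : len * (4 * (M0 * Ce ^ 2 * U ^ 4 + Ck * t + M0 * t ^ 2))
      ≤ zs * (4 * (M0 * Ce ^ 2 + Ck + M0)) * (L * X) := by
    calc len * (4 * (M0 * Ce ^ 2 * U ^ 4 + Ck * t + M0 * t ^ 2))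
        ≤ zs * (4 * (M0 * Ce ^ 2 + Ck + M0) * X) := mul_le_mul hlen hR0 hR0' hzs.le
      _ = zs * (4 * (M0 * Ce ^ 2 + Ck + M0)) * (1 * X) := by ring
      _ ≤ zs * (4 * (M0 * Ce ^ 2 + Ck + M0)) * (L * X) :=
          mul_le_mul_of_nonneg_left (mul_le_mul_of_nonneg_right hL1 hX0) (by positivity)
  have t2 : N * (256 * Ck * Lq * I') ≤ 3072 * Ck * Lq * C1 * (L * X) := by
    have hp : 0 ≤ 256 * Ck * Lq := by positivity
    calc N * (256 * Ck * Lq * I') ≤ (2 * L) * (256 * Ck * Lq * (6 * C1 * X)) :=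
          mul_le_mul hNL (mul_le_mul_of_nonneg_left hI' hp) (mul_nonneg hp hI0) (by linarith)
      _ = 3072 * Ck * Lq * C1 * (L * X) := by ring
  have hLX : 0 ≤ L * X := mul_nonneg (by linarith) hX0
  nlinarith

/-- **Leaf CONE-B** -/
theorem skw_leaf_coneB : SkwLeafConeB := by
  intro c hc Ce hCe
  have hLq : 1 ≤ c.Lq := hc.Lq
  have hC : 1 ≤ c.Cadj (2 * c.Lq) := hc.Cadj _
  have hM0 : 1 ≤ c.M0 := hc.M0
  have hC1 : 1 ≤ c.C1 := hc.C1
  have hzs : 0 < c.zs := hc.zs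
  refine ⟨1 + c.zs * (4 * (c.M0 * Ce ^ 2 + c.Cadj (2 * c.Lq) + c.M0)) + 3072 * c.Cadj (2 * c.Lq) * c.Lq * c.C1,
    by
      have h1 : 0 ≤ c.zs * (4 * (c.M0 * Ce ^ 2 + c.Cadj (2 * c.Lq) + c.M0)) := by positivity
      have h2 : 0 ≤ 3072 * c.Cadj (2 * c.Lq) * c.Lq * c.C1 := by positivity
      linarith, ?_⟩
  intro d h α β hα hαβ hβ2 hβ hedge
  have hα0 : 0 < α := by linarith [h.zlo0]
  have hZ : 0 < d.Z := by linarith [h.Z1]
  have hU : 0 ≤ d.U := by linarith [h.x0, h.xU]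
  have ht0 := h.t0
  have hzm : c.zs ≤ d.zmax := h.zmax
  have ht1 : d.tiny ≤ d.U ^ 4 := by
    calc d.tiny ≤ d.x ^ 12 := h.t1
      _ ≤ d.U ^ 12 := pow_le_pow_left₀ h.x0.le h.xU 12
      _ ≤ d.U ^ 4 := pow_le_pow_of_le_one hU h.U1 (by norm_num)
  have hU41 : d.U ^ 4 ≤ 1 := pow_le_one₀ hU h.U1
  obtain ⟨N, hN, hNL⟩ := skw_cb_N d.tiny ht0 (ht1.trans hU41)
  have hint := skw_cb_integral hc h hCe hα hαβ hβ2 hβ hedge hN
  have hItot := skw_cb_total hc h hα (by linarith : α ≤ c.zs)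
  have hR := skw_cb_R_pos hα0
  have hR1 : skwR α ≤ 1 := min_le_right _ _
  have hI0 : 0 ≤ ∫ u in (α / 2)..(min (4 * α) d.zmax), skwCbg d u :=
    intervalIntegral.integral_nonneg (le_min (by linarith) (by linarith))
      (fun u hu => skw_cb_g_nonneg h ⟨by linarith [hu.1], hu.2.trans (min_le_right _ _)⟩)
  have hXU : d.U ^ 4 ≤ d.U ^ 4 / skwR α := by
    rw [le_div_iff₀ hR]
    nlinarith [pow_nonneg hU 4]
  have hIZ : (∫ u in (α / 2)..(min (4 * α) d.zmax), skwCbg d u) / d.Z ^ 4 ≤ 6 * c.C1 * (d.U ^ 4 / skwR α) := by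
    rw [div_le_iff₀ (by positivity)]
    refine hItot.trans (le_of_eq ?_)
    ring
  have hL1 : 1 ≤ skwL d := by
    unfold skwL
    have : 0 ≤ Real.log (1 / d.tiny) := Real.log_nonneg (by rw [le_div_iff₀ ht0]; linarith)
    linarith
  have har := skw_cb_arith (N := (N : ℝ)) (len := β - α) hzs hM0 hCe hC hLq hC1 hU ht0 ht1 hU41 hL1 hXU hIZ
    (div_nonneg hI0 (by positivity)) (by linarith) (by linarith) (Nat.cast_nonneg N) hNL
  refine (hint.trans har).trans (le_of_eq ?_)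
  ring

end Claimed.Agent.R286
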