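import Claimed.Agent.R286.W.Leaves

/-!
# Row 286, folder W, file GlueK : lemmas shared by the two glues GLUE-D / GLUE-L      (helper112; prefix `skw_gk_`)

From the conclusions of the leaves H0, CONE-A (as hypotheses): on the active interval `[zlo/4, zs]`
* `skw_gk_hact_nonneg`, `skw_gk_qlip` (constant `3 + A`), `skw_gk_upper` (`≤ 2 r`), `skw_gk_lower`, `skw_gk_dev` (constant `Cf`), `skw_gk_meas`.
Abstract (any width `hh`):
* `skw_gk_osc`  : the `S`-oscillation clause of `SkwConcl.tiles` from `qlip`, `upper`, `dev` and the comparability of the tile;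
* `skw_gk_tileG`: the `sup G` clause on a tile inside the active interval, from `SkwAdj`;
* `skw_gk_win_mono`: `SkwWin` is monotone in the constant.
-/

set_option autoImplicit false

namespace Claimed.Agent.R286

open Set MeasureTheory

theorem skw_gk_R_lip (z z' : ℝ) : skwR z' ≤ skwR z + |z - z'| := by
  unfold skwR
  have h1 : z' ≤ z + |z - z'| := by linarith [neg_abs_le (z - z')]
  have h2 : 0 ≤ |z - z'| := abs_nonneg _
  rcases le_total z 1 with h | h
  · rw [min_eq_left h]; exact (min_le_left _ _).trans h1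
  · rw [min_eq_right h]; exact (min_le_right _ _).trans (by linarith)

theorem skw_gk_R_pos {z : ℝ} (hz : 0 < z) : 0 < skwR z := lt_min hz one_pos

theorem skw_gk_R_le_one (z : ℝ) : skwR z ≤ 1 := min_le_right _ _

theorem skw_gk_R_mono {z z' : ℝ} (h : z ≤ z') : skwR z ≤ skwR z' := min_le_min_right 1 h

theorem skw_gk_hact_nonneg {c : SkwC} {d : SkwD} (hf : SkwConeConcl c d) (z : ℝ) : 0 ≤ skwHact c d z :=
  (hf.nonneg z).trans ((le_max_right _ _).trans (le_max_left _ _))

theorem skw_gk_qlip {c : SkwC} {d : SkwD} {C0 : ℝ} (H : SkwHyp c d) (h0 : SkwH0Concl C0 c d) (hf : SkwConeConcl c d)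
    {z z' : ℝ} (hz : z ∈ Icc (d.zlo / 4) c.zs) (hz' : z' ∈ Icc (d.zlo / 4) c.zs) :
    skwHact c d z' ≤ (3 + d.A) * (skwHact c d z + |z - z'|) := by
  have hzlo := H.zlo0
  have hA := H.A1
  have hδ : 0 ≤ |z - z'| := abs_nonneg _
  have hn := skw_gk_hact_nonneg hf z
  have a0 : skwH0 c d z ≤ skwHact c d z := (le_max_left _ _).trans (le_max_left _ _)
  have a1 : skwHf c d z ≤ skwHact c d z := (le_max_right _ _).trans (le_max_left _ _)
  have a2 : d.Hx z ≤ skwHact c d z := le_max_right _ _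
  have hAδ : 0 ≤ d.A * |z - z'| := by positivity
  have hAn : 0 ≤ d.A * skwHact c d z := by positivity
  have e : (3 + d.A) * (skwHact c d z + |z - z'|)
      = 3 * skwHact c d z + 3 * |z - z'| + d.A * skwHact c d z + d.A * |z - z'| := by ring
  rw [e]
  have hz0 : z ∈ Icc 0 c.zs := ⟨by linarith [hz.1], hz.2⟩
  have hz0' : z' ∈ Icc 0 c.zs := ⟨by linarith [hz'.1], hz'.2⟩
  unfold skwHact at *
  refine max_le (max_le ?_ ?_) ?_
  · -- H0
    by_cases hcmp : skwR z ≤ 2 * skwR z' ∧ skwR z' ≤ 2 * skwR z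
    · have := h0.qlip z hz z' hz' hcmp.1 hcmp.2
      linarith
    · have hcap := h0.cap z' hz'
      have hb := H.b1
      have hb0 := H.b0
      have hr' : 0 < skwR z' := skw_gk_R_pos (by linarith [hz'.1])
      have hr : 0 < skwR z := skw_gk_R_pos (by linarith [hz.1])
      have l1 := skw_gk_R_lip z z'
      have l2 := skw_gk_R_lip z' z
      rw [abs_sub_comm] at l2
      have hbr : d.b * skwR z' ≤ skwR z' / 8 := by
        have := mul_le_mul_of_nonneg_right hb hr'.le
        linarith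
      rw [not_and_or, not_le, not_le] at hcmp
      rcases hcmp with h | h <;> linarith
  · have := hf.lip z z'
    rw [abs_le] at this
    linarith [this.1]
  · have := H.Hxlip z hz0 z' hz0'
    rw [abs_le] at this
    linarith [this.1]

theorem skw_gk_upper {c : SkwC} {d : SkwD} {C0 : ℝ} (H : SkwHyp c d) (h0 : SkwH0Concl C0 c d) (hf : SkwConeConcl c d)
    {z : ℝ} (hz : z ∈ Icc (d.zlo / 4) c.zs) : skwHact c d z ≤ 2 * skwR z := by
  have hzlo := H.zlo0
  have hz0 : 0 ≤ z := by linarith [hz.1]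
  have hr : 0 < skwR z := skw_gk_R_pos (by linarith [hz.1])
  have hbr : d.b * skwR z ≤ skwR z / 8 := by
    have := mul_le_mul_of_nonneg_right H.b1 hr.le
    linarith
  unfold skwHact
  refine max_le (max_le ?_ ?_) (H.Hxr z ⟨hz0, hz.2⟩)
  · linarith [h0.cap z hz]
  · linarith [hf.le z hz0]

/-- without the extra width the cap `b r` holds -/
theorem skw_gk_cap {c : SkwC} {d : SkwD} {C0 : ℝ} (H : SkwHyp c d) (h0 : SkwH0Concl C0 c d) (hf : SkwConeConcl c d)
    {z : ℝ} (hz : z ∈ Icc (d.zlo / 4) c.zs) (hx : d.Hx z ≤ d.b * skwR z) : skwHact c d z ≤ d.b * skwR z := by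
  have hzlo := H.zlo0
  unfold skwHact
  exact max_le (max_le (h0.cap z hz) (hf.le z (by linarith [hz.1]))) hx

theorem skw_gk_lower {c : SkwC} {d : SkwD} {C0 C : ℝ} (hC0 : 1 ≤ C0) (hC : C0 ≤ C) (H : SkwHyp c d)
    (h0 : SkwH0Concl C0 c d) {z : ℝ} (hz : z ∈ Icc (d.zlo / 4) c.zs) :
    min (d.b * skwR z) (d.U ^ 2 / skwR z) / C ≤ skwHact c d z := by
  have hzlo := H.zlo0
  have hr : 0 < skwR z := skw_gk_R_pos (by linarith [hz.1])
  have hb0 := H.b0
  have hU0 : 0 < d.U := H.x0.trans_le H.xU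
  have hm : 0 ≤ min (d.b * skwR z) (d.U ^ 2 / skwR z) := le_min (by positivity) (by positivity)
  have h1 : min (d.b * skwR z) (d.U ^ 2 / skwR z) / C ≤ min (d.b * skwR z) (d.U ^ 2 / skwR z) / C0 :=
    div_le_div_of_nonneg_left hm (by linarith) hC
  exact h1.trans ((h0.lower z hz).trans ((le_max_left _ _).trans (le_max_left _ _)))

theorem skw_gk_dev {c : SkwC} {d : SkwD} (hc : c.Ok) (H : SkwHyp c d) (hf : SkwConeConcl c d)
    {z : ℝ} (hz : z ∈ Icc (d.zlo / 4) c.zs) : |skwF d z| ≤ c.Cf * skwE d (skwHact c d) z / d.b := by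
  have hzlo := H.zlo0
  have hr : 0 < skwR z := skw_gk_R_pos (by linarith [hz.1])
  have hb0 := H.b0
  have hb1 : d.b ≤ 1 := by linarith [H.b1]
  have hZ := H.Z1
  have hZ2 : 1 ≤ d.Z ^ 2 := one_le_pow₀ hZ
  have hCf := hc.Cf
  have hfr := H.fr z ⟨hz.1, hz.2.trans H.zmax⟩
  have hsrc : skwSrc d z ≤ skwHact c d z :=
    (hf.ge z ⟨by linarith [hz.1], hz.2⟩).trans ((le_max_right _ _).trans (le_max_left _ _))
  rw [le_div_iff₀ hb0]
  have hfb : |skwF d z| * d.b ≤ |skwF d z| := mul_le_of_le_one_right (abs_nonneg _) hb1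
  unfold skwE
  rw [mul_min_of_nonneg _ _ (by linarith : 0 ≤ c.Cf)]
  refine le_min (hfb.trans hfr) ?_
  -- second component
  have h1 : d.Z ^ 2 * skwSrc d z ≤ d.Z ^ 2 * skwHact c d z := mul_le_mul_of_nonneg_left hsrc (by positivity)
  have h2 : |skwF d z| * d.b ≤ c.Cf * (d.Z ^ 2 * skwSrc d z) := by
    unfold skwSrc
    rcases le_total (d.b * skwR z) (|skwF d z| / d.Z ^ 2) with h | h
    · rw [min_eq_left h]
      calc |skwF d z| * d.b ≤ c.Cf * skwR z * d.b := mul_le_mul_of_nonneg_right hfr hb0.le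
        _ = c.Cf * (1 * (d.b * skwR z)) := by ring
        _ ≤ c.Cf * (d.Z ^ 2 * (d.b * skwR z)) := by
            apply mul_le_mul_of_nonneg_left _ (by linarith)
            exact mul_le_mul_of_nonneg_right hZ2 (by positivity)
    · rw [min_eq_right h]
      have : d.Z ^ 2 * (|skwF d z| / d.Z ^ 2) = |skwF d z| := by field_simp
      rw [this]
      calc |skwF d z| * d.b ≤ |skwF d z| := hfb
        _ ≤ c.Cf * |skwF d z| := le_mul_of_one_le_left (abs_nonneg _) hCf
  exact h2.trans (mul_le_mul_of_nonneg_left h1 (by linarith))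

theorem skw_gk_meas {c : SkwC} {d : SkwD} {C0 α : ℝ} (H : SkwHyp c d) (h0 : SkwH0Concl C0 c d) (hf : SkwConeConcl c d)
    (hα : d.zlo / 4 ≤ α) : AEStronglyMeasurable (skwHact c d) (volume.restrict (Icc α c.zs)) := by
  have hzlo := H.zlo0
  have m0 : AEStronglyMeasurable (skwH0 c d) (volume.restrict (Icc α c.zs)) :=
    h0.meas.mono_measure (Measure.restrict_mono (Icc_subset_Icc hα le_rfl) le_rfl)
  have m1 : AEStronglyMeasurable (skwHf c d) (volume.restrict (Icc α c.zs)) := by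
    have hl : LipschitzWith d.A.toNNReal (skwHf c d) := by
      apply LipschitzWith.of_dist_le_mul
      intro x y
      rw [Real.dist_eq, Real.dist_eq, Real.coe_toNNReal _ (by linarith [H.A1])]
      exact hf.lip x y
    exact hl.continuous.aestronglyMeasurable
  have m2 : AEStronglyMeasurable d.Hx (volume.restrict (Icc α c.zs)) := by
    have hl : LipschitzOnWith 1 d.Hx (Icc 0 c.zs) := by
      apply LipschitzOnWith.of_dist_le_mul
      intro x hx y hy
      rw [Real.dist_eq, Real.dist_eq, NNReal.coe_one, one_mul]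
      exact H.Hxlip x hx y hy
    exact (hl.continuousOn.aestronglyMeasurable measurableSet_Icc).mono_measure
      (Measure.restrict_mono (Icc_subset_Icc (by linarith) le_rfl) le_rfl)
  exact (m0.sup m1).sup m2

theorem skw_gk_win_mono {C₁ C : ℝ} {d : SkwD} {z w a l : ℝ} (hC₁ : 0 < C₁) (hC : C₁ ≤ C) (hU : 0 < d.U)
    (hr : 0 < skwR z) (hw : 0 ≤ w) (h : SkwWin C₁ d z w a l) : SkwWin C d z w a l := by
  have hC0 : 0 < C := hC₁.trans_le hC
  have havg : 0 ≤ (∫ t in a..(a + l), d.G t) / l := by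
    have h1 : 0 < d.U ^ 6 / (C₁ * skwR z ^ 3) := by positivity
    have h2 := h1.trans_le h.big
    by_contra hcon
    rw [not_le] at hcon
    have : (∫ t in a..(a + l), d.G t) / l * w ^ 3 ≤ 0 :=
      mul_nonpos_of_nonpos_of_nonneg hcon.le (by positivity)
    linarith
  refine ⟨?_, h.len_hi, ?_, ?_, ?_⟩
  · exact (div_le_div_of_nonneg_left hw hC₁ hC).trans h.len_lo
  · exact h.near.trans (mul_le_mul_of_nonneg_right hC hw)
  · intro s hs
    exact (h.sup s hs).trans (mul_le_mul_of_nonneg_right hC havg)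
  · refine le_trans ?_ h.big
    apply div_le_div_of_nonneg_left (by positivity) (by positivity)
    exact mul_le_mul_of_nonneg_right hC (by positivity)

theorem skw_gk_tileG {c : SkwC} {d : SkwD} (H : SkwHyp c d) {κ t t' : ℝ} (hκ : 1 ≤ κ) (ht : 0 ≤ t) (htt : t < t')
    (ht' : t' ≤ c.zs) (hlen : t' - t ≤ κ * d.b) :
    ∀ z ∈ Icc t t', d.G z ≤ c.Cadj κ * ((∫ s in t..t', d.G s) / (t' - t) + d.tiny) := by
  have hl : 0 < t' - t := by linarith
  have hκ0 : 0 < κ := by linarith
  have h1 : (t' - t) / κ ≤ t' - t := div_le_self hl.le hκ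
  have h2 : t' - t ≤ κ * (t' - t) := le_mul_of_one_le_left hl.le hκ
  have := H.adj κ (t' - t) t (t' - t) t (t' - t) hκ hl hlen h1 h2 h1 h2 ht (by linarith) ht (by linarith)
    (by simp; positivity)
  rw [add_sub_cancel] at this
  exact this

/-- the `S`-oscillation clause of the tiles, for an abstract width -/
theorem skw_gk_osc {c : SkwC} {d : SkwD} (hc : c.Ok) (H : SkwHyp c d) {hh : ℝ → ℝ} {zbuf Cq Cu Cd CT t t' : ℝ}
    (hzb : zbuf ≤ d.zmax) (hCq : 1 ≤ Cq) (hCu : 1 ≤ Cu) (hCd : 1 ≤ Cd) (hCT : 1 ≤ CT)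
    (qlip : ∀ z ∈ Icc (d.zlo / 2) zbuf, ∀ z' ∈ Icc (d.zlo / 2) zbuf, hh z' ≤ Cq * (hh z + |z - z'|))
    (upper : ∀ z ∈ Icc (d.zlo / 2) zbuf, hh z ≤ Cu * skwR z)
    (dev : ∀ z ∈ Icc (d.zlo / 2) zbuf, |skwF d z| ≤ Cd * skwE d hh z / d.b)
    (ht : t ∈ Icc (d.zlo / 2) zbuf) (htt : t < t') (h1 : hh t ≤ CT * (t' - t)) (h2 : t' - t ≤ CT * hh t) :
    ∀ z ∈ Icc (d.zlo / 2) zbuf, ∀ z' ∈ Icc (d.zlo / 2) zbuf, z ≤ z' → t - (t' - t) ≤ z → z' ≤ t' + (t' - t) →
      d.S z' - d.S z ≤ (2 * Cd * (Cq * (CT + 2) + 2 * CT * Cu + 1) + 3 * c.Lq * (CT * Cu + 1)) / d.b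
        * min (skwR t) (d.Z ^ 2 * (t' - t)) := by
  intro z hz z' hz' hzz hlo hhi
  have hzlo := H.zlo0
  have hb0 := H.b0
  have hb1 : d.b ≤ 1 := by linarith [H.b1]
  have hZ2 : 1 ≤ d.Z ^ 2 := one_le_pow₀ H.Z1
  have hLq := hc.Lq
  set τ := t' - t with hτ
  have hτ0 : 0 < τ := by linarith
  have hrt : 0 < skwR t := skw_gk_R_pos (by linarith [ht.1])
  set m := min (skwR t) (d.Z ^ 2 * τ) with hm
  have hm0 : 0 ≤ m := le_min hrt.le (by positivity)
  set K := Cq * (CT + 2) + 2 * CT * Cu + 1 with hK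
  have hK0 : 0 ≤ K := by positivity
  have hut := upper t ht
  have hτr : τ ≤ CT * Cu * skwR t := by
    calc τ ≤ CT * hh t := h2
      _ ≤ CT * (Cu * skwR t) := mul_le_mul_of_nonneg_left hut (by linarith)
      _ = CT * Cu * skwR t := by ring
  -- the envelope at a point near the tile
  have henv : ∀ y ∈ Icc (d.zlo / 2) zbuf, |t - y| ≤ 2 * τ → skwE d hh y ≤ K * m := by
    intro y hy hyt
    unfold skwE
    rw [hm, mul_min_of_nonneg _ _ hK0]
    apply min_le_min
    · have a1 := skw_gk_R_lip t y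
      have a2 : (1 + 2 * (CT * Cu)) * skwR t ≤ K * skwR t := by
        apply mul_le_mul_of_nonneg_right _ hrt.le
        have : 0 ≤ Cq * (CT + 2) := by positivity
        rw [hK]; linarith
      linarith
    · have a1 := qlip t ht y hy
      have a2 : hh t + |t - y| ≤ (CT + 2) * τ := by linarith
      have a3 : hh y ≤ Cq * ((CT + 2) * τ) := a1.trans (mul_le_mul_of_nonneg_left a2 (by linarith))
      have a4 : Cq * ((CT + 2) * τ) ≤ K * τ := by
        have : 0 ≤ (2 * CT * Cu + 1) * τ := by positivity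
        rw [hK]; nlinarith
      calc d.Z ^ 2 * hh y ≤ d.Z ^ 2 * (K * τ) := mul_le_mul_of_nonneg_left (a3.trans a4) (by positivity)
        _ = K * (d.Z ^ 2 * τ) := by ring
  have hfy : ∀ y ∈ Icc (d.zlo / 2) zbuf, |t - y| ≤ 2 * τ → |skwF d y| ≤ Cd * (K * m) / d.b := by
    intro y hy hyt
    refine (dev y hy).trans ?_
    apply div_le_div_of_nonneg_right _ hb0.le
    exact mul_le_mul_of_nonneg_left (henv y hy hyt) (by linarith)
  have b1 : |t - z| ≤ 2 * τ := by rw [abs_le]; constructor <;> linarith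
  have b2 : |t - z'| ≤ 2 * τ := by rw [abs_le]; constructor <;> linarith
  have f1 := hfy z hz b1
  have f2 := hfy z' hz' b2
  have hq := H.qlip z' ⟨by linarith [hz'.1], hz'.2.trans hzb⟩ z ⟨by linarith [hz.1], hz.2.trans hzb⟩
  rw [abs_of_nonneg (by linarith : 0 ≤ z' - z)] at hq
  have hq' : d.q z' - d.q z ≤ c.Lq * (3 * τ) :=
    (le_abs_self _).trans (hq.trans (mul_le_mul_of_nonneg_left (by linarith) (by linarith)))
  have hτm : τ ≤ (CT * Cu + 1) * m := by
    rw [hm, mul_min_of_nonneg _ _ (by positivity)]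
    apply le_min
    · linarith
    · have : 1 * (1 * τ) ≤ (CT * Cu + 1) * (d.Z ^ 2 * τ) := by
        apply mul_le_mul _ (mul_le_mul_of_nonneg_right hZ2 hτ0.le) (by positivity) (by positivity)
        have : 0 ≤ CT * Cu := by positivity
        linarith
      linarith
  have hX : c.Lq * (3 * τ) ≤ 3 * c.Lq * (CT * Cu + 1) * m / d.b := by
    have x1 : c.Lq * (3 * τ) ≤ 3 * c.Lq * (CT * Cu + 1) * m := by
      calc c.Lq * (3 * τ) ≤ c.Lq * (3 * ((CT * Cu + 1) * m)) := by
            apply mul_le_mul_of_nonneg_left _ (by linarith); linarith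
        _ = _ := by ring
    have x2 : 0 ≤ 3 * c.Lq * (CT * Cu + 1) * m := by positivity
    exact x1.trans (le_div_self x2 hb0 hb1)
  have hS : d.S z' - d.S z = (skwF d z' - skwF d z) + (d.q z' - d.q z) := by unfold skwF; ring
  have g1 := le_abs_self (skwF d z')
  have g2 := neg_abs_le (skwF d z)
  have e : (2 * Cd * K + 3 * c.Lq * (CT * Cu + 1)) / d.b * m
      = Cd * (K * m) / d.b + Cd * (K * m) / d.b + 3 * c.Lq * (CT * Cu + 1) * m / d.b := by
    field_simp; ring
  rw [e, hS]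
  linarith

/-! ### shrinking the buffer, monotonicity in the constant (helper145) -/

/-- a strictly increasing finite chain is monotone -/
theorem skw_gk_chain {n : ℕ} {t : ℕ → ℝ} (h : ∀ i < n, t i < t (i + 1)) : ∀ j, j ≤ n → ∀ i, i ≤ j → t i ≤ t j := by
  intro j
  induction j with
  | zero => intro _ i hi; rw [Nat.le_zero.1 hi]
  | succ j ih =>
    intro hj i hi
    rcases Nat.lt_or_ge i (j + 1) with h1 | h1
    · exact (ih (by omega) i (by omega)).trans (h j (by omega)).le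
    · rw [le_antisymm hi h1]

/-- **SHRINKING THE BUFFER** (cure of the top-cell misfit F4 / FIT-1; helper145).   The conclusions of Lemma 8.2 survive when the end `zbuf` of the buffer region is lowered by at most `1/(2C)` (to the last cut of a
chain), at the price of the constant `C' ≥ 2 C`, as soon as `b ≤ 1/(4C)`; `zhi`, `zj`, `hh`, `d` are NOT changed.   Only `win` needs an argument: at a nontrivial cut `hh z < b/(2C)`, so the forward window
ends before `z + (C+1) hh z < z + b ≤ z + 1/(4C)`, while `z + 1/C ≤ zbuf`.   With `zb' = zbuf` this is the monotonicity in the constant. -/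
theorem skw_gk_shrink {c : SkwC} {d : SkwD} {C C' zhi zbuf zb' zj : ℝ} {hh : ℝ → ℝ} (H : SkwHyp c d) (hC : 1 ≤ C) (hCC : 2 * C ≤ C')
    (hzhi : zhi ≤ d.zmax) (h1 : zb' ≤ zbuf) (h2 : zbuf - 1 / (2 * C) ≤ zb') (hb4 : d.b ≤ 1 / (4 * C))
    (h : SkwConcl C d zhi zbuf zj hh) : SkwConcl C' d zhi zb' zj hh := by
  have hC0 : 0 < C := by linarith
  have hCC' : C ≤ C' := by linarith
  have hC'0 : 0 < C' := by linarith
  have hU : 0 < d.U := H.x0.trans_le H.xU
  have hb := H.b0
  have hzlo := H.zlo0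
  have hZ : 0 < d.Z := by linarith [H.Z1]
  have hr : ∀ z, d.zlo / 2 ≤ z → 0 < skwR z := fun z hz => skw_gk_R_pos (by linarith)
  have hmin : ∀ z, d.zlo / 2 ≤ z → 0 ≤ min (d.b * skwR z) (d.U ^ 2 / skwR z) := by
    intro z hz
    have := hr z hz
    exact le_min (by positivity) (by positivity)
  have hsub : ∀ z, z ∈ Icc (d.zlo / 2) zb' → z ∈ Icc (d.zlo / 2) zbuf := fun z hz => ⟨hz.1, hz.2.trans h1⟩
  have hh0 : ∀ z ∈ Icc (d.zlo / 2) zbuf, 0 ≤ hh z := by
    intro z hz
    exact le_trans (div_nonneg (hmin z hz.1) hC0.le) (h.lower z hz)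
  have hL : 0 ≤ skwL d := by
    have hx1 : d.x ≤ 1 := H.xU.trans H.U1
    have ht1 : d.tiny ≤ 1 := H.t1.trans (pow_le_one₀ H.x0.le hx1)
    have : 0 ≤ Real.log (1 / d.tiny) := Real.log_nonneg (by rw [le_div_iff₀ H.t0]; linarith)
    unfold skwL
    linarith
  refine ⟨?_, h.meas.mono_measure (Measure.restrict_mono (Icc_subset_Icc le_rfl h1) le_rfl), ?_, ?_, ?_, ?_, ?_, ?_⟩
  · intro z hz z' hz'
    exact (h.qlip z (hsub z hz) z' (hsub z' hz')).trans
      (mul_le_mul_of_nonneg_right hCC' (add_nonneg (hh0 z (hsub z hz)) (abs_nonneg _)))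
  · intro z hz
    exact (div_le_div_of_nonneg_left (hmin z hz.1) hC0 hCC').trans (h.lower z (hsub z hz))
  · intro z hz
    exact (h.upper z (hsub z hz)).trans (mul_le_mul_of_nonneg_right hCC' (hr z hz.1).le)
  · intro z hz
    refine (h.dev z (hsub z hz)).trans ?_
    have hE : 0 ≤ skwE d hh z := le_min (hr z hz.1).le (mul_nonneg (by positivity) (hh0 z (hsub z hz)))
    exact div_le_div_of_nonneg_right (mul_le_mul_of_nonneg_right hCC' hE) hb.le
  · intro ρ hρ
    refine (h.budget ρ hρ).trans ?_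
    have hrr := hr ρ (by linarith [hρ.1])
    apply div_le_div_of_nonneg_right _ hrr.le
    exact mul_le_mul_of_nonneg_right (mul_le_mul_of_nonneg_right hCC' hL) (by positivity)
  · intro z hz hlt
    have hz' : z ∈ Icc (d.zlo / 2) zbuf := ⟨by linarith [hz.1], hz.2.trans h1⟩
    have hrr := hr z hz'.1
    have hr1 : skwR z ≤ 1 := min_le_right _ _
    have hw0 := hh0 z hz'
    have hlt' : d.Z ^ 2 * hh z < d.b * skwR z / C :=
      hlt.trans_le (div_le_div_of_nonneg_left (by positivity) hC0 hCC')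
    obtain ⟨⟨a, l, g1, g2, g3⟩, ⟨a', l', g4, g5, g6⟩, g7⟩ := h.win z ⟨hz.1, hz.2.trans h1⟩ hlt'
    -- the width at a nontrivial cut
    have hw : 2 * C * hh z < d.b := by
      have e1 : hh z ≤ d.Z ^ 2 * hh z := by
        have : (1 : ℝ) ≤ d.Z ^ 2 := one_le_pow₀ H.Z1
        nlinarith
      have e2 : d.b * skwR z / C' ≤ d.b / (2 * C) := by
        rw [div_le_div_iff₀ hC'0 (by positivity)]
        have : d.b * skwR z ≤ d.b := by nlinarith
        nlinarith
      have e3 : hh z < d.b / (2 * C) := (e1.trans_lt hlt).trans_le e2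
      rw [lt_div_iff₀ (by positivity)] at e3
      linarith
    have e4 : 1 / (4 * C) = 1 / C / 4 := by field_simp
    have e5 : 1 / (2 * C) = 1 / C / 2 := by field_simp
    have e6 : 0 < 1 / C := by positivity
    refine ⟨⟨a, l, g1, g2, skw_gk_win_mono hC0 hCC' hU hrr hw0 g3⟩,
      ⟨a', l', g4, ?_, skw_gk_win_mono hC0 hCC' hU hrr hw0 g6⟩, ?_⟩
    · have n1 := (abs_le.1 g6.near).2
      have n2 := g6.len_hi
      have n3 : a' + l' ≤ z + 2 * C * hh z := by nlinarith
      linarith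
    · have : 1 / C' ≤ 1 / (2 * C) := div_le_div_of_nonneg_left zero_le_one (by positivity) hCC
      linarith
  · obtain ⟨n, t, ht0, htn, hlt, hj, hT⟩ := h.tiles
    refine ⟨n, t, ht0, htn, hlt, hj, ?_⟩
    intro i hi
    obtain ⟨k1, k2, k3⟩ := hT i hi
    have hch := skw_gk_chain hlt
    have hlo : d.zlo ≤ t i := by rw [← ht0]; exact hch i hi.le 0 (Nat.zero_le _)
    have hhi : t (i + 1) ≤ d.zmax := by
      refine le_trans ?_ hzhi
      rw [← htn]; exact hch n le_rfl (i + 1) hi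
    have hlen : 0 < t (i + 1) - t i := by linarith [hlt i hi]
    have hCb : C / d.b ≤ C' / d.b := div_le_div_of_nonneg_right hCC' hb.le
    refine ⟨?_, ?_, ?_⟩
    · intro z hz
      obtain ⟨k4, k5⟩ := k1 z hz
      have hpos : 0 ≤ hh z := by
        by_contra hcon
        have : C * hh z < 0 := mul_neg_of_pos_of_neg hC0 (not_le.1 hcon)
        linarith
      exact ⟨(div_le_div_of_nonneg_left hpos hC0 hCC').trans k4, k5.trans (mul_le_mul_of_nonneg_right hCC' hpos)⟩
    · intro z hz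
      refine (k2 z hz).trans (mul_le_mul_of_nonneg_right hCb ?_)
      have hI : 0 ≤ ∫ s in (t i)..(t (i + 1)), d.G s :=
        intervalIntegral.integral_nonneg (by linarith) fun s hs => H.G0 s ⟨by linarith [hs.1], hs.2.trans hhi⟩
      have := H.t0
      positivity
    · intro z hz z' hz' hzz ha hb'
      refine (k3 z (hsub z hz) z' (hsub z' hz') hzz ha hb').trans (mul_le_mul_of_nonneg_right hCb ?_)
      exact le_min (hr (t i) (by linarith)).le (by positivity)

end Claimed.Agent.R286
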