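import Claimed.Agent.R286.W.Leaves

/-!
# Row 286, folder W, file H0 : Leaf H0 (LL 08 "The intrinsic width", l.183-200)      OWNER helper188 (prefix `skw_h0_`)

* `skwGt`  a CONTINUOUS function on `ℝ` that equals `G_refl + tiny` on `[0, 2 zs]`;   `skwFt` its primitive;   `skwPt z l = l² (Ft (z+l) - Ft (z-l))` equals `skwPhi` for admissible `(z, l)`.
* `skw_h0_spec`  `H_0 z` is the largest `l ∈ [0, b r]` with `Pt z l ≤ U⁶/r³`.
* `skw_leaf_h0 : SkwLeafH0`.
-/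

set_option autoImplicit false

namespace Claimed.Agent.R286

open Set MeasureTheory

/-- continuous version of `G_refl + tiny` -/
noncomputable def skwGt (c : SkwC) (d : SkwD) (s : ℝ) : ℝ := d.G (max 0 (c.zs - |s - c.zs|)) + d.tiny

/-- its primitive -/
noncomputable def skwFt (c : SkwC) (d : SkwD) (u : ℝ) : ℝ := ∫ s in (0 : ℝ)..u, skwGt c d s

/-- `Φ` through the primitive -/
noncomputable def skwPt (c : SkwC) (d : SkwD) (z l : ℝ) : ℝ := l ^ 2 * (skwFt c d (z + l) - skwFt c d (z - l))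

theorem skw_h0_eqns_cite : True := by
  have := @skwGt.eq_1; have := @skwFt.eq_1; have := @skwPt.eq_1
  trivial

section base

variable {c : SkwC} {d : SkwD}

theorem skw_h0_fold_mem (hc : c.Ok) (s : ℝ) : max 0 (c.zs - |s - c.zs|) ∈ Icc 0 c.zs :=
  ⟨le_max_left _ _, max_le hc.zs.le (by linarith [abs_nonneg (s - c.zs)])⟩

theorem skw_h0_gt_cont (hc : c.Ok) (h : SkwHyp c d) : Continuous (skwGt c d) := by
  unfold skwGt
  refine Continuous.add ?_ continuous_const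
  exact h.Gc.comp_continuous (by fun_prop) (skw_h0_fold_mem hc)

theorem skw_h0_gt_lo (hc : c.Ok) (h : SkwHyp c d) (s : ℝ) : d.tiny ≤ skwGt c d s := by
  unfold skwGt
  have hm := skw_h0_fold_mem hc s
  have := h.G0 _ ⟨hm.1, hm.2.trans h.zmax⟩
  linarith

theorem skw_h0_gt_hi (hc : c.Ok) (h : SkwHyp c d) (s : ℝ) : skwGt c d s ≤ c.M0 + d.tiny := by
  unfold skwGt
  have := h.GM _ (skw_h0_fold_mem hc s)
  linarith

theorem skw_h0_gt_eq (s : ℝ) (hs : s ∈ Icc 0 (2 * c.zs)) : skwGr c d s + d.tiny = skwGt c d s := by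
  unfold skwGr skwGt
  by_cases h1 : s ≤ c.zs
  · rw [if_pos h1, abs_of_nonpos (by linarith), max_eq_right (by linarith [hs.1])]
    congr 2
    ring
  · rw [if_neg h1, abs_of_nonneg (by linarith), max_eq_right (by linarith [hs.2])]
    congr 2
    ring

theorem skw_h0_gt_G (s : ℝ) (hs : s ∈ Icc 0 c.zs) : skwGt c d s = d.G s + d.tiny := by
  unfold skwGt
  rw [abs_of_nonpos (by linarith [hs.2]), max_eq_right (by linarith [hs.1])]
  congr 2
  ring

theorem skw_h0_ft_sub (hc : c.Ok) (h : SkwHyp c d) (u w : ℝ) : ∫ s in u..w, skwGt c d s = skwFt c d w - skwFt c d u :=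
  (intervalIntegral.integral_interval_sub_left ((skw_h0_gt_cont hc h).intervalIntegrable _ _)
    ((skw_h0_gt_cont hc h).intervalIntegrable _ _)).symm

theorem skw_h0_ft_lo (hc : c.Ok) (h : SkwHyp c d) (u w : ℝ) (huw : u ≤ w) : d.tiny * (w - u) ≤ skwFt c d w - skwFt c d u := by
  rw [← skw_h0_ft_sub hc h]
  have := intervalIntegral.integral_mono_on (μ := volume) huw (intervalIntegrable_const (c := d.tiny)) ((skw_h0_gt_cont hc h).intervalIntegrable u w)
    fun s _ => skw_h0_gt_lo hc h s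
  rw [intervalIntegral.integral_const, smul_eq_mul] at this
  linarith

theorem skw_h0_ft_hi (hc : c.Ok) (h : SkwHyp c d) (u w : ℝ) (huw : u ≤ w) : skwFt c d w - skwFt c d u ≤ (c.M0 + d.tiny) * (w - u) := by
  rw [← skw_h0_ft_sub hc h]
  have := intervalIntegral.integral_mono_on (μ := volume) huw ((skw_h0_gt_cont hc h).intervalIntegrable u w) (intervalIntegrable_const (c := c.M0 + d.tiny))
    fun s _ => skw_h0_gt_hi hc h s
  rw [intervalIntegral.integral_const, smul_eq_mul] at this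
  linarith

theorem skw_h0_ft_mono (hc : c.Ok) (h : SkwHyp c d) (u w : ℝ) (huw : u ≤ w) : skwFt c d u ≤ skwFt c d w := by
  have := skw_h0_ft_lo hc h u w huw
  have h2 : 0 ≤ d.tiny * (w - u) := mul_nonneg h.t0.le (by linarith)
  linarith

theorem skw_h0_ft_cont (hc : c.Ok) (h : SkwHyp c d) : Continuous (skwFt c d) := by
  unfold skwFt
  exact intervalIntegral.continuous_primitive (fun a b => (skw_h0_gt_cont hc h).intervalIntegrable a b) 0

theorem skw_h0_pt_cont (hc : c.Ok) (h : SkwHyp c d) : Continuous (fun p : ℝ × ℝ => skwPt c d p.1 p.2) := by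
  unfold skwPt
  have hF := skw_h0_ft_cont hc h
  exact (continuous_snd.pow 2).mul ((hF.comp (continuous_fst.add continuous_snd)).sub (hF.comp (continuous_fst.sub continuous_snd)))

/-- `Φ = Pt` for admissible arguments -/
theorem skw_h0_phi_eq (hc : c.Ok) (h : SkwHyp c d) (z l : ℝ) (h0 : 0 ≤ l) (h1 : 0 ≤ z - l) (h2 : z + l ≤ 2 * c.zs) : skwPhi c d z l = skwPt c d z l := by
  unfold skwPhi skwPt
  rw [← skw_h0_ft_sub hc h]
  congr 1
  apply intervalIntegral.integral_congr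
  intro s hs
  rw [uIcc_of_le (by linarith)] at hs
  exact skw_h0_gt_eq s ⟨h1.trans hs.1, hs.2.trans h2⟩

theorem skw_h0_pt_zero (z : ℝ) : skwPt c d z 0 = 0 := by
  unfold skwPt
  simp

theorem skw_h0_pt_nonneg (hc : c.Ok) (h : SkwHyp c d) (z l : ℝ) (h0 : 0 ≤ l) : 0 ≤ skwPt c d z l := by
  unfold skwPt
  have := skw_h0_ft_mono hc h (z - l) (z + l) (by linarith)
  exact mul_nonneg (by positivity) (by linarith)

/-- general comparison: a larger radius and a larger interval -/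
theorem skw_h0_pt_le (hc : c.Ok) (h : SkwHyp c d) (z z' l l' : ℝ) (h0 : 0 ≤ l) (h1 : l ≤ l') (h2 : z' - l' ≤ z - l) (h3 : z + l ≤ z' + l') :
    skwPt c d z l ≤ skwPt c d z' l' := by
  unfold skwPt
  have a1 := skw_h0_ft_mono hc h _ _ h2
  have a2 := skw_h0_ft_mono hc h _ _ h3
  have a3 := skw_h0_ft_mono hc h (z - l) (z + l) (by linarith)
  exact mul_le_mul (pow_le_pow_left₀ h0 h1 2) (by linarith) (by linarith) (by positivity)

theorem skw_h0_pt_lt (hc : c.Ok) (h : SkwHyp c d) (z l l' : ℝ) (h0 : 0 ≤ l) (h1 : l < l') : skwPt c d z l < skwPt c d z l' := by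
  unfold skwPt
  have a1 := skw_h0_ft_lo hc h (z - l') (z - l) (by linarith)
  have a2 := skw_h0_ft_mono hc h (z + l) (z + l') (by linarith)
  have a3 := skw_h0_ft_mono hc h (z - l) (z + l) (by linarith)
  have a4 : 0 < d.tiny * (z - l - (z - l')) := mul_pos h.t0 (by linarith)
  have hl' : 0 < l' := lt_of_le_of_lt h0 h1
  calc l ^ 2 * (skwFt c d (z + l) - skwFt c d (z - l)) ≤ l' ^ 2 * (skwFt c d (z + l) - skwFt c d (z - l)) :=
        mul_le_mul_of_nonneg_right (pow_le_pow_left₀ h0 h1.le 2) (by linarith)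
    _ < l' ^ 2 * (skwFt c d (z + l') - skwFt c d (z - l')) := mul_lt_mul_of_pos_left (by linarith) (by positivity)

theorem skw_h0_pt_hi (hc : c.Ok) (h : SkwHyp c d) (z l : ℝ) (h0 : 0 ≤ l) : skwPt c d z l ≤ 2 * (c.M0 + d.tiny) * l ^ 3 := by
  unfold skwPt
  have a1 := skw_h0_ft_hi hc h (z - l) (z + l) (by linarith)
  calc l ^ 2 * (skwFt c d (z + l) - skwFt c d (z - l)) ≤ l ^ 2 * ((c.M0 + d.tiny) * (z + l - (z - l))) :=
        mul_le_mul_of_nonneg_left a1 (by positivity)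
    _ = 2 * (c.M0 + d.tiny) * l ^ 3 := by ring

end base

section spec

variable {c : SkwC} {d : SkwD}

theorem skw_h0_U (h : SkwHyp c d) : 0 < d.U := lt_of_lt_of_le h.x0 h.xU

/-- elementary facts on a cut -/
theorem skw_h0_cut (h : SkwHyp c d) (z : ℝ) (hz : z ∈ Icc (d.zlo / 4) c.zs) :
    0 < skwR z ∧ skwR z ≤ 1 ∧ skwR z ≤ z ∧ d.b * skwR z ≤ z / 8 := by
  have hz0 : 0 < z := lt_of_lt_of_le (by linarith [h.zlo0]) hz.1
  have r0 : 0 < skwR z := lt_min hz0 one_pos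
  have r1 : skwR z ≤ 1 := min_le_right _ _
  have r2 : skwR z ≤ z := min_le_left _ _
  refine ⟨r0, r1, r2, ?_⟩
  calc d.b * skwR z ≤ 1 / 8 * z := mul_le_mul h.b1 r2 r0.le (by norm_num)
    _ = z / 8 := by ring

theorem skw_h0_adm (h : SkwHyp c d) (z : ℝ) (hz : z ∈ Icc (d.zlo / 4) c.zs) (l : ℝ) (h1 : l ≤ d.b * skwR z) :
    0 ≤ z - l ∧ z + l ≤ 2 * c.zs := by
  obtain ⟨r0, _, r2, r3⟩ := skw_h0_cut h z hz
  have hz0 : 0 < z := lt_of_lt_of_le r0 r2
  exact ⟨by linarith, by linarith [hz.2]⟩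

theorem skw_h0_T (h : SkwHyp c d) (z : ℝ) (hz : z ∈ Icc (d.zlo / 4) c.zs) : 0 < d.U ^ 6 / skwR z ^ 3 := by
  have := (skw_h0_cut h z hz).1
  have := skw_h0_U h
  positivity

/-- `H_0 z` is the largest admissible radius -/
theorem skw_h0_spec (hc : c.Ok) (h : SkwHyp c d) (z : ℝ) (hz : z ∈ Icc (d.zlo / 4) c.zs) :
    0 ≤ skwH0 c d z ∧ skwH0 c d z ≤ d.b * skwR z ∧ skwPt c d z (skwH0 c d z) ≤ d.U ^ 6 / skwR z ^ 3 ∧
    ∀ l, 0 ≤ l → l ≤ d.b * skwR z → skwPt c d z l ≤ d.U ^ 6 / skwR z ^ 3 → l ≤ skwH0 c d z := by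
  obtain ⟨r0, _, _, _⟩ := skw_h0_cut h z hz
  have hset : {l : ℝ | 0 ≤ l ∧ l ≤ d.b * skwR z ∧ skwPhi c d z l ≤ d.U ^ 6 / skwR z ^ 3}
      = Icc 0 (d.b * skwR z) ∩ (fun l => skwPt c d z l) ⁻¹' Iic (d.U ^ 6 / skwR z ^ 3) := by
    ext l
    constructor
    · rintro ⟨a1, a2, a3⟩
      obtain ⟨b1, b2⟩ := skw_h0_adm h z hz l a2
      rw [skw_h0_phi_eq hc h z l a1 b1 b2] at a3
      exact ⟨⟨a1, a2⟩, a3⟩
    · rintro ⟨⟨a1, a2⟩, a3⟩
      obtain ⟨b1, b2⟩ := skw_h0_adm h z hz l a2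
      refine ⟨a1, a2, ?_⟩
      rw [skw_h0_phi_eq hc h z l a1 b1 b2]
      exact a3
  have hcont : Continuous fun l => skwPt c d z l := (skw_h0_pt_cont hc h).comp (continuous_const.prodMk continuous_id)
  have hcl : IsClosed (Icc 0 (d.b * skwR z) ∩ (fun l => skwPt c d z l) ⁻¹' Iic (d.U ^ 6 / skwR z ^ 3)) :=
    isClosed_Icc.inter (isClosed_Iic.preimage hcont)
  have hne : (Icc 0 (d.b * skwR z) ∩ (fun l => skwPt c d z l) ⁻¹' Iic (d.U ^ 6 / skwR z ^ 3)).Nonempty := by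
    refine ⟨0, ⟨le_rfl, mul_nonneg h.b0.le r0.le⟩, ?_⟩
    show skwPt c d z 0 ≤ _
    rw [skw_h0_pt_zero]
    exact (skw_h0_T h z hz).le
  have hbd : BddAbove (Icc 0 (d.b * skwR z) ∩ (fun l => skwPt c d z l) ⁻¹' Iic (d.U ^ 6 / skwR z ^ 3)) :=
    ⟨d.b * skwR z, fun l hl => hl.1.2⟩
  have hmem := hcl.csSup_mem hne hbd
  unfold skwH0
  rw [hset]
  exact ⟨hmem.1.1, hmem.1.2, hmem.2, fun l a1 a2 a3 => le_csSup hbd ⟨⟨a1, a2⟩, a3⟩⟩

theorem skw_h0_phi_h0 (hc : c.Ok) (h : SkwHyp c d) (z : ℝ) (hz : z ∈ Icc (d.zlo / 4) c.zs) :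
    skwPhi c d z (skwH0 c d z) = skwPt c d z (skwH0 c d z) := by
  obtain ⟨s1, s2, _, _⟩ := skw_h0_spec hc h z hz
  obtain ⟨b1, b2⟩ := skw_h0_adm h z hz _ s2
  exact skw_h0_phi_eq hc h z _ s1 b1 b2

theorem skw_h0_eq (hc : c.Ok) (h : SkwHyp c d) (z : ℝ) (hz : z ∈ Icc (d.zlo / 4) c.zs) (hlt : skwH0 c d z < d.b * skwR z) :
    skwPt c d z (skwH0 c d z) = d.U ^ 6 / skwR z ^ 3 := by
  obtain ⟨s1, s2, s3, s4⟩ := skw_h0_spec hc h z hz
  by_contra hne
  have h1 : skwPt c d z (skwH0 c d z) < d.U ^ 6 / skwR z ^ 3 := lt_of_le_of_ne s3 hne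
  have h2 : d.U ^ 6 / skwR z ^ 3 < skwPt c d z (d.b * skwR z) := by
    by_contra h3
    have := s4 _ (s1.trans s2) le_rfl (not_lt.1 h3)
    linarith
  have hcont : Continuous fun l => skwPt c d z l := (skw_h0_pt_cont hc h).comp (continuous_const.prodMk continuous_id)
  obtain ⟨l, hl, hl2⟩ := intermediate_value_Ioo s2 hcont.continuousOn ⟨h1, h2⟩
  have := s4 l (s1.trans hl.1.le) hl.2.le hl2.le
  linarith [hl.1]

theorem skw_h0_above (hc : c.Ok) (h : SkwHyp c d) (z : ℝ) (hz : z ∈ Icc (d.zlo / 4) c.zs) (l : ℝ) (h0 : 0 ≤ l)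
    (h2 : d.U ^ 6 / skwR z ^ 3 ≤ skwPt c d z l) : skwH0 c d z ≤ l := by
  obtain ⟨_, _, s3, _⟩ := skw_h0_spec hc h z hz
  by_contra h3
  have := skw_h0_pt_lt hc h z l _ h0 (not_le.1 h3)
  linarith

theorem skw_h0_tiny (h : SkwHyp c d) : d.tiny ≤ 1 ∧ d.tiny ≤ d.U ^ 6 := by
  have hU := skw_h0_U h
  have h1 : d.x ^ 12 ≤ d.U ^ 12 := pow_le_pow_left₀ h.x0.le h.xU 12
  have h2 : d.U ^ 12 ≤ d.U ^ 6 := pow_le_pow_of_le_one hU.le h.U1 (by norm_num)
  have h3 : d.U ^ 6 ≤ 1 := pow_le_one₀ hU.le h.U1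
  exact ⟨by linarith [h.t1], by linarith [h.t1]⟩

theorem skw_h0_lower (hc : c.Ok) (h : SkwHyp c d) (z : ℝ) (hz : z ∈ Icc (d.zlo / 4) c.zs) :
    min (d.b * skwR z) (d.U ^ 2 / skwR z) / (2 * (c.M0 + 1)) ≤ skwH0 c d z := by
  obtain ⟨r0, _, _, _⟩ := skw_h0_cut h z hz
  obtain ⟨_, _, _, s4⟩ := skw_h0_spec hc h z hz
  have hU := skw_h0_U h
  have hM := hc.M0
  obtain ⟨K, hK⟩ : ∃ K : ℝ, K = 2 * (c.M0 + 1) := ⟨_, rfl⟩
  have hK2 : 4 ≤ K := by rw [hK]; linarith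
  have hK0 : 0 < K := by linarith
  rw [← hK]
  obtain ⟨l, hl⟩ : ∃ l : ℝ, l = min (d.b * skwR z) (d.U ^ 2 / skwR z) / K := ⟨_, rfl⟩
  have hm0 : 0 ≤ min (d.b * skwR z) (d.U ^ 2 / skwR z) := le_min (mul_nonneg h.b0.le r0.le) (by positivity)
  have l0 : 0 ≤ l := by rw [hl]; positivity
  have l1 : l ≤ d.b * skwR z := by
    rw [hl]
    calc min (d.b * skwR z) (d.U ^ 2 / skwR z) / K ≤ min (d.b * skwR z) (d.U ^ 2 / skwR z) := div_le_self hm0 (by linarith)
      _ ≤ _ := min_le_left _ _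
  have l2 : l ≤ d.U ^ 2 / skwR z / K := by
    rw [hl]
    exact div_le_div_of_nonneg_right (min_le_right _ _) hK0.le
  rw [← hl]
  apply s4 l l0 l1
  have t1 := (skw_h0_tiny h).1
  calc skwPt c d z l ≤ 2 * (c.M0 + d.tiny) * l ^ 3 := skw_h0_pt_hi hc h z l l0
    _ ≤ K * l ^ 3 := by
        apply mul_le_mul_of_nonneg_right _ (by positivity)
        rw [hK]
        linarith
    _ ≤ K * (d.U ^ 2 / skwR z / K) ^ 3 := mul_le_mul_of_nonneg_left (pow_le_pow_left₀ l0 l2 3) hK0.le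
    _ = d.U ^ 6 / skwR z ^ 3 / K ^ 2 := by field_simp
    _ ≤ d.U ^ 6 / skwR z ^ 3 := div_le_self (skw_h0_T h z hz).le (by nlinarith)

theorem skw_h0_qlip (hc : c.Ok) (h : SkwHyp c d) (z : ℝ) (hz : z ∈ Icc (d.zlo / 4) c.zs) (z' : ℝ) (hz' : z' ∈ Icc (d.zlo / 4) c.zs)
    (h1 : skwR z ≤ 2 * skwR z') (h2 : skwR z' ≤ 2 * skwR z) : skwH0 c d z' ≤ 3 * (skwH0 c d z + |z - z'|) := by
  obtain ⟨r0, _, _, _⟩ := skw_h0_cut h z hz
  obtain ⟨r0', _, _, _⟩ := skw_h0_cut h z' hz'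
  obtain ⟨s1, s2, _, _⟩ := skw_h0_spec hc h z hz
  obtain ⟨_, s2', _, _⟩ := skw_h0_spec hc h z' hz'
  have ha := abs_nonneg (z - z')
  rcases s2.lt_or_eq with hlt | heq
  · obtain ⟨l, hl⟩ : ∃ l : ℝ, l = skwH0 c d z + |z - z'| := ⟨_, rfl⟩
    rw [← hl]
    have l0 : 0 ≤ l := by rw [hl]; linarith
    by_cases hcap : d.b * skwR z' ≤ 3 * l
    · exact s2'.trans hcap
    · apply skw_h0_above hc h z' hz' (3 * l) (by linarith)
      have e1 := skw_h0_eq hc h z hz hlt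
      obtain ⟨a1, a2⟩ := abs_le.1 (le_refl |z - z'|)
      have e2 : skwPt c d z (skwH0 c d z) ≤ skwPt c d z' l :=
        skw_h0_pt_le hc h z z' _ l s1 (by linarith) (by linarith) (by linarith)
      have e3 : 9 * skwPt c d z' l ≤ skwPt c d z' (3 * l) := by
        unfold skwPt
        have b1 := skw_h0_ft_mono hc h (z' - 3 * l) (z' - l) (by linarith)
        have b2 := skw_h0_ft_mono hc h (z' + l) (z' + 3 * l) (by linarith)
        have : 9 * (l ^ 2 * (skwFt c d (z' + l) - skwFt c d (z' - l))) = (3 * l) ^ 2 * (skwFt c d (z' + l) - skwFt c d (z' - l)) := by ring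
        rw [this]
        exact mul_le_mul_of_nonneg_left (by linarith) (by positivity)
      have e4 : d.U ^ 6 / skwR z' ^ 3 ≤ 8 * (d.U ^ 6 / skwR z ^ 3) := by
        have hU := skw_h0_U h
        rw [div_le_iff₀ (by positivity)]
        have q1 : skwR z ^ 3 ≤ (2 * skwR z') ^ 3 := pow_le_pow_left₀ r0.le h1 3
        have q2 : 8 * (d.U ^ 6 / skwR z ^ 3) * skwR z' ^ 3 = d.U ^ 6 * ((2 * skwR z') ^ 3 / skwR z ^ 3) := by
          field_simp
          ring
        rw [q2]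
        have q3 : 1 ≤ (2 * skwR z') ^ 3 / skwR z ^ 3 := by
          rw [le_div_iff₀ (by positivity)]
          linarith
        exact le_mul_of_one_le_right (by positivity) q3
      have e5 := (skw_h0_T h z hz).le
      linarith
  · calc skwH0 c d z' ≤ d.b * skwR z' := s2'
      _ ≤ d.b * (2 * skwR z) := mul_le_mul_of_nonneg_left h2 h.b0.le
      _ = 2 * skwH0 c d z := by rw [heq]; ring
      _ ≤ 3 * (skwH0 c d z + |z - z'|) := by linarith

end spec

section concl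

variable {c : SkwC} {d : SkwD}

theorem skw_h0_R_meas : Measurable skwR := by
  unfold skwR
  exact measurable_id.min measurable_const

theorem skw_h0_meas (hc : c.Ok) (h : SkwHyp c d) : AEStronglyMeasurable (skwH0 c d) (volume.restrict (Icc (d.zlo / 4) c.zs)) := by
  classical
  obtain ⟨g, hg⟩ : ∃ g : ℝ → ℝ, g = (Icc (d.zlo / 4) c.zs).indicator (skwH0 c d) := ⟨_, rfl⟩
  have hgm : Measurable g := by
    apply measurable_of_Ici
    intro l
    by_cases hl : l ≤ 0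
    · have : g ⁻¹' Ici l = univ := by
        ext z
        simp only [mem_preimage, mem_Ici, mem_univ, iff_true]
        rw [hg]
        by_cases hz : z ∈ Icc (d.zlo / 4) c.zs
        · rw [indicator_of_mem hz]
          exact hl.trans (skw_h0_spec hc h z hz).1
        · rw [indicator_of_notMem hz]
          exact hl
      rw [this]
      exact MeasurableSet.univ
    · have hl0 : 0 < l := not_le.1 hl
      have : g ⁻¹' Ici l = Icc (d.zlo / 4) c.zs ∩ ({z | l ≤ d.b * skwR z} ∩ {z | skwPt c d z l ≤ d.U ^ 6 / skwR z ^ 3}) := by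
        ext z
        constructor
        · intro hz1
          have hz : z ∈ Icc (d.zlo / 4) c.zs := by
            by_contra hn
            rw [mem_preimage, hg, indicator_of_notMem hn] at hz1
            exact hl hz1
          rw [mem_preimage, hg, indicator_of_mem hz] at hz1
          obtain ⟨_, s2, s3, _⟩ := skw_h0_spec hc h z hz
          have hz2 : l ≤ skwH0 c d z := hz1
          exact ⟨hz, hz2.trans s2, (skw_h0_pt_le hc h z z l _ hl0.le hz2 (by linarith) (by linarith)).trans s3⟩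
        · rintro ⟨hz, a1, a2⟩
          rw [mem_preimage, hg, indicator_of_mem hz]
          exact (skw_h0_spec hc h z hz).2.2.2 l hl0.le a1 a2
      rw [this]
      have hcont : Continuous fun z => skwPt c d z l := (skw_h0_pt_cont hc h).comp (continuous_id.prodMk continuous_const)
      exact measurableSet_Icc.inter ((measurableSet_le measurable_const (measurable_const.mul skw_h0_R_meas)).inter
        (measurableSet_le hcont.measurable (measurable_const.div (skw_h0_R_meas.pow_const 3))))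
  refine hgm.aestronglyMeasurable.congr ?_
  rw [hg]
  exact indicator_ae_eq_restrict measurableSet_Icc

theorem skw_h0_pos (hc : c.Ok) (h : SkwHyp c d) (z : ℝ) (hz : z ∈ Icc (d.zlo / 4) c.zs) : 0 < skwH0 c d z := by
  obtain ⟨r0, _, _, _⟩ := skw_h0_cut h z hz
  have hU := skw_h0_U h
  have hM := hc.M0
  refine lt_of_lt_of_le ?_ (skw_h0_lower hc h z hz)
  have : 0 < min (d.b * skwR z) (d.U ^ 2 / skwR z) := lt_min (mul_pos h.b0 r0) (by positivity)
  positivity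

theorem skw_h0_GH3 (hc : c.Ok) (h : SkwHyp c d) (z : ℝ) (hz : z ∈ Icc (d.zlo / 4) c.zs) :
    d.G z * skwH0 c d z ^ 3 ≤ c.Cadj 1 * (d.U ^ 6 / skwR z ^ 3 + d.tiny) := by
  obtain ⟨r0, r1, _, _⟩ := skw_h0_cut h z hz
  obtain ⟨_, s2, s3, _⟩ := skw_h0_spec hc h z hz
  have l0 := skw_h0_pos hc h z hz
  obtain ⟨b1, _⟩ := skw_h0_adm h z hz _ s2
  obtain ⟨l, hl⟩ : ∃ l : ℝ, l = skwH0 c d z := ⟨_, rfl⟩
  rw [← hl] at s2 s3 l0 b1 ⊢
  have lb : l ≤ d.b := s2.trans (mul_le_of_le_one_right h.b0.le r1)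
  have l1 : l ≤ 1 := by linarith [h.b1]
  have hadj := h.adj 1 l (z - l) l (z - l) l le_rfl l0 (by linarith) (by simp) (by simp) (by simp) (by simp) b1 (by linarith [hz.2]) b1
    (by linarith [hz.2]) (by simp; exact l0.le) z ⟨by linarith, by linarith⟩
  have e0 : z - l + l = z := by ring
  rw [e0] at hadj
  have hC := hc.Cadj 1
  have hsub : Icc (z - l) z ⊆ Icc 0 c.zs := Icc_subset_Icc b1 hz.2
  have hI : (∫ t in (z - l)..z, d.G t) ≤ skwFt c d (z + l) - skwFt c d (z - l) := by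
    have i1 : (∫ t in (z - l)..z, d.G t) ≤ ∫ t in (z - l)..z, skwGt c d t := by
      refine intervalIntegral.integral_mono_on (by linarith) ((h.Gc.mono hsub).intervalIntegrable_of_Icc (by linarith))
        ((skw_h0_gt_cont hc h).intervalIntegrable _ _) fun t ht => ?_
      rw [skw_h0_gt_G t (hsub ht)]
      linarith [h.t0]
    rw [skw_h0_ft_sub hc h] at i1
    have := skw_h0_ft_mono hc h z (z + l) (by linarith)
    linarith
  have l3 : l ^ 3 ≤ 1 := pow_le_one₀ l0.le l1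
  calc d.G z * l ^ 3 ≤ c.Cadj 1 * ((∫ t in (z - l)..z, d.G t) / l + d.tiny) * l ^ 3 := mul_le_mul_of_nonneg_right hadj (by positivity)
    _ = c.Cadj 1 * (l ^ 2 * (∫ t in (z - l)..z, d.G t) + d.tiny * l ^ 3) := by field_simp
    _ ≤ c.Cadj 1 * (skwPt c d z l + d.tiny) := by
        apply mul_le_mul_of_nonneg_left _ (by linarith)
        have q1 : l ^ 2 * (∫ t in (z - l)..z, d.G t) ≤ skwPt c d z l := by
          unfold skwPt
          exact mul_le_mul_of_nonneg_left hI (by positivity)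
        have q2 : d.tiny * l ^ 3 ≤ d.tiny := mul_le_of_le_one_right h.t0.le l3
        linarith
    _ ≤ c.Cadj 1 * (d.U ^ 6 / skwR z ^ 3 + d.tiny) := by
        apply mul_le_mul_of_nonneg_left _ (by linarith)
        linarith

/-- pointwise form of the squared budget -/
theorem skw_h0_pw (hc : c.Ok) (h : SkwHyp c d) (z : ℝ) (hz : z ∈ Icc (d.zlo / 4) c.zs) :
    d.G z * skwH0 c d z ^ 2 ≤ 4 * c.Cadj 1 ^ 2 * c.M0 * (d.U ^ 4 / skwR z ^ 2) := by
  obtain ⟨r0, r1, r2, _⟩ := skw_h0_cut h z hz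
  have l0 := skw_h0_pos hc h z hz
  have hU := skw_h0_U h
  have hC := hc.Cadj 1
  have hM := hc.M0
  have hz0 : 0 ≤ z := r0.le.trans r2
  have hG0 : 0 ≤ d.G z := h.G0 z ⟨hz0, hz.2.trans h.zmax⟩
  have hGM : d.G z ≤ c.M0 := h.GM z ⟨hz0, hz.2⟩
  obtain ⟨T, hT⟩ : ∃ T : ℝ, T = d.U ^ 6 / skwR z ^ 3 := ⟨_, rfl⟩
  have hT0 : 0 < T := hT ▸ skw_h0_T h z hz
  have ht : d.tiny ≤ T := by
    refine (skw_h0_tiny h).2.trans ?_
    rw [hT, le_div_iff₀ (by positivity)]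
    exact mul_le_of_le_one_right (by positivity) (pow_le_one₀ r0.le r1)
  have g3 : d.G z * skwH0 c d z ^ 3 ≤ 2 * c.Cadj 1 * T := by
    have := skw_h0_GH3 hc h z hz
    rw [← hT] at this
    have q : c.Cadj 1 * (T + d.tiny) ≤ c.Cadj 1 * (2 * T) := mul_le_mul_of_nonneg_left (by linarith) (by linarith)
    linarith
  obtain ⟨K, hK⟩ : ∃ K : ℝ, K = 4 * c.Cadj 1 ^ 2 * c.M0 := ⟨_, rfl⟩
  have hK1 : 1 ≤ K := by
    rw [hK]
    have : 1 ≤ c.Cadj 1 ^ 2 := one_le_pow₀ hC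
    nlinarith
  rw [← hK]
  apply le_of_pow_le_pow_left₀ (n := 3) (by norm_num) (by positivity)
  have g30 : 0 ≤ d.G z * skwH0 c d z ^ 3 := by positivity
  calc (d.G z * skwH0 c d z ^ 2) ^ 3 = (d.G z * skwH0 c d z ^ 3) ^ 2 * d.G z := by ring
    _ ≤ (2 * c.Cadj 1 * T) ^ 2 * c.M0 := mul_le_mul (pow_le_pow_left₀ g30 g3 2) hGM hG0 (by positivity)
    _ = K * T ^ 2 := by rw [hK]; ring
    _ ≤ K ^ 3 * T ^ 2 := by
        apply mul_le_mul_of_nonneg_right _ (by positivity)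
        calc K = K ^ 1 := (pow_one K).symm
          _ ≤ K ^ 3 := pow_le_pow_right₀ hK1 (by norm_num)
    _ = (K * (d.U ^ 4 / skwR z ^ 2)) ^ 3 := by
        rw [hT]
        field_simp

theorem skw_h0_R_mono {z z' : ℝ} (hzz : z ≤ z') : skwR z ≤ skwR z' := min_le_min_right 1 hzz

theorem skw_h0_budget (hc : c.Ok) (h : SkwHyp c d) (α β : ℝ) (h1 : d.zlo / 4 ≤ α) (h2 : α ≤ β) (h3 : β ≤ 2 * α) (h4 : β ≤ c.zs) :
    ∫ z in α..β, d.G z * skwH0 c d z ^ 2 ≤ 4 * c.Cadj 1 ^ 2 * c.M0 * (1 + c.zs) * d.U ^ 4 / skwR α := by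
  have hα : α ∈ Icc (d.zlo / 4) c.zs := ⟨h1, h2.trans h4⟩
  obtain ⟨r0, r1, r2, _⟩ := skw_h0_cut h α hα
  have hU := skw_h0_U h
  have hC := hc.Cadj 1
  have hM := hc.M0
  obtain ⟨K, hK⟩ : ∃ K : ℝ, K = 4 * c.Cadj 1 ^ 2 * c.M0 := ⟨_, rfl⟩
  have hK0 : 0 < K := by rw [hK]; positivity
  rw [← hK]
  have hb : ∀ z ∈ Set.uIoc α β, ‖d.G z * skwH0 c d z ^ 2‖ ≤ K * (d.U ^ 4 / skwR α ^ 2) := by
    intro z hz
    rw [uIoc_of_le h2] at hz
    have hz' : z ∈ Icc (d.zlo / 4) c.zs := ⟨h1.trans hz.1.le, hz.2.trans h4⟩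
    obtain ⟨q0, _, q2, _⟩ := skw_h0_cut h z hz'
    have hG0 : 0 ≤ d.G z := h.G0 z ⟨q0.le.trans q2, hz'.2.trans h.zmax⟩
    rw [Real.norm_eq_abs, abs_of_nonneg (by positivity)]
    refine (skw_h0_pw hc h z hz').trans ?_
    rw [← hK]
    apply mul_le_mul_of_nonneg_left _ hK0.le
    exact div_le_div_of_nonneg_left (by positivity) (by positivity) (pow_le_pow_left₀ r0.le (skw_h0_R_mono hz.1.le) 2)
  have hn := intervalIntegral.norm_integral_le_of_norm_le_const hb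
  rw [abs_of_nonneg (by linarith)] at hn
  have hlen : β - α ≤ (1 + c.zs) * skwR α := by
    by_cases ha : α ≤ 1
    · have : skwR α = α := min_eq_left ha
      rw [this]
      have : 0 ≤ c.zs * α := mul_nonneg hc.zs.le (r0.le.trans r2)
      linarith
    · have : skwR α = 1 := min_eq_right (not_le.1 ha).le
      rw [this]
      linarith
  calc ∫ z in α..β, d.G z * skwH0 c d z ^ 2 ≤ ‖∫ z in α..β, d.G z * skwH0 c d z ^ 2‖ := le_abs_self _
    _ ≤ K * (d.U ^ 4 / skwR α ^ 2) * (β - α) := hn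
    _ ≤ K * (d.U ^ 4 / skwR α ^ 2) * ((1 + c.zs) * skwR α) := mul_le_mul_of_nonneg_left hlen (by positivity)
    _ = K * (1 + c.zs) * d.U ^ 4 / skwR α := by field_simp

end concl

/-- **Leaf H0**      TEX[LL:lem:statistics-widths] (paragraph "The intrinsic width") -/
theorem skw_leaf_h0 : SkwLeafH0 := by
  intro c hc
  have hM := hc.M0
  have hC := hc.Cadj 1
  have hzs := hc.zs
  obtain ⟨K, hK⟩ : ∃ K : ℝ, K = 4 * c.Cadj 1 ^ 2 * c.M0 * (1 + c.zs) := ⟨_, rfl⟩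
  have hK0 : 0 < K := by rw [hK]; positivity
  refine ⟨2 * (c.M0 + 1) + c.Cadj 1 + K, by linarith, fun d h => ?_⟩
  have hU := skw_h0_U h
  refine ⟨fun z hz => (skw_h0_spec hc h z hz).2.1, fun z hz => ?_, fun z hz => ?_, fun z hz hlt => ?_, fun z hz l l0 l1 l2 => ?_,
    fun z hz z' hz' h1 h2 => skw_h0_qlip hc h z hz z' hz' h1 h2, skw_h0_meas hc h, fun z hz => ?_, fun α β h1 h2 h3 h4 => ?_⟩
  · refine le_trans ?_ (skw_h0_lower hc h z hz)
    obtain ⟨r0, _, _, _⟩ := skw_h0_cut h z hz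
    have hm0 : 0 ≤ min (d.b * skwR z) (d.U ^ 2 / skwR z) := le_min (mul_nonneg h.b0.le r0.le) (by positivity)
    exact div_le_div_of_nonneg_left hm0 (by linarith) (by linarith)
  · rw [skw_h0_phi_h0 hc h z hz]
    exact (skw_h0_spec hc h z hz).2.2.1
  · rw [skw_h0_phi_h0 hc h z hz]
    exact skw_h0_eq hc h z hz hlt
  · obtain ⟨b1, b2⟩ := skw_h0_adm h z hz l l1
    rw [skw_h0_phi_eq hc h z l l0 b1 b2] at l2
    exact skw_h0_above hc h z hz l l0 l2
  · refine (skw_h0_GH3 hc h z hz).trans ?_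
    have := (skw_h0_T h z hz).le
    exact mul_le_mul_of_nonneg_right (by linarith) (by linarith [h.t0])
  · refine (skw_h0_budget hc h α β h1 h2 h3 h4).trans ?_
    rw [← hK]
    obtain ⟨r0, _, _, _⟩ := skw_h0_cut h α ⟨h1, h2.trans h4⟩
    apply div_le_div_of_nonneg_right _ r0.le
    exact mul_le_mul_of_nonneg_right (by linarith) (by positivity)

end Claimed.Agent.R286
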