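import Claimed.Agent.R286.W.Leaves

/-!
# Row 286, folder W, file Tile : Leaf TILE (abstract tiling; LL 08 l.333)      (helper188; prefix `skw_tl_`)

Greedy steps `hh t / (4 C₀)`; stop as soon as `β - t ≤ 2` steps.   Invariant: `hh t ≤ 8 C₀² (β - t)`.   `C = 16 C₀³`.
-/

set_option autoImplicit false

namespace Claimed.Agent.R286

open Set MeasureTheory

/-- comparability of `hh` on a short interval that starts at `t` -/
theorem skw_tl_cmp (C₀ : ℝ) (hC : 1 ≤ C₀) (hh : ℝ → ℝ) (α β : ℝ) (hpos : ∀ z ∈ Icc α β, 0 ≤ hh z)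
    (hq : ∀ z ∈ Icc α β, ∀ z' ∈ Icc α β, hh z' ≤ C₀ * (hh z + |z - z'|)) (t t' : ℝ) (h1 : α ≤ t) (h2 : t' ≤ β)
    (h3 : C₀ * (t' - t) ≤ hh t / 2) (z : ℝ) (hz : z ∈ Icc t t') : hh z ≤ 2 * C₀ * hh t ∧ hh t ≤ 2 * C₀ * hh z := by
  have htt : t ≤ t' := hz.1.trans hz.2
  have ht : t ∈ Icc α β := ⟨h1, htt.trans h2⟩
  have hz' : z ∈ Icc α β := ⟨h1.trans hz.1, hz.2.trans h2⟩
  have h0 := hpos t ht
  have hC0 : 0 ≤ C₀ := by linarith
  have e1 : |t - z| = z - t := by rw [abs_sub_comm, abs_of_nonneg (by linarith [hz.1])]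
  have e2 : |z - t| = z - t := abs_of_nonneg (by linarith [hz.1])
  have e3 : C₀ * (z - t) ≤ hh t / 2 := (mul_le_mul_of_nonneg_left (by linarith [hz.2]) hC0).trans h3
  have a1 := hq t ht z hz'
  have a2 := hq z hz' t ht
  rw [e1, mul_add] at a1
  rw [e2, mul_add] at a2
  have e4 : hh t ≤ C₀ * hh t := le_mul_of_one_le_left h0 hC
  constructor <;> linarith

theorem skw_leaf_tile : SkwLeafTile := by
  intro C₀ hC
  have hC0 : 0 < C₀ := by linarith
  have hC2 : 1 ≤ C₀ ^ 2 := one_le_pow₀ hC
  have hC3 : 1 ≤ C₀ ^ 3 := one_le_pow₀ hC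
  refine ⟨16 * C₀ ^ 3, by linarith, ?_⟩
  intro hh α β hmin hαβ hmin0 hlow hq hα
  classical
  have hpos : ∀ z ∈ Icc α β, 0 ≤ hh z := fun z hz => hmin0.le.trans (hlow z hz)
  obtain ⟨s, hs⟩ : ∃ s : ℝ → ℝ, s = fun t => hh t / (4 * C₀) := ⟨_, rfl⟩
  have hsv : ∀ t, s t = hh t / (4 * C₀) := fun t => by rw [hs]
  obtain ⟨nx, hnx⟩ : ∃ nx : ℝ → ℝ, nx = fun t => if β - t ≤ 2 * s t then β else t + s t := ⟨_, rfl⟩
  obtain ⟨t, ht0, hts⟩ : ∃ t : ℕ → ℝ, t 0 = α ∧ ∀ i, t (i + 1) = nx (t i) :=
    ⟨fun i => nx^[i] α, rfl, fun i => Function.iterate_succ_apply' nx i α⟩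
  have hstop : ∀ i, β - t i ≤ 2 * s (t i) → t (i + 1) = β := by
    intro i h
    rw [hts, hnx]
    exact if_pos h
  have hgo : ∀ i, ¬ β - t i ≤ 2 * s (t i) → t (i + 1) = t i + s (t i) := by
    intro i h
    rw [hts, hnx]
    exact if_neg h
  have hspos : ∀ z ∈ Icc α β, hmin / (4 * C₀) ≤ s z := by
    intro z hz
    rw [hsv]
    exact div_le_div_of_nonneg_right (hlow z hz) (by positivity)
  have hσ : 0 < hmin / (4 * C₀) := by positivity
  -- the invariant
  have hinv : ∀ i, t i ∈ Icc α β ∧ hh (t i) ≤ 8 * C₀ ^ 2 * (β - t i) ∨ t i = β := by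
    intro i
    induction i with
    | zero =>
      left
      rw [ht0]
      refine ⟨⟨le_rfl, hαβ.le⟩, hα.trans ?_⟩
      have : C₀ ≤ 8 * C₀ ^ 2 := by nlinarith
      exact mul_le_mul_of_nonneg_right this (by linarith)
    | succ i ih =>
      by_cases hst : β - t i ≤ 2 * s (t i)
      · right
        exact hstop i hst
      · rcases ih with ⟨hm, _⟩ | hb
        · left
          have hst' : 2 * s (t i) < β - t i := not_le.1 hst
          have hs0 : 0 < s (t i) := lt_of_lt_of_le hσ (hspos _ hm)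
          have e := hgo i hst
          have hm' : t (i + 1) ∈ Icc α β := by
            rw [e]
            exact ⟨by linarith [hm.1], by linarith⟩
          refine ⟨hm', ?_⟩
          have a1 := hq (t i) hm (t (i + 1)) hm'
          have e1 : |t i - t (i + 1)| = s (t i) := by
            rw [e, abs_sub_comm, abs_of_nonneg (by linarith)]
            ring
          rw [e1] at a1
          have e2 : hh (t i) = 4 * C₀ * s (t i) := by
            rw [hsv]
            field_simp
          have e3 : s (t i) < β - t (i + 1) := by rw [e]; linarith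
          rw [e2] at a1
          have hCC : C₀ ≤ C₀ ^ 2 := by nlinarith
          have q1 : C₀ * s (t i) ≤ C₀ ^ 2 * s (t i) := mul_le_mul_of_nonneg_right hCC hs0.le
          have q2 : 0 ≤ C₀ ^ 2 * s (t i) := by positivity
          have e4 : C₀ * (4 * C₀ * s (t i) + s (t i)) ≤ 8 * C₀ ^ 2 * s (t i) := by
            have : C₀ * (4 * C₀ * s (t i) + s (t i)) = 4 * (C₀ ^ 2 * s (t i)) + C₀ * s (t i) := by ring
            rw [this]
            linarith
          have e5 : 8 * C₀ ^ 2 * s (t i) ≤ 8 * C₀ ^ 2 * (β - t (i + 1)) := mul_le_mul_of_nonneg_left e3.le (by positivity)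
          linarith
        · right
          apply hstop
          rw [hb, sub_self]
          have := hspos β ⟨hαβ.le, le_rfl⟩
          linarith
  have hmem : ∀ i, t i ∈ Icc α β := by
    intro i
    rcases hinv i with h | h
    · exact h.1
    · rw [h]
      exact ⟨hαβ.le, le_rfl⟩
  -- termination
  have hterm : ∀ i : ℕ, t i = β ∨ α + i * (hmin / (4 * C₀)) ≤ t i := by
    intro i
    induction i with
    | zero => right; rw [ht0]; simp
    | succ i ih =>
      by_cases hst : β - t i ≤ 2 * s (t i)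
      · left
        exact hstop i hst
      · rcases ih with hb | hb
        · exfalso
          apply hst
          rw [hb, sub_self]
          have := hspos β ⟨hαβ.le, le_rfl⟩
          linarith
        · right
          rw [hgo i hst]
          have := hspos _ (hmem i)
          push_cast
          linarith
  have hex : ∃ i, t i = β := by
    obtain ⟨i, hi⟩ := exists_nat_gt ((β - α) / (hmin / (4 * C₀)))
    refine ⟨i, ?_⟩
    rcases hterm i with h | h
    · exact h
    · exfalso
      rw [div_lt_iff₀ hσ] at hi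
      linarith [(hmem i).2]
  refine ⟨Nat.find hex, t, ht0, Nat.find_spec hex, ?_, ?_⟩
  · intro i hi
    have hne : t i ≠ β := Nat.find_min hex hi
    have hlt : t i < β := lt_of_le_of_ne (hmem i).2 hne
    by_cases hst : β - t i ≤ 2 * s (t i)
    · rw [hstop i hst]
      exact hlt
    · rw [hgo i hst]
      have := hspos _ (hmem i)
      linarith
  · intro i hi z hz
    have hne : t i ≠ β := Nat.find_min hex hi
    have hm := hmem i
    have hK : hh (t i) ≤ 8 * C₀ ^ 2 * (β - t i) := by
      rcases hinv i with h | h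
      · exact h.2
      · exact absurd h hne
    have e2 : hh (t i) = 4 * C₀ * s (t i) := by
      rw [hsv]
      field_simp
    have h0 : 0 ≤ hh (t i) := hpos _ hm
    have hs0 : 0 ≤ s (t i) := hσ.le.trans (hspos _ hm)
    have hz0 : 0 ≤ hh z := hpos z ⟨hm.1.trans hz.1, hz.2.trans (hmem (i + 1)).2⟩
    by_cases hst : β - t i ≤ 2 * s (t i)
    · have e := hstop i hst
      rw [e] at hz ⊢
      have hc := skw_tl_cmp C₀ hC hh α β hpos hq (t i) β hm.1 le_rfl (by rw [e2]; nlinarith) z hz
      constructor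
      · rw [div_le_iff₀ (by positivity)]
        calc hh z ≤ 2 * C₀ * hh (t i) := hc.1
          _ ≤ 2 * C₀ * (8 * C₀ ^ 2 * (β - t i)) := mul_le_mul_of_nonneg_left hK (by positivity)
          _ = (β - t i) * (16 * C₀ ^ 3) := by ring
      · calc β - t i ≤ 2 * s (t i) := hst
          _ ≤ 4 * C₀ * s (t i) := by nlinarith
          _ = hh (t i) := e2.symm
          _ ≤ 2 * C₀ * hh z := hc.2
          _ ≤ 16 * C₀ ^ 3 * hh z := by
              apply mul_le_mul_of_nonneg_right _ hz0
              nlinarith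
    · have e := hgo i hst
      have hst' : 2 * s (t i) < β - t i := not_le.1 hst
      rw [e] at hz ⊢
      have e6 : t i + s (t i) - t i = s (t i) := by ring
      have hc := skw_tl_cmp C₀ hC hh α β hpos hq (t i) (t i + s (t i)) hm.1 (by linarith) (by rw [e6, e2]; nlinarith) z hz
      rw [e6]
      constructor
      · rw [div_le_iff₀ (by positivity)]
        calc hh z ≤ 2 * C₀ * hh (t i) := hc.1
          _ = 8 * C₀ ^ 2 * s (t i) := by rw [e2]; ring
          _ ≤ s (t i) * (16 * C₀ ^ 3) := by nlinarith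
      · calc s (t i) ≤ 4 * C₀ * s (t i) := by nlinarith
          _ = hh (t i) := e2.symm
          _ ≤ 2 * C₀ * hh z := hc.2
          _ ≤ 16 * C₀ ^ 3 * hh z := by
              apply mul_le_mul_of_nonneg_right _ hz0
              nlinarith

end Claimed.Agent.R286
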