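import Claimed.Agent.R286.W.H0

/-!
# Row 286, folder W, file WinA : Leaf WINA (LL 08 "Windows and tiles", first case, l.297-316)      OWNER helper188 (prefix `skw_wa_`)

`w = hact z`, cap inactive: `T = U⁶/r³ = Pt z (H_0 z) ≤ Pt z w ≤ 2 w³ (sup_I G + tiny)`, `I = [z - w, min (z + w) zs]` (the reflected points fold into `I`);
`SkwAdj` (`κ = 2 K₀`, `l = w`) compares `sup_I G` with the mean on a window `[a', a' + w/(2 K₀)]`, `z - w ≤ a' ≤ z`.   `tiny` is absorbed by `U ≤ 1/C`.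
-/

set_option autoImplicit false

namespace Claimed.Agent.R286

open Set MeasureTheory

/-- **one window** -/
theorem skw_wa_core {c : SkwC} (hc : c.Ok) (K₀ : ℝ) (hK : 1 ≤ K₀) (d : SkwD) (h : SkwHyp c d) (C : ℝ)
    (hC : C = 2 * K₀ + 12 * c.Cadj (2 * K₀) + 2 * c.Cadj 1) (hs : SkwSmall C d) (z : ℝ) (hz : z ∈ Icc d.zlo c.zs) (w : ℝ)
    (hw0 : skwH0 c d z ≤ w) (hw1 : w < d.b * skwR z / C) (a' : ℝ) (ha1 : z - w ≤ a') (ha2 : a' ≤ z) (ha3 : a' + w / (2 * K₀) ≤ c.zs) :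
    SkwWin C d z w a' (w / (2 * K₀)) := by
  have hz' : z ∈ Icc (d.zlo / 4) c.zs := ⟨by linarith [hz.1, h.zlo0], hz.2⟩
  obtain ⟨r0, r1, r2, r3⟩ := skw_h0_cut h z hz'
  obtain ⟨Ca, hCa⟩ : ∃ Ca : ℝ, Ca = c.Cadj (2 * K₀) := ⟨_, rfl⟩
  obtain ⟨C1, hC1⟩ : ∃ C1 : ℝ, C1 = c.Cadj 1 := ⟨_, rfl⟩
  have hCa1 : 1 ≤ Ca := hCa ▸ hc.Cadj _
  have hC11 : 1 ≤ C1 := hC1 ▸ hc.Cadj _
  rw [← hCa, ← hC1] at hC
  have hCge : 1 ≤ C := by linarith
  have hC0 : 0 < C := by linarith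
  have hU := skw_h0_U h
  have w0 : 0 < w := lt_of_lt_of_le (skw_h0_pos hc h z hz') hw0
  have hbr : 0 ≤ d.b * skwR z := mul_nonneg h.b0.le r0.le
  have wbr : w ≤ d.b * skwR z := hw1.le.trans (div_le_self hbr hCge)
  have wb : w ≤ d.b := wbr.trans (mul_le_of_le_one_right h.b0.le r1)
  have w1 : w ≤ 1 := by linarith [h.b1]
  obtain ⟨b1, b2⟩ := skw_h0_adm h z hz' w wbr
  obtain ⟨T, hT⟩ : ∃ T : ℝ, T = d.U ^ 6 / skwR z ^ 3 := ⟨_, rfl⟩
  have hT0 : 0 < T := hT ▸ skw_h0_T h z hz'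
  have hTU : d.U ^ 6 ≤ T := by
    rw [hT, le_div_iff₀ (by positivity)]
    exact mul_le_of_le_one_right (by positivity) (pow_le_one₀ r0.le r1)
  have hTw : T ≤ skwPt c d z w := by
    have e1 := skw_h0_eq hc h z hz' (lt_of_le_of_lt hw0 (lt_of_lt_of_le hw1 (div_le_self hbr hCge)))
    rw [hT, ← e1]
    exact skw_h0_pt_le hc h z z _ w (skw_h0_spec hc h z hz').1 hw0 (by linarith) (by linarith)
  -- tiny is small
  have htiny : d.tiny ≤ T / (8 * Ca) := by
    have q1 : d.x ^ 12 ≤ d.U ^ 12 := pow_le_pow_left₀ h.x0.le h.xU 12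
    have q2 : d.U ^ 6 ≤ d.U := by
      calc d.U ^ 6 ≤ d.U ^ 1 := pow_le_pow_of_le_one hU.le h.U1 (by norm_num)
        _ = d.U := pow_one _
    have q3 : d.U ≤ 1 / (8 * Ca) := hs.U.trans (one_div_le_one_div_of_le (by positivity) (by linarith))
    have q4 : d.U ^ 12 = d.U ^ 6 * d.U ^ 6 := by ring
    calc d.tiny ≤ d.U ^ 6 * d.U ^ 6 := by linarith [h.t1]
      _ ≤ T * (1 / (8 * Ca)) := mul_le_mul hTU (q2.trans q3) (by positivity) hT0.le
      _ = T / (8 * Ca) := by ring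
  obtain ⟨l₂, hl₂⟩ : ∃ l₂ : ℝ, l₂ = w / (2 * K₀) := ⟨_, rfl⟩
  rw [← hl₂] at ha3 ⊢
  have l20 : 0 < l₂ := by rw [hl₂]; positivity
  have l2w : l₂ ≤ w := by rw [hl₂]; exact div_le_self w0.le (by linarith)
  have ha0 : 0 ≤ a' := b1.trans ha1
  obtain ⟨avg, havg⟩ : ∃ avg : ℝ, avg = (∫ t in a'..(a' + l₂), d.G t) / l₂ := ⟨_, rfl⟩
  have avg0 : 0 ≤ avg := by
    rw [havg]
    refine div_nonneg (intervalIntegral.integral_nonneg (by linarith) fun t ht => ?_) l20.le
    exact h.G0 t ⟨ha0.trans ht.1, (ht.2.trans ha3).trans h.zmax⟩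
  obtain ⟨e, he⟩ : ∃ e : ℝ, e = min (z + w) c.zs := ⟨_, rfl⟩
  have e1 : z ≤ e := he ▸ le_min (by linarith) hz.2
  have e2 : e ≤ z + w := he ▸ min_le_left _ _
  have e3 : e ≤ c.zs := he ▸ min_le_right _ _
  have hκ : (1 : ℝ) ≤ 2 * K₀ := by linarith
  have hκw : w / (2 * K₀) ≤ w := div_le_self w0.le hκ
  have hκw2 : 2 * w ≤ 2 * K₀ * w := by nlinarith
  have hadj : ∀ s ∈ Icc (z - w) e, d.G s ≤ Ca * (avg + d.tiny) := by
    intro s hs'
    have := h.adj (2 * K₀) w (z - w) (e - (z - w)) a' l₂ hκ w0 (by nlinarith [h.b0]) (by linarith) (by linarith) (by rw [hl₂]) (by linarith)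
      b1 (by linarith) ha0 ha3 (by rw [abs_sub_comm, abs_of_nonneg (by linarith)]; linarith) s ⟨hs'.1, by linarith [hs'.2]⟩
    rw [← hCa, ← havg] at this
    exact this
  have hpw : ∀ s ∈ Icc (z - w) (z + w), skwGt c d s ≤ Ca * (avg + d.tiny) + d.tiny := by
    intro s hs'
    unfold skwGt
    have : max 0 (c.zs - |s - c.zs|) ∈ Icc (z - w) e := by
      by_cases h1 : s ≤ c.zs
      · rw [abs_of_nonpos (by linarith), max_eq_right (by linarith [hs'.1])]
        exact ⟨by linarith [hs'.1], by rw [he]; exact le_min (by linarith [hs'.2]) (by linarith)⟩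
      · have h1' : c.zs < s := not_le.1 h1
        rw [abs_of_nonneg (by linarith), max_eq_right (by linarith [hs'.2])]
        have : e = c.zs := by rw [he]; exact min_eq_right (by linarith [hs'.2])
        rw [this]
        exact ⟨by linarith [hs'.2, hz.2], by linarith⟩
    linarith [hadj _ this]
  have hint : skwFt c d (z + w) - skwFt c d (z - w) ≤ (Ca * (avg + d.tiny) + d.tiny) * (2 * w) := by
    rw [← skw_h0_ft_sub hc h]
    have := intervalIntegral.integral_mono_on (μ := volume) (by linarith : z - w ≤ z + w) ((skw_h0_gt_cont hc h).intervalIntegrable _ _)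
      (intervalIntegrable_const (c := Ca * (avg + d.tiny) + d.tiny)) hpw
    rw [intervalIntegral.integral_const, smul_eq_mul] at this
    linarith
  have w3 : w ^ 3 ≤ 1 := pow_le_one₀ w0.le w1
  have w30 : 0 < w ^ 3 := by positivity
  have hbig : T / (4 * Ca) ≤ avg * w ^ 3 := by
    have q1 : T ≤ 2 * w ^ 3 * (Ca * (avg + d.tiny) + d.tiny) := by
      refine hTw.trans ?_
      unfold skwPt
      calc w ^ 2 * (skwFt c d (z + w) - skwFt c d (z - w)) ≤ w ^ 2 * ((Ca * (avg + d.tiny) + d.tiny) * (2 * w)) :=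
            mul_le_mul_of_nonneg_left hint (by positivity)
        _ = 2 * w ^ 3 * (Ca * (avg + d.tiny) + d.tiny) := by ring
    have q2 : Ca * (avg + d.tiny) + d.tiny ≤ Ca * avg + 2 * Ca * d.tiny := by nlinarith [h.t0]
    have q3 : 2 * w ^ 3 * (Ca * (avg + d.tiny) + d.tiny) ≤ 2 * w ^ 3 * (Ca * avg + 2 * Ca * d.tiny) :=
      mul_le_mul_of_nonneg_left q2 (by positivity)
    have q4 : 2 * w ^ 3 * (2 * Ca * d.tiny) ≤ 2 * 1 * (2 * Ca * (T / (8 * Ca))) := by
      apply mul_le_mul (by linarith) (mul_le_mul_of_nonneg_left htiny (by positivity)) (by have := h.t0; positivity) (by norm_num)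
    have q5 : 2 * 1 * (2 * Ca * (T / (8 * Ca))) = T / 2 := by field_simp; ring
    have q6 : T / 2 ≤ 2 * Ca * (avg * w ^ 3) := by
      have : 2 * w ^ 3 * (Ca * avg + 2 * Ca * d.tiny) = 2 * Ca * (avg * w ^ 3) + 2 * w ^ 3 * (2 * Ca * d.tiny) := by ring
      linarith
    rw [div_le_iff₀ (by positivity)]
    linarith
  have hta : d.tiny ≤ avg := by
    have q1 : avg * w ^ 3 ≤ avg := mul_le_of_le_one_right avg0 w3
    have q2 : T / (8 * Ca) ≤ T / (4 * Ca) := div_le_div_of_nonneg_left hT0.le (by positivity) (by linarith)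
    linarith
  refine ⟨?_, l2w, ?_, ?_, ?_⟩
  · rw [hl₂]
    exact div_le_div_of_nonneg_left w0.le (by positivity) (by linarith)
  · rw [abs_sub_comm, abs_of_nonneg (by linarith)]
    calc z - a' ≤ w := by linarith
      _ ≤ C * w := le_mul_of_one_le_left w0.le hCge
  · intro s hs'
    have := h.adj 1 l₂ a' l₂ a' l₂ le_rfl l20 (by linarith) (by simp) (by simp) (by simp) (by simp) ha0 ha3 ha0 ha3 (by simp; exact l20.le)
      s ⟨hs'.1.le, hs'.2.le⟩
    rw [← hC1, ← havg] at this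
    rw [← havg]
    calc d.G s ≤ C1 * (avg + d.tiny) := this
      _ ≤ C1 * (2 * avg) := mul_le_mul_of_nonneg_left (by linarith) (by linarith)
      _ = 2 * C1 * avg := by ring
      _ ≤ C * avg := mul_le_mul_of_nonneg_right (by linarith) avg0
  · rw [← havg]
    refine le_trans ?_ hbig
    rw [hT, div_div]
    apply div_le_div_of_nonneg_left (by positivity) (by positivity)
    calc skwR z ^ 3 * (4 * Ca) = 4 * Ca * skwR z ^ 3 := by ring
      _ ≤ C * skwR z ^ 3 := mul_le_mul_of_nonneg_right (by linarith) (by positivity)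

/-- **Leaf WINA**      TEX[LL:lem:statistics-widths] (paragraph "Windows and tiles", active cuts with room) -/
theorem skw_leaf_winA : SkwLeafWinA := by
  intro c hc K₀ hK
  have h1 := hc.Cadj (2 * K₀)
  have h2 := hc.Cadj 1
  refine ⟨2 * K₀ + 12 * c.Cadj (2 * K₀) + 2 * c.Cadj 1, by linarith, ?_⟩
  intro d h hs z hz hw1 hw2
  have hz' : z ∈ Icc (d.zlo / 4) c.zs := ⟨by linarith [hz.1, h.zlo0], hz.2⟩
  obtain ⟨r0, r1, r2, r3⟩ := skw_h0_cut h z hz'
  have hw0 : skwH0 c d z ≤ skwHact c d z := (le_max_left _ _).trans (le_max_left _ _)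
  obtain ⟨w, hw⟩ : ∃ w : ℝ, w = skwHact c d z := ⟨_, rfl⟩
  rw [← hw] at hw0 hw1 hw2 ⊢
  have w0 : 0 < w := lt_of_lt_of_le (skw_h0_pos hc h z hz') hw0
  have hl : w / (2 * K₀) ≤ w := div_le_self w0.le (by linarith)
  have hl0 : 0 < w / (2 * K₀) := by positivity
  have hbr : 0 ≤ d.b * skwR z := mul_nonneg h.b0.le r0.le
  have wbr : w ≤ d.b * skwR z := hw1.le.trans (div_le_self hbr (by linarith))
  have hl2 : w / (2 * K₀) ≤ (c.zs - z) / 2 := by
    rw [div_le_iff₀ (by positivity)]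
    calc w ≤ K₀ * (c.zs - z) := hw2
      _ = (c.zs - z) / 2 * (2 * K₀) := by ring
  have hzz : 0 ≤ c.zs - z := by linarith [hz.2]
  constructor
  · refine ⟨z - w / (2 * K₀), w / (2 * K₀), by linarith [hz.1], by linarith, ?_⟩
    exact skw_wa_core hc K₀ hK d h _ rfl hs z hz w hw0 hw1 _ (by linarith) (by linarith) (by linarith [hz.2])
  · refine ⟨z, w / (2 * K₀), le_rfl, by linarith, ?_⟩
    exact skw_wa_core hc K₀ hK d h _ rfl hs z hz w hw0 hw1 _ (by linarith) le_rfl (by linarith)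

end Claimed.Agent.R286
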