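import Claimed.Agent.R286.W.Adj
import Claimed.Agent.R286.W.H0
import Claimed.Agent.R286.W.ConeA
import Claimed.Agent.R286.W.ConeB
import Claimed.Agent.R286.W.WinA
import Claimed.Agent.R286.W.Tile
import Claimed.Agent.R286.W.GlueK

/-!
# Row 286, folder W, file GlueL : GLUE-L, the low-region theorem `SkwLow` from the leaves (LL Lemma 8.2, "The low-region construction")      (helper112; prefix `skw_gl_`)
-/

set_option autoImplicit false

namespace Claimed.Agent.R286

open Set MeasureTheory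

theorem skw_gl_L_ge {c : SkwC} {d : SkwD} (H : SkwHyp c d) : 1 ≤ skwL d := by
  unfold skwL
  have hx1 : d.x ≤ 1 := H.xU.trans H.U1
  have h1 : d.tiny ≤ 1 := H.t1.trans (pow_le_one₀ H.x0.le hx1)
  have h2 : 1 ≤ 1 / d.tiny := by rw [le_div_iff₀ H.t0]; linarith
  linarith [Real.log_nonneg h2]

/-- `G W²` is interval integrable for a bounded measurable `W` -/
theorem skw_gl_int {c : SkwC} {d : SkwD} (H : SkwHyp c d) {W : ℝ → ℝ} {α ρ β B : ℝ} (hα : 0 ≤ α)
    (hW : AEStronglyMeasurable W (volume.restrict (Icc α c.zs))) (hB : ∀ z ∈ Icc α c.zs, |W z| ≤ B)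
    (h1 : α ≤ ρ) (h2 : ρ ≤ β) (h3 : β ≤ c.zs) : IntervalIntegrable (fun z => d.G z * W z ^ 2) volume ρ β := by
  have hsub : Icc ρ β ⊆ Icc α c.zs := Icc_subset_Icc h1 h3
  have hsub0 : Icc ρ β ⊆ Icc 0 c.zs := Icc_subset_Icc (hα.trans h1) h3
  apply IntegrableOn.intervalIntegrable
  rw [uIcc_of_le h2]
  refine ⟨?_, HasFiniteIntegral.restrict_of_bounded (C := c.M0 * B ^ 2) (by simp) ?_⟩
  · have g1 : AEStronglyMeasurable d.G (volume.restrict (Icc ρ β)) :=
      (H.Gc.mono hsub0).aestronglyMeasurable measurableSet_Icc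
    have g2 : AEStronglyMeasurable W (volume.restrict (Icc ρ β)) :=
      hW.mono_measure (Measure.restrict_mono hsub le_rfl)
    exact g1.mul (g2.pow 2)
  · rw [ae_restrict_iff' measurableSet_Icc]
    refine Filter.Eventually.of_forall fun z hz => ?_
    have a1 : 0 ≤ d.G z := H.G0 z ⟨(hsub0 hz).1, (hsub0 hz).2.trans H.zmax⟩
    have a2 : d.G z ≤ c.M0 := H.GM z (hsub0 hz)
    have a3 : W z ^ 2 ≤ B ^ 2 := by
      rw [← sq_abs]; exact pow_le_pow_left₀ (abs_nonneg _) (hB z (hsub hz)) 2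
    rw [Real.norm_eq_abs, abs_of_nonneg (by positivity)]
    exact mul_le_mul a2 a3 (by positivity) (a1.trans a2)

theorem skw_gl_H0_nonneg {c : SkwC} {d : SkwD} {C0 : ℝ} (hC0 : 1 ≤ C0) (H : SkwHyp c d) (h0 : SkwH0Concl C0 c d)
    {z : ℝ} (hz : z ∈ Icc (d.zlo / 4) c.zs) : 0 ≤ skwH0 c d z := by
  have hzlo := H.zlo0
  have hr : 0 < skwR z := skw_gk_R_pos (by linarith [hz.1])
  have hb0 := H.b0
  have hU0 : 0 < d.U := H.x0.trans_le H.xU
  have hm : 0 ≤ min (d.b * skwR z) (d.U ^ 2 / skwR z) := le_min (by positivity) (by positivity)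
  exact le_trans (by positivity) (h0.lower z hz)

/-- the squared budget where the extra width vanishes -/
theorem skw_gl_budget {c : SkwC} {d : SkwD} {C0 CB ρ β : ℝ} (H : SkwHyp c d) (h0 : SkwH0Concl C0 c d)
    (hf : SkwConeConcl c d) (hC0 : 1 ≤ C0)
    (hB : ∫ z in ρ..β, d.G z * skwHf c d z ^ 2 ≤ CB * skwL d * d.U ^ 4 / skwR ρ)
    (hρ : d.zlo / 4 ≤ ρ) (hρβ : ρ ≤ β) (hβ2 : β ≤ 2 * ρ) (hβ : β ≤ c.zs) (hx : ∀ z ∈ Icc ρ β, d.Hx z = 0) :
    ∫ z in ρ..β, d.G z * skwHact c d z ^ 2 ≤ (C0 + CB) * skwL d * d.U ^ 4 / skwR ρ := by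
  have hzlo := H.zlo0
  have hα : 0 ≤ d.zlo / 4 := by linarith
  have hb1 : d.b ≤ 1 := by linarith [H.b1]
  have hbr : ∀ z, 0 < z → d.b * skwR z ≤ 1 := fun z hz => by
    calc d.b * skwR z ≤ 1 * 1 := mul_le_mul hb1 (skw_gk_R_le_one z) (skw_gk_R_pos hz).le (by norm_num)
      _ = 1 := one_mul 1
  have i0 : IntervalIntegrable (fun z => d.G z * skwH0 c d z ^ 2) volume ρ β :=
    skw_gl_int H (B := 1) hα h0.meas (fun z hz => by
      rw [abs_of_nonneg (skw_gl_H0_nonneg hC0 H h0 hz)]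
      exact (h0.cap z hz).trans (hbr z (by linarith [hz.1]))) hρ hρβ hβ
  have mf : AEStronglyMeasurable (skwHf c d) (volume.restrict (Icc (d.zlo / 4) c.zs)) := by
    have hl : LipschitzWith d.A.toNNReal (skwHf c d) := by
      apply LipschitzWith.of_dist_le_mul
      intro x y
      rw [Real.dist_eq, Real.dist_eq, Real.coe_toNNReal _ (by linarith [H.A1])]
      exact hf.lip x y
    exact hl.continuous.aestronglyMeasurable
  have i1 : IntervalIntegrable (fun z => d.G z * skwHf c d z ^ 2) volume ρ β :=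
    skw_gl_int H (B := 1) hα mf (fun z hz => by
      rw [abs_of_nonneg (hf.nonneg z)]
      exact (hf.le z (by linarith [hz.1])).trans (hbr z (by linarith [hz.1]))) hρ hρβ hβ
  have i2 : IntervalIntegrable (fun z => d.G z * skwHact c d z ^ 2) volume ρ β :=
    skw_gl_int H (B := 2) hα (skw_gk_meas H h0 hf le_rfl) (fun z hz => by
      rw [abs_of_nonneg (skw_gk_hact_nonneg hf z)]
      have := skw_gk_upper H h0 hf hz
      have := skw_gk_R_le_one z
      linarith) hρ hρβ hβ
  have hmono : ∫ z in ρ..β, d.G z * skwHact c d z ^ 2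
      ≤ ∫ z in ρ..β, (d.G z * skwH0 c d z ^ 2 + d.G z * skwHf c d z ^ 2) := by
    apply intervalIntegral.integral_mono_on hρβ i2 (i0.add i1)
    intro z hz
    have hG0 : 0 ≤ d.G z := H.G0 z ⟨by linarith [hz.1], (hz.2.trans hβ).trans H.zmax⟩
    have hfn := hf.nonneg z
    have e : skwHact c d z = max (skwH0 c d z) (skwHf c d z) := by
      unfold skwHact
      rw [hx z hz]
      exact max_eq_left (hfn.trans (le_max_right _ _))
    rw [e, ← mul_add]
    apply mul_le_mul_of_nonneg_left _ hG0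
    rcases le_total (skwH0 c d z) (skwHf c d z) with h | h
    · rw [max_eq_right h]; nlinarith [sq_nonneg (skwH0 c d z)]
    · rw [max_eq_left h]; nlinarith [sq_nonneg (skwHf c d z)]
  rw [intervalIntegral.integral_add i0 i1] at hmono
  have hb0 := h0.budget ρ β hρ hρβ hβ2 hβ
  have hL := skw_gl_L_ge H
  have hr : 0 < skwR ρ := skw_gk_R_pos (by linarith)
  have hU0 : 0 < d.U := H.x0.trans_le H.xU
  have e1 : C0 * d.U ^ 4 / skwR ρ ≤ C0 * skwL d * d.U ^ 4 / skwR ρ := by
    apply div_le_div_of_nonneg_right _ hr.le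
    apply mul_le_mul_of_nonneg_right _ (by positivity)
    exact le_mul_of_one_le_right (by linarith) hL
  have e2 : (C0 + CB) * skwL d * d.U ^ 4 / skwR ρ
      = C0 * skwL d * d.U ^ 4 / skwR ρ + CB * skwL d * d.U ^ 4 / skwR ρ := by ring
  rw [e2]
  linarith

theorem skw_gl_seq {n : ℕ} {t : ℕ → ℝ} (h : ∀ i < n, t i < t (i + 1)) :
    ∀ i j, i ≤ j → j ≤ n → t i ≤ t j := by
  intro i j hij
  induction j, hij using Nat.le_induction with
  | base => intro _; exact le_rfl
  | succ j hj ih =>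
    intro hjn
    exact (ih (by omega)).trans (h j (by omega)).le

set_option maxHeartbeats 1600000 in
/-- TEX[LL:lem:statistics-widths] low-region variant -/
theorem skw_low : SkwLow := by
  intro c hc δ₀ hδ
  obtain ⟨C0, hC0, h0all⟩ := skw_leaf_h0 c hc
  obtain ⟨CB, hCB, hBall⟩ := skw_leaf_coneB c hc 1 le_rfl
  obtain ⟨CA, hCA, hAall⟩ := skw_leaf_winA c hc 1 le_rfl
  obtain ⟨CT, hCT, hTall⟩ := skw_leaf_tile 4 (by norm_num)
  have hCf := hc.Cf
  have hLq := hc.Lq
  have hCadj := hc.Cadj CT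
  set Cosc := 2 * c.Cf * (4 * (CT + 2) + 2 * CT * 2 + 1) + 3 * c.Lq * (CT * 2 + 1) with hCosc
  have hCosc0 : 0 ≤ Cosc := by positivity
  have hδ4 : 0 < 4 / δ₀ := by positivity
  set C := C0 + CB + CA + CT + c.Cf + 4 + c.Cadj CT + Cosc + 4 / δ₀ with hC
  have c4 : 4 ≤ C := by linarith
  have cC0 : C0 ≤ C := by linarith
  have cCB : C0 + CB ≤ C := by linarith
  have cCA : CA ≤ C := by linarith
  have cCT : CT ≤ C := by linarith
  have cCf : c.Cf ≤ C := by linarith
  have cAdj : c.Cadj CT ≤ C := by linarith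
  have cOsc : Cosc ≤ C := by linarith
  have cδ : 4 / δ₀ ≤ C := by linarith
  have hC0' : 0 < C := by linarith
  have h1C : 1 / C ≤ δ₀ / 4 := by
    rw [div_le_iff₀ hC0']
    rw [div_le_iff₀ hδ] at cδ
    linarith
  refine ⟨C, by linarith, ?_⟩
  intro d zw H hA Sm hzw1 hzw2 hHx
  have h0 := h0all d H
  have hf := skw_leaf_coneA c hc d H
  have hzlo := H.zlo0
  have hb0 := H.b0
  have hb1 : d.b ≤ 1 := by linarith [H.b1]
  have hU0 : 0 < d.U := H.x0.trans_le H.xU
  have hZ2 : 1 ≤ d.Z ^ 2 := one_le_pow₀ H.Z1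
  have hsub : ∀ z, z ∈ Icc (d.zlo / 2) c.zs → z ∈ Icc (d.zlo / 4) c.zs := fun z hz => ⟨by linarith [hz.1], hz.2⟩
  have hnn := skw_gk_hact_nonneg hf
  have hq4 : ∀ z ∈ Icc (d.zlo / 2) c.zs, ∀ z' ∈ Icc (d.zlo / 2) c.zs,
      skwHact c d z' ≤ 4 * (skwHact c d z + |z - z'|) := by
    intro z hz z' hz'
    have := skw_gk_qlip H h0 hf (hsub z hz) (hsub z' hz')
    rw [hA] at this
    linarith
  have hup : ∀ z ∈ Icc (d.zlo / 2) c.zs, skwHact c d z ≤ 2 * skwR z := fun z hz =>
    skw_gk_upper H h0 hf (hsub z hz)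
  have hdev : ∀ z ∈ Icc (d.zlo / 2) c.zs, |skwF d z| ≤ c.Cf * skwE d (skwHact c d) z / d.b := fun z hz =>
    skw_gk_dev hc H hf (hsub z hz)
  have hE0 : ∀ z, 0 < z → 0 ≤ skwE d (skwHact c d) z := fun z hz =>
    le_min (skw_gk_R_pos hz).le (mul_nonneg (by positivity) (hnn z))
  have hHx0 : ∀ z, z ≤ zw → d.Hx z = 0 := fun z hz => by
    rw [hHx z]; exact max_eq_left (by linarith)
  have hcap : ∀ z ∈ Icc (d.zlo / 2) zw, skwHact c d z ≤ d.b * skwR z := fun z hz =>
    skw_gk_cap H h0 hf ⟨by linarith [hz.1], by linarith [hz.2]⟩ (by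
      rw [hHx0 z hz.2]
      exact mul_nonneg hb0.le (skw_gk_R_pos (by linarith [hz.1])).le)
  refine ⟨?_, ?_, ?_, ?_, ?_, ?_, ?_, ?_⟩
  · -- qlip
    intro z hz z' hz'
    exact (hq4 z hz z' hz').trans
      (mul_le_mul_of_nonneg_right c4 (add_nonneg (hnn z) (abs_nonneg _)))
  · exact skw_gk_meas H h0 hf (by linarith)
  · intro z hz
    exact skw_gk_lower hC0 cC0 H h0 (hsub z hz)
  · intro z hz
    exact (hup z hz).trans (mul_le_mul_of_nonneg_right (by linarith)
      (skw_gk_R_pos (by linarith [hz.1])).le)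
  · intro z hz
    refine (hdev z hz).trans (div_le_div_of_nonneg_right ?_ hb0.le)
    exact mul_le_mul_of_nonneg_right cCf (hE0 z (by linarith [hz.1]))
  · -- budget
    intro ρ hρ
    have hβ1 : ρ ≤ min (2 * ρ) zw := le_min (by linarith [hρ.1]) hρ.2
    have hβ2 : min (2 * ρ) zw ≤ 2 * ρ := min_le_left _ _
    have hβ3 : min (2 * ρ) zw ≤ zw := min_le_right _ _
    have hbC : d.b ≤ δ₀ / 4 := Sm.b.trans h1C
    have hB := hBall d H ρ (min (2 * ρ) zw) (by linarith [hρ.1]) hβ1 hβ2 (by linarith)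
      (Or.inl (by linarith))
    have := skw_gl_budget H h0 hf hC0 hB (by linarith [hρ.1]) hβ1 hβ2 (by linarith)
      (fun z hz => hHx0 z (hz.2.trans hβ3))
    refine this.trans (div_le_div_of_nonneg_right ?_ (skw_gk_R_pos (by linarith [hρ.1])).le)
    have hL := skw_gl_L_ge H
    apply mul_le_mul_of_nonneg_right _ (by positivity)
    exact mul_le_mul_of_nonneg_right cCB (by linarith)
  · -- windows
    intro z hz hsmall
    have hz0 : 0 < z := by linarith [hz.1]
    have hr := skw_gk_R_pos hz0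
    have hr1 := skw_gk_R_le_one z
    have h1 : skwHact c d z ≤ d.Z ^ 2 * skwHact c d z := le_mul_of_one_le_left (hnn z) hZ2
    have h2 : d.b * skwR z / C ≤ d.b * skwR z / CA :=
      div_le_div_of_nonneg_left (by positivity) (by linarith) cCA
    have h3 : z - zw ≤ skwHact c d z := by
      have : z - zw ≤ d.Hx z := by rw [hHx z]; exact le_max_right _ _
      exact this.trans (le_max_right _ _)
    have h4 : d.b * skwR z / C ≤ δ₀ / 4 := by
      have a1 : d.b * skwR z ≤ d.b := mul_le_of_le_one_right hb0.le hr1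
      have a2 : d.b * skwR z / C ≤ d.b * skwR z := div_le_self (by positivity) (by linarith)
      linarith [Sm.b]
    have hSmA : SkwSmall CA d := by
      have : 1 / C ≤ 1 / CA := one_div_le_one_div_of_le (by linarith) cCA
      exact ⟨Sm.b.trans this, Sm.U.trans this, Sm.x.trans this⟩
    obtain ⟨⟨a, l, w1, w2, w3⟩, ⟨a', l', w1', w2', w3'⟩⟩ :=
      hAall d H hSmA z hz (by linarith) (by linarith)
    refine ⟨⟨a, l, w1, w2, skw_gk_win_mono (by linarith) cCA hU0 hr (hnn z) w3⟩,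
      ⟨a', l', w1', w2', skw_gk_win_mono (by linarith) cCA hU0 hr (hnn z) w3'⟩, by linarith⟩
  · -- tiles
    have hmin0 : 0 < min (d.b * skwR d.zlo) (d.U ^ 2) / C0 := by
      have := skw_gk_R_pos hzlo
      have : 0 < min (d.b * skwR d.zlo) (d.U ^ 2) := lt_min (by positivity) (by positivity)
      positivity
    obtain ⟨n, t, t0, tn, tinc, tcmp⟩ := hTall (skwHact c d) d.zlo zw _ (by linarith) hmin0
      (fun z hz => by
        have hz0 : 0 < z := by linarith [hz.1]
        have hr := skw_gk_R_pos hz0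
        refine le_trans ?_ (skw_gk_lower hC0 le_rfl H h0 ⟨by linarith [hz.1], by linarith [hz.2]⟩)
        apply div_le_div_of_nonneg_right _ (by linarith)
        apply min_le_min
        · exact mul_le_mul_of_nonneg_left (skw_gk_R_mono hz.1) hb0.le
        · rw [le_div_iff₀ hr]
          exact mul_le_of_le_one_right (by positivity) (skw_gk_R_le_one z))
      (fun z hz z' hz' => hq4 z ⟨by linarith [hz.1], by linarith [hz.2]⟩ z'
        ⟨by linarith [hz'.1], by linarith [hz'.2]⟩)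
      (by
        have a1 := hcap d.zlo ⟨by linarith, by linarith⟩
        have a2 : d.b * skwR d.zlo ≤ 1 * d.zlo :=
          mul_le_mul hb1 (min_le_left _ _) (skw_gk_R_pos hzlo).le (by norm_num)
        linarith)
    refine ⟨n, t, t0, tn, tinc, fun h => absurd h.2 (by linarith), ?_⟩
    intro i hi
    have hseq := skw_gl_seq tinc
    have hti_lo : d.zlo ≤ t i := t0 ▸ hseq 0 i (Nat.zero_le _) hi.le
    have hti_hi : t (i + 1) ≤ zw := tn ▸ hseq (i + 1) n hi le_rfl
    have hlt := tinc i hi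
    have hτ0 : 0 < t (i + 1) - t i := by linarith
    have hcmp := tcmp i hi
    have hcti := hcmp (t i) ⟨le_rfl, hlt.le⟩
    have hCT0 : 0 < CT := by linarith
    refine ⟨?_, ?_, ?_⟩
    · intro z hz
      have := hcmp z hz
      exact ⟨(div_le_div_of_nonneg_left (hnn z) hCT0 cCT).trans this.1,
        this.2.trans (mul_le_mul_of_nonneg_right cCT (hnn z))⟩
    · intro z hz
      have hlen : t (i + 1) - t i ≤ CT * d.b := by
        have a1 := hcap (t i) ⟨by linarith, by linarith⟩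
        have a2 : d.b * skwR (t i) ≤ d.b := mul_le_of_le_one_right hb0.le (skw_gk_R_le_one _)
        exact hcti.2.trans (mul_le_mul_of_nonneg_left (a1.trans a2) hCT0.le)
      have hG := skw_gk_tileG H hCT (by linarith) hlt (by linarith) hlen z (Ioo_subset_Icc_self hz)
      refine hG.trans (mul_le_mul_of_nonneg_right ?_ ?_)
      · exact cAdj.trans (le_div_self hC0'.le hb0 hb1)
      · have : 0 ≤ ∫ s in (t i)..(t (i + 1)), d.G s :=
          intervalIntegral.integral_nonneg hlt.le fun u hu =>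
            H.G0 u ⟨by linarith [hu.1], by linarith [hu.2, H.zmax]⟩
        have := H.t0
        positivity
    · have hosc := skw_gk_osc hc H (hh := skwHact c d) (zbuf := c.zs) (Cq := 4) (Cu := 2) (Cd := c.Cf) (CT := CT)
        (t := t i) (t' := t (i + 1)) H.zmax (by norm_num) (by norm_num) hCf hCT hq4 hup hdev
        ⟨by linarith, by linarith⟩ hlt (by
          have := hcti.1
          rw [div_le_iff₀ hCT0] at this
          linarith) hcti.2
      intro z hz z' hz' hzz hlo hhi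
      refine (hosc z hz z' hz' hzz hlo hhi).trans (mul_le_mul_of_nonneg_right ?_ ?_)
      · exact div_le_div_of_nonneg_right cOsc hb0.le
      · exact le_min (skw_gk_R_pos (by linarith)).le (by positivity)

end Claimed.Agent.R286
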