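import Claimed.Agent.R286.W.InstDefs

/-!
# Row 286, folder W, file InstS : Leaves IN-S1 (`|f| ≤ Cf r`) and IN-TAIL (dyadic (D1) ⇒ tail form)      (contract helper246; OWNER helper237; prefix `skw_is_`)      0 sorry
IN-S1: `ρ = z` works (`z ≥ zlo/4`, `min(Y,1) ≤ Klo zlo`): if `S(z) > 4 Lq z`, `z` small, then `f ≥ S(z)/2` on `[z,2z]`, `G ≥ cG`, (D1) gives `S(z)² ≤ 1024 C1 Klo⁴ z²/cG`.
IN-TAIL: induction on `n` with `ℓ ≤ 2ⁿ r`.
-/

set_option autoImplicit false

namespace Claimed.Agent.R286

open Set MeasureTheory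

/-- integrability of `f² G` from the raw hypotheses -/
theorem skw_is_fG_int (d : SkwD) {Lq a b : ℝ} (h0 : 0 ≤ a) (hab : a ≤ b) (hb : b ≤ d.zmax)
    (hGi : IntervalIntegrable d.G volume 0 d.zmax)
    (hSm : MonotoneOn d.S (Icc 0 d.zmax)) (hS0 : ∀ z ∈ Icc 0 d.zmax, 0 ≤ d.S z)
    (hS1 : ∀ z ∈ Icc 0 d.zmax, d.S z ≤ 1)
    (hq : ∀ z ∈ Icc 0 d.zmax, ∀ z' ∈ Icc 0 d.zmax, |d.q z - d.q z'| ≤ Lq * |z - z'|)
    (hLq : 0 ≤ Lq)
    (hq0 : ∀ z ∈ Icc 0 d.zmax, 0 ≤ d.q z) (hq1 : ∀ z ∈ Icc 0 d.zmax, d.q z ≤ 1) :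
    IntervalIntegrable (fun z => skwF d z ^ 2 * d.G z) volume a b := by
  have hsub : Icc a b ⊆ Icc 0 d.zmax := Icc_subset_Icc h0 hb
  have hSi : IntervalIntegrable d.S volume a b := by
    apply MonotoneOn.intervalIntegrable
    rw [uIcc_of_le hab]; exact hSm.mono hsub
  have hqc : ContinuousOn d.q (Icc 0 d.zmax) := by
    have hl : LipschitzOnWith (Real.toNNReal Lq) d.q (Icc 0 d.zmax) := by
      apply LipschitzOnWith.of_dist_le_mul
      intro z hz z' hz'
      rw [Real.dist_eq, Real.dist_eq, Real.coe_toNNReal _ hLq]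
      exact hq z hz z' hz'
    exact hl.continuousOn
  have hqi : IntervalIntegrable d.q volume a b := by
    apply ContinuousOn.intervalIntegrable
    rw [uIcc_of_le hab]; exact hqc.mono hsub
  have hfi : IntervalIntegrable (skwF d) volume a b := hSi.sub hqi
  rw [intervalIntegrable_iff_integrableOn_Ioc_of_le hab] at hfi ⊢
  have hG : IntegrableOn d.G (Ioc a b) volume := by
    rw [intervalIntegrable_iff_integrableOn_Ioc_of_le (h0.trans (hab.trans hb))] at hGi
    exact hGi.mono_set fun z hz => ⟨lt_of_le_of_lt h0 hz.1, hz.2.trans hb⟩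
  refine Integrable.bdd_mul (c := 1) hG (hfi.aestronglyMeasurable.pow 2) ?_
  refine (ae_restrict_iff' measurableSet_Ioc).2 (Filter.Eventually.of_forall fun z hz => ?_)
  have hzI : z ∈ Icc 0 d.zmax := hsub ⟨hz.1.le, hz.2⟩
  rw [Real.norm_eq_abs, abs_pow]
  apply pow_le_one₀ (abs_nonneg _)
  unfold skwF
  rw [abs_le]
  constructor <;> linarith [hS0 z hzI, hS1 z hzI, hq0 z hzI, hq1 z hzI]

/-- **Leaf IN-S1**: `|f| ≤ Cf r`.   TEX[LL:prop:statistics-pointwise] (l.113-115: `S_v ≲ v + Y`) -/
theorem skw_leaf_inS1 : SkwLeafInS1 := by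
  intro zs Lq C1 cG zr Klo _hzs hLq hC1 hcG hzr hzrs hKlo
  obtain ⟨zt, hzt⟩ : ∃ zt, zt = min (zr / 4) 1 := ⟨_, rfl⟩
  have hzt0 : 0 < zt := by rw [hzt]; exact lt_min (by positivity) one_pos
  have hzt1 : zt ≤ 1 := by rw [hzt]; exact min_le_right _ _
  have hzt2 : zt ≤ zr / 4 := by rw [hzt]; exact min_le_left _ _
  obtain ⟨K, hK⟩ : ∃ K, K = 1 + 1024 * C1 * Klo ^ 4 / cG := ⟨_, rfl⟩
  have hKq : 0 < 1024 * C1 * Klo ^ 4 / cG := by positivity
  have hK1 : 1 ≤ K := by rw [hK]; linarith
  have hzti : 0 < 1 / zt := by positivity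
  refine ⟨4 * Lq + 1 / zt + 4 * Klo + K, by linarith, ?_⟩
  intro d hU hZ hzlo hzmax hY hG0 hGlo hGi hSm hS0 hS1 hq hq00 hq0 hq1 hD1 z hz
  have hz0 : 0 < z := lt_of_lt_of_le (by linarith) hz.1
  have hzI : z ∈ Icc 0 d.zmax := ⟨hz0.le, hz.2⟩
  have hr0 : 0 < skwR z := lt_min hz0 one_pos
  have h0I : (0 : ℝ) ∈ Icc 0 d.zmax := ⟨le_rfl, hz0.le.trans hz.2⟩
  -- bound of q
  have hqz : d.q z ≤ Lq * skwR z := by
    have h1 := hq z hzI 0 h0I
    rw [hq00, sub_zero, sub_zero, abs_of_pos hz0, abs_of_nonneg (hq0 z hzI)] at h1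
    unfold skwR
    rw [mul_min_of_nonneg _ _ (by linarith)]
    exact le_min h1 (by linarith [hq1 z hzI])
  -- bound of S
  have hSz : d.S z ≤ (4 * Lq + 1 / zt + 4 * Klo + K) * skwR z := by
    have hsum : (4 * Lq + 1 / zt + 4 * Klo + K) * skwR z
        = 4 * Lq * skwR z + 1 / zt * skwR z + 4 * Klo * skwR z + K * skwR z := by ring
    have p1 : 0 ≤ 4 * Lq * skwR z := by positivity
    have p2 : 0 ≤ 1 / zt * skwR z := by positivity
    have p3 : 0 ≤ 4 * Klo * skwR z := by positivity
    have p4 : 0 ≤ K * skwR z := by positivity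
    rcases le_or_gt zt z with hbig | hsmall
    · -- macroscopic
      have h1 : zt ≤ skwR z := le_min hbig hzt1
      have h2 : 1 ≤ 1 / zt * skwR z := by
        rw [div_mul_eq_mul_div, one_mul, le_div_iff₀ hzt0]; linarith
      linarith [hS1 z hzI]
    · have hz1 : z < 1 := by linarith
      have hrz : skwR z = z := min_eq_left hz1.le
      rw [hrz] at hsum p1 p2 p3 p4 ⊢
      have h2z : 2 * z ≤ zr := by linarith
      have h2zm : 2 * z ≤ d.zmax := by linarith
      rcases le_or_gt (d.S z) (4 * Lq * z) with hs | hs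
      · linarith
      · rcases le_or_gt (d.U * d.Z) 1 with hY1 | hY1
        · rw [min_eq_left hY1] at hY
          have hYz : d.U * d.Z ≤ 4 * Klo * z := by nlinarith [hz.1]
          have hD := hD1 z hz
          rw [min_eq_left h2zm, hrz] at hD
          have hint := skw_is_fG_int d hz0.le (by linarith : z ≤ 2 * z) h2zm hGi hSm hS0 hS1 hq
            (by linarith) hq0 hq1
          have hlow : ∀ s ∈ Icc z (2 * z), d.S z ^ 2 / 4 * cG ≤ skwF d s ^ 2 * d.G s := by
            intro s hs
            have hsI : s ∈ Icc 0 d.zmax := ⟨hz0.le.trans hs.1, hs.2.trans h2zm⟩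
            have m1 := hSm hzI hsI hs.1
            have m2 := hq s hsI 0 h0I
            rw [hq00, sub_zero, sub_zero, abs_of_pos (lt_of_lt_of_le hz0 hs.1),
              abs_of_nonneg (hq0 s hsI)] at m2
            have m3 : Lq * s ≤ Lq * (2 * z) := mul_le_mul_of_nonneg_left hs.2 (by linarith)
            have m4 : d.S z / 2 ≤ skwF d s := by unfold skwF; linarith
            have m5 : 0 ≤ d.S z / 2 := by have := hS0 z hzI; positivity
            have m6 : (d.S z / 2) ^ 2 ≤ skwF d s ^ 2 := pow_le_pow_left₀ m5 m4 2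
            have m7 := hGlo s ⟨hsI.1, hs.2.trans h2z⟩
            have m8 : (d.S z / 2) ^ 2 * cG ≤ skwF d s ^ 2 * d.G s :=
              mul_le_mul m6 m7 hcG.le (by positivity)
            have m9 : (d.S z / 2) ^ 2 = d.S z ^ 2 / 4 := by ring
            linarith
          have hmono := intervalIntegral.integral_mono_on (μ := volume) (by linarith : z ≤ 2 * z)
            (intervalIntegrable_const (c := d.S z ^ 2 / 4 * cG)) hint hlow
          rw [intervalIntegral.integral_const, smul_eq_mul] at hmono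
          have e1 : (2 * z - z) = z := by ring
          rw [e1] at hmono
          -- z * (S²/4 cG) ≤ C1 Y⁴ / z
          have hY0 : 0 ≤ d.U * d.Z := by positivity
          have hY4 : (d.U * d.Z) ^ 4 ≤ (4 * Klo * z) ^ 4 := pow_le_pow_left₀ hY0 hYz 4
          have k1 : z * (d.S z ^ 2 / 4 * cG) ≤ C1 * (4 * Klo * z) ^ 4 / z := by
            refine hmono.trans (hD.trans ?_)
            apply div_le_div_of_nonneg_right _ hz0.le
            exact mul_le_mul_of_nonneg_left hY4 (by linarith)
          have k2 : d.S z ^ 2 ≤ (1024 * C1 * Klo ^ 4 / cG) * z ^ 2 := by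
            have e2 : C1 * (4 * Klo * z) ^ 4 / z = 256 * C1 * Klo ^ 4 * z ^ 3 := by
              field_simp; ring
            rw [e2] at k1
            have e3 : (1024 * C1 * Klo ^ 4 / cG) * z ^ 2
                = (256 * C1 * Klo ^ 4 * z ^ 3) * (4 / (cG * z)) := by field_simp; ring
            have e4 : d.S z ^ 2 = (z * (d.S z ^ 2 / 4 * cG)) * (4 / (cG * z)) := by field_simp
            rw [e3, e4]
            exact mul_le_mul_of_nonneg_right k1 (by positivity)
          have k3 : d.S z ^ 2 ≤ (K * z) ^ 2 := by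
            refine k2.trans ?_
            rw [mul_pow]
            apply mul_le_mul_of_nonneg_right _ (by positivity)
            have : K ≤ K ^ 2 := by nlinarith
            rw [hK] at this ⊢
            linarith
          have k4 : d.S z ≤ K * z := le_of_pow_le_pow_left₀ (by norm_num) (by positivity) k3
          linarith
        · rw [min_eq_right hY1.le] at hY
          have : 1 ≤ 4 * Klo * z := by nlinarith [hz.1]
          linarith [hS1 z hzI]
  have hC : Lq * skwR z ≤ (4 * Lq + 1 / zt + 4 * Klo + K) * skwR z := by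
    apply mul_le_mul_of_nonneg_right _ hr0.le
    linarith
  unfold skwF
  rw [abs_le]
  constructor <;> linarith [hS0 z hzI, hq0 z hzI]

/-- **Leaf IN-TAIL**: dyadic bounds sum to a tail bound -/
theorem skw_leaf_inTail : SkwLeafInTail := by
  intro F U ell B hU _hUl hB hF hint hdy
  have hsubint : ∀ a b, U ≤ a → a ≤ b → b ≤ ell → IntervalIntegrable F volume a b := by
    intro a b h1 h2 h3
    apply hint.mono_set
    rw [uIcc_of_le h2, uIcc_of_le (h1.trans (h2.trans h3))]
    exact Icc_subset_Icc h1 h3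
  have key : ∀ n : ℕ, ∀ r ∈ Icc U ell, ell ≤ 2 ^ n * r → ∫ v in r..ell, F v ≤ 2 * B / r := by
    intro n
    induction n with
    | zero =>
      intro r hr h
      have hr0 : 0 < r := lt_of_lt_of_le hU hr.1
      have : r = ell := le_antisymm hr.2 (by simpa using h)
      rw [this, intervalIntegral.integral_same]
      rw [← this]; positivity
    | succ k ih =>
      intro r hr h
      have hr0 : 0 < r := lt_of_lt_of_le hU hr.1
      have h1 := hdy r hr
      rcases le_or_gt ell (2 * r) with h2 | h2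
      · rw [min_eq_right h2] at h1
        have : ∫ v in r..ell, F v ≤ B / r := by rw [le_div_iff₀ hr0]; linarith
        have h3 : B / r ≤ 2 * B / r := by
          apply div_le_div_of_nonneg_right _ hr0.le; linarith
        linarith
      · rw [min_eq_left h2.le] at h1
        have h3 : ∫ v in r..(2 * r), F v ≤ B / r := by rw [le_div_iff₀ hr0]; linarith
        have h4 := ih (2 * r) ⟨by linarith [hr.1], h2.le⟩ (by rw [pow_succ] at h; linarith)
        have h5 : 2 * B / (2 * r) = B / r := by field_simp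
        rw [← intervalIntegral.integral_add_adjacent_intervals
          (hsubint r (2 * r) hr.1 (by linarith) h2.le)
          (hsubint (2 * r) ell (by linarith [hr.1]) h2.le le_rfl)]
        have h6 : 2 * B / r = B / r + B / r := by ring
        linarith
  intro r hr
  have hr0 : 0 < r := lt_of_lt_of_le hU hr.1
  obtain ⟨n, hn⟩ := pow_unbounded_of_one_lt (ell / r) (one_lt_two : (1 : ℝ) < 2)
  apply key n r hr
  rw [div_lt_iff₀ hr0] at hn
  exact hn.le

end Claimed.Agent.R286
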