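import Claimed.Agent.R286.W.InstLlB

/-!
# Row 286, folder W, file InstLlZ : the `zt`-VARIANT of the exit of unit W for the direct paths      (helper215; prefix `skw_llz_`)

CURE of 22's FIT ALARM (F4 of GLUEENV_237): `SkpI.Ok` (PM/Defs) forces `V(zc nb) = v(nb - 1)` with `nb ≤ n`, but `skw_ll_direct` gives `SkwConcl` only at
`zhi = zbuf = zmax`, `V(zmax) = ℓ = a`, whereas the last stage of a chain has mass `v(n-1) < a`.   Here: `SkwConcl C d zt zt zs (skwH c d)` with the TRUE record `d`,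
for EVERY `zt ∈ [0, zmax]` whose missing mass is small:  `ℓ - V(zt) ≤ U⁴ / C`   (`zt = zmax` included, so this contains `skw_ll_direct`).
* `skwCut d zt` = `d` with `zmax := zt`;   `skwC2 c` = `c` with `Cp := 2 Cp`.   `SkwConcl`, `skwH` read neither `d.zmax` nor `c.Cp`.
* `skw_llz_hyp`  : `SkwHyp c d`, `zs ≤ zt ≤ zmax`  ⟹ `SkwHyp (skwC2 c) (skwCut d zt)`.
* `skw_llz_plat` : `SkwPlat c d`, `zmax - zt ≤ 1/(2Cp)`, `∫_zt^zmax G ≤ min(U⁴, 1/(2Cp))` ⟹ `SkwPlat (skwC2 c) (skwCut d zt)`.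
* `skw_llz_len`  : `G ≥ U⁴/Cp⁴` on the plateau, so the length condition follows from the mass condition.
* `skw_direct_z : SkwDirectZ` (abstract form; the slope `A` comes from `skw_direct (skwC2 c)`),   `skw_ll_direct_z : SkwLlDirectZ` (the exit for `LlPt`).
* `skw_llz_inv*` : the inverse `skwInZ` of the mass coordinate `skwInV` (for `zc k := skwInZ π i (v (k-1))`).
-/

set_option autoImplicit false

namespace Claimed.Agent.R286

open Set MeasureTheory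

/-- the record cut at `zt` -/
def skwCut (d : SkwD) (zt : ℝ) : SkwD := { d with zmax := zt }

/-- the plateau constant doubled -/
def skwC2 (c : SkwC) : SkwC := { c with Cp := 2 * c.Cp }

theorem skwCut_eqns_cite (d : SkwD) (zt : ℝ) : skwCut d zt = { d with zmax := zt } := rfl
theorem skwC2_eqns_cite (c : SkwC) : skwC2 c = { c with Cp := 2 * c.Cp } := rfl

theorem skw_llz_c2_ok {c : SkwC} (hc : c.Ok) : (skwC2 c).Ok :=
  ⟨hc.zs, hc.M0, hc.Lq, hc.Cf, hc.C1, by show 1 ≤ 2 * c.Cp; linarith [hc.Cp], hc.Cadj⟩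

/-- the width reads neither `zmax` nor `Cp` -/
theorem skw_llz_H (c : SkwC) (d : SkwD) (zt : ℝ) : skwH (skwC2 c) (skwCut d zt) = skwH c d := rfl

theorem skw_llz_cut_self (d : SkwD) : skwCut d d.zmax = d := rfl

theorem skw_llz_win_cut {C : ℝ} {d : SkwD} {zt zt' z w a l : ℝ} (h : SkwWin C (skwCut d zt) z w a l) :
    SkwWin C (skwCut d zt') z w a l :=
  ⟨h.len_lo, h.len_hi, h.near, h.sup, h.big⟩

/-- the conclusions of Lemma 8.2 do not read `zmax` -/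
theorem skw_llz_concl_cut {C : ℝ} {d : SkwD} {zt zt' zhi zbuf zj : ℝ} {hh : ℝ → ℝ}
    (h : SkwConcl C (skwCut d zt) zhi zbuf zj hh) : SkwConcl C (skwCut d zt') zhi zbuf zj hh := by
  refine ⟨h.qlip, h.meas, h.lower, h.upper, h.dev, h.budget, ?_, h.tiles⟩
  intro z hz hlt
  obtain ⟨⟨a, l, h1, h2, h3⟩, ⟨a', l', h4, h5, h6⟩, h7⟩ := h.win z hz hlt
  exact ⟨⟨a, l, h1, h2, skw_llz_win_cut h3⟩, ⟨a', l', h4, h5, skw_llz_win_cut h6⟩, h7⟩

/-- (1) restriction of the common hypotheses -/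
theorem skw_llz_hyp {c : SkwC} {d : SkwD} {zt : ℝ} (hc : c.Ok) (H : SkwHyp c d) (h1 : c.zs ≤ zt) (h2 : zt ≤ d.zmax) :
    SkwHyp (skwC2 c) (skwCut d zt) := by
  have hsub : Icc (0 : ℝ) zt ⊆ Icc 0 d.zmax := Icc_subset_Icc_right h2
  have hzt0 : 0 ≤ zt := hc.zs.le.trans h1
  refine
    { x0 := H.x0, xU := H.xU, U1 := H.U1, Z1 := H.Z1, b0 := H.b0, b1 := H.b1, t0 := H.t0, t1 := H.t1, A1 := H.A1
      zlo0 := H.zlo0, zlo1 := H.zlo1, zmax := h1
      G0 := fun z hz => H.G0 z (hsub hz), GM := H.GM, Gc := H.Gc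
      Gi := skw_gd_G_int H le_rfl hzt0 h2
      adj := H.adj
      Smono := H.Smono.mono hsub
      S0 := fun z hz => H.S0 z (hsub hz), S1 := fun z hz => H.S1 z (hsub hz)
      qlip := fun z hz z' hz' => H.qlip z (hsub hz) z' (hsub hz')
      q0 := fun z hz => H.q0 z (hsub hz), q1 := fun z hz => H.q1 z (hsub hz)
      fr := fun z hz => H.fr z ⟨hz.1, hz.2.trans h2⟩
      D1 := ?_, Hx0 := H.Hx0, Hxlip := H.Hxlip, Hxr := H.Hxr }
  intro ρ hρ
  have hρ1 : d.zlo / 4 ≤ ρ := hρ.1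
  have hρ2 : ρ ≤ zt := hρ.2
  have hρ0 : 0 < ρ := by linarith [H.zlo0]
  show ∫ z in ρ..(min (2 * ρ) zt), skwF d z ^ 2 * d.G z ≤ c.C1 * (d.U * d.Z) ^ 4 / skwR ρ
  refine le_trans ?_ (H.D1 ρ ⟨hρ1, hρ2.trans h2⟩)
  have hm : min (2 * ρ) d.zmax ≤ d.zmax := min_le_right _ _
  have hm0 : ρ ≤ min (2 * ρ) d.zmax := le_min (by linarith) (hρ2.trans h2)
  refine intervalIntegral.integral_mono_interval le_rfl (le_min (by linarith) hρ2) (min_le_min_left _ h2) ?_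
    (skw_pl_fG_int hc H ⟨hρ0.le, hρ2.trans h2⟩ ⟨hρ0.le.trans hm0, hm⟩)
  refine (ae_restrict_iff' measurableSet_Ioc).2 (ae_of_all _ ?_)
  intro z hz
  exact mul_nonneg (sq_nonneg _) (H.G0 z ⟨hρ0.le.trans hz.1.le, hz.2.trans hm⟩)

/-- the join lies below every admissible `zt` -/
theorem skw_llz_zs_le {c : SkwC} {d : SkwD} {zt : ℝ} (hc : c.Ok) (P : SkwPlat c d)
    (h3 : d.zmax - zt ≤ 1 / (2 * c.Cp)) : c.zs + 1 / c.Cp ≤ zt := by
  have hCp : 0 < c.Cp := by linarith [hc.Cp]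
  have e1 : 1 / (2 * c.Cp) = 1 / c.Cp / 2 := by field_simp
  have e2 : 2 / c.Cp = 2 * (1 / c.Cp) := by ring
  have h0 : 0 < 1 / c.Cp := by positivity
  have := P.len_lo
  rw [e2] at this
  rw [e1] at h3
  linarith

/-- (2) the plateau hypotheses survive the removal of a short final piece of small mass -/
theorem skw_llz_plat {c : SkwC} {d : SkwD} {zt : ℝ} (hc : c.Ok) (H : SkwHyp c d) (P : SkwPlat c d) (h2 : zt ≤ d.zmax)
    (h3 : d.zmax - zt ≤ 1 / (2 * c.Cp)) (h4 : ∫ z in zt..d.zmax, d.G z ≤ min (d.U ^ 4) (1 / (2 * c.Cp))) :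
    SkwPlat (skwC2 c) (skwCut d zt) := by
  have hCp1 : 1 ≤ c.Cp := hc.Cp
  have hCp : 0 < c.Cp := by linarith
  have e1 : 1 / (2 * c.Cp) = 1 / c.Cp / 2 := by field_simp
  have hk : 0 < 1 / c.Cp := by positivity
  have hzs := skw_llz_zs_le hc P h3
  have h1 : c.zs ≤ zt := by linarith
  have hzs0 : 0 < c.zs := hc.zs
  have hU : 0 < d.U := skw_pl_Upos H
  have hU4 : 0 < d.U ^ 4 := by positivity
  have hE : 0 < d.E := P.E0
  have hsub : Icc c.zs zt ⊆ Icc c.zs d.zmax := Icc_subset_Icc_right h2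
  have hsub' : Ioc c.zs zt ⊆ Ioc c.zs d.zmax := Ioc_subset_Ioc_right h2
  have hU2 : ∀ X : ℝ, d.U ^ 4 / c.Cp ≤ X → d.U ^ 4 / (2 * c.Cp) ≤ X := by
    intro X hX
    refine le_trans ?_ hX
    exact div_le_div_of_nonneg_left hU4.le hCp (by linarith)
  have hsplit : ∀ z ∈ Icc c.zs zt, ∫ s in z..d.zmax, d.G s = (∫ s in z..zt, d.G s) + ∫ s in zt..d.zmax, d.G s := by
    intro z hz
    have hz0 : 0 ≤ z := hzs0.le.trans hz.1
    exact (intervalIntegral.integral_add_adjacent_intervals (skw_gd_G_int H hz0 hz.2 h2)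
      (skw_gd_G_int H (hz0.trans hz.2) h2 le_rfl)).symm
  have hL : 0 ≤ skwL d := by linarith [skw_gd_L_one H]
  refine
    { E0 := P.E0, E1 := P.E1, E2 := P.E2, massE_lo := P.massE_lo, massE_hi := P.massE_hi, Hx := P.Hx
      qconst := fun z hz => P.qconst z (hsub hz)
      D1mac := ?_
      hlip := fun z hz z' hz' => P.hlip z (hsub hz) z' (hsub hz')
      hjoin_lo := P.hjoin_lo
      hjoin_hi := ?_
      hup := ?_
      Gh_lo := fun z hz => hU2 _ (P.Gh_lo z (hsub' hz))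
      Gh_hi := ?_
      strip := ?_
      len_lo := ?_
      len_hi := ?_
      bud := ?_
      up := ?_
      dn := fun z hz => hU2 _ (P.dn z (hsub hz))
      mass := ?_
      mass_hi := ?_ }
  · show ∫ z in (c.zs / 2)..zt, skwF d z ^ 2 * d.G z ≤ c.C1 * (d.U * d.Z) ^ 4
    refine le_trans ?_ P.D1mac
    refine intervalIntegral.integral_mono_interval le_rfl (by linarith) h2 ?_
      (skw_pl_fG_int hc H ⟨by linarith, by linarith⟩ ⟨by linarith, le_rfl⟩)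
    refine (ae_restrict_iff' measurableSet_Ioc).2 (ae_of_all _ ?_)
    intro z hz
    exact mul_nonneg (sq_nonneg _) (H.G0 z ⟨by linarith [hz.1], hz.2⟩)
  · show d.hpl c.zs ≤ 2 * c.Cp * d.E
    have := P.hjoin_hi
    nlinarith [mul_pos hCp hE]
  · intro z hz
    show d.hpl z ≤ 2 * c.Cp
    linarith [P.hup z (hsub hz)]
  · intro z hz
    show d.G z * d.hpl z ^ 3 ≤ 2 * c.Cp * d.U ^ 4
    have := P.Gh_hi z (hsub' hz)
    nlinarith [mul_pos hCp hU4]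
  · intro z hz
    have hz1 : zt - 1 / (2 * c.Cp) ≤ z := hz.1
    have hz2 : z ≤ zt := hz.2
    show 1 / (2 * c.Cp) ≤ d.hpl z
    have := P.strip z ⟨by rw [e1] at hz1 h3; linarith, hz2.trans h2⟩
    rw [e1]
    linarith
  · show c.zs + 2 / (2 * c.Cp) ≤ zt
    have : 2 / (2 * c.Cp) = 1 / c.Cp := by field_simp
    rw [this]
    exact hzs
  · show zt ≤ 2 * c.Cp
    linarith [P.len_hi]
  · show ∫ z in c.zs..zt, d.G z * d.hpl z ^ 2 ≤ 2 * c.Cp * skwL d * d.U ^ 4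
    have hb : ∫ z in c.zs..zt, d.G z * d.hpl z ^ 2 ≤ ∫ z in c.zs..d.zmax, d.G z * d.hpl z ^ 2 := by
      refine intervalIntegral.integral_mono_interval le_rfl h1 h2 ?_ ?_
      · refine (ae_restrict_iff' measurableSet_Ioc).2 (ae_of_all _ ?_)
        intro z hz
        exact mul_nonneg (H.G0 z ⟨by linarith [hz.1], hz.2⟩) (sq_nonneg _)
      · have hcont := skw_gd_hpl_cont P
        obtain ⟨B, hB⟩ := isCompact_Icc.exists_bound_of_continuousOn hcont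
        exact skw_gd_int H d.hpl B hzs0.le le_rfl (hcont.aestronglyMeasurable measurableSet_Icc)
          (fun z hz => by simpa using hB z hz) le_rfl (h1.trans h2) le_rfl
    have := P.bud
    have h5 : 0 ≤ c.Cp * skwL d * d.U ^ 4 := by positivity
    nlinarith
  · intro z hz
    show d.U ^ 4 / (2 * c.Cp) ≤ d.hpl z ^ 2 * ((∫ s in z..zt, d.G s) + d.U ^ 4)
    have h5 := P.up z (hsub hz)
    rw [hsplit z hz] at h5
    have h6 : ∫ s in zt..d.zmax, d.G s ≤ d.U ^ 4 := h4.trans (min_le_left _ _)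
    have h7 : 0 ≤ ∫ s in z..zt, d.G s := skw_pl_mass_nonneg H (hzs0.le.trans hz.1) hz.2 h2
    have h8 : d.hpl z ^ 2 * ((∫ s in z..zt, d.G s) + (∫ s in zt..d.zmax, d.G s) + d.U ^ 4)
        ≤ d.hpl z ^ 2 * (2 * ((∫ s in z..zt, d.G s) + d.U ^ 4)) :=
      mul_le_mul_of_nonneg_left (by linarith) (sq_nonneg _)
    have e3 : d.U ^ 4 / (2 * c.Cp) = d.U ^ 4 / c.Cp / 2 := by field_simp
    rw [e3]
    linarith
  · show 1 / (2 * c.Cp) ≤ ∫ z in c.zs..zt, d.G z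
    have h5 := P.mass
    rw [hsplit c.zs ⟨le_rfl, h1⟩] at h5
    have h6 : ∫ s in zt..d.zmax, d.G s ≤ 1 / (2 * c.Cp) := h4.trans (min_le_right _ _)
    rw [e1] at h6 ⊢
    linarith
  · show ∫ z in c.zs..zt, d.G z ≤ 2 * c.Cp
    have h5 := P.mass_hi
    have h6 := skw_pl_mass_mono H hzs0.le le_rfl h1 h2 le_rfl
    linarith

/-- `G ≥ U⁴ / Cp⁴` on the plateau -/
theorem skw_llz_G_lo {c : SkwC} {d : SkwD} (hc : c.Ok) (H : SkwHyp c d) (P : SkwPlat c d) {z : ℝ} (hz : z ∈ Ioc c.zs d.zmax) :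
    d.U ^ 4 / c.Cp ^ 4 ≤ d.G z := by
  have hCp : 0 < c.Cp := by linarith [hc.Cp]
  have hU4 : 0 < d.U ^ 4 := by have := skw_pl_Upos H; positivity
  have hz' : z ∈ Icc c.zs d.zmax := Ioc_subset_Icc_self hz
  have hG : 0 ≤ d.G z := H.G0 z ⟨by linarith [hc.zs, hz.1], hz.2⟩
  have h1 := P.Gh_lo z hz
  have h2 := P.hup z hz'
  have h0 : 0 < d.U ^ 4 / c.Cp := by positivity
  have h3 : d.hpl z ^ 3 ≤ c.Cp ^ 3 := by
    rcases le_or_gt 0 (d.hpl z) with h | h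
    · exact pow_le_pow_left₀ h h2 3
    · have : d.hpl z ^ 3 < 0 := by
        have e : d.hpl z ^ 3 = d.hpl z * d.hpl z ^ 2 := by ring
        rw [e]
        exact mul_neg_of_neg_of_pos h (by have := sq_pos_of_ne_zero h.ne; simpa using this)
      have : 0 < c.Cp ^ 3 := by positivity
      linarith
  have h4 : d.U ^ 4 / c.Cp ≤ d.G z * c.Cp ^ 3 := h1.trans (mul_le_mul_of_nonneg_left h3 hG)
  rw [div_le_iff₀ (by positivity)]
  rw [div_le_iff₀ hCp] at h4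
  calc d.U ^ 4 ≤ d.G z * c.Cp ^ 3 * c.Cp := h4
    _ = d.G z * c.Cp ^ 4 := by ring

/-- the length of a final piece of the plateau is controlled by its mass -/
theorem skw_llz_len {c : SkwC} {d : SkwD} {zt : ℝ} (hc : c.Ok) (H : SkwHyp c d) (P : SkwPlat c d) (h1 : c.zs ≤ zt)
    (h2 : zt ≤ d.zmax) : (d.zmax - zt) * (d.U ^ 4 / c.Cp ^ 4) ≤ ∫ z in zt..d.zmax, d.G z := by
  have h0 : 0 ≤ zt := hc.zs.le.trans h1
  have h3 : ∫ _z in zt..d.zmax, d.U ^ 4 / c.Cp ^ 4 ≤ ∫ z in zt..d.zmax, d.G z := by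
    refine intervalIntegral.integral_mono_on_of_le_Ioo h2 intervalIntegrable_const (skw_gd_G_int H h0 h2 le_rfl) ?_
    intro z hz
    exact skw_llz_G_lo hc H P ⟨lt_of_le_of_lt h1 hz.1, hz.2.le⟩
  rw [intervalIntegral.integral_const, smul_eq_mul] at h3
  exact h3

/-- monotonicity in the constant, at `zt` -/
theorem skw_llz_concl_mono {C C' : ℝ} {c : SkwC} {d : SkwD} {zt : ℝ} {hh : ℝ → ℝ} (hc : c.Ok) (H : SkwHyp c d)
    (h1 : c.zs ≤ zt) (h2 : zt ≤ d.zmax) (hC : 1 ≤ C) (hCC : C ≤ C') (h : SkwConcl C d zt zt c.zs hh) :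
    SkwConcl C' d zt zt c.zs hh := by
  have h3 : SkwConcl C (skwCut d zt) zt zt c.zs hh := skw_llz_concl_cut (zt := d.zmax) h
  have h4 : SkwConcl C' (skwCut d zt) zt zt c.zs hh :=
    skw_llb_concl_mono (c := skwC2 c) (d := skwCut d zt) (skw_llz_hyp hc H h1 h2) hC hCC h3
  exact skw_llz_concl_cut (zt' := d.zmax) h4

/-- **the direct-path theorem at an earlier endpoint `zt`** (missing mass `≤ U⁴/C`); `zt = zmax` gives back `SkwDirect`, with another slope. -/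
def SkwDirectZ : Prop :=
  ∀ c : SkwC, c.Ok → ∃ A : ℝ, 1 ≤ A ∧ ∃ C : ℝ, 1 ≤ C ∧ ∀ d : SkwD, SkwHyp c d → SkwPlat c d → d.A = A → SkwSmall C d →
    ∀ zt ∈ Icc c.zs d.zmax, ∫ z in zt..d.zmax, d.G z ≤ d.U ^ 4 / C → SkwConcl C d zt zt c.zs (skwH c d)

theorem skw_direct_z : SkwDirectZ := by
  intro c hc
  obtain ⟨A, hA, C0, hC0, hDir⟩ := skw_direct (skwC2 c) (skw_llz_c2_ok hc)
  have hCp1 : 1 ≤ c.Cp := hc.Cp
  have hCp : 0 < c.Cp := by linarith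
  have hCp5 : 1 ≤ c.Cp ^ 5 := one_le_pow₀ hCp1
  refine ⟨A, hA, max C0 (2 * c.Cp ^ 5), hC0.trans (le_max_left _ _), ?_⟩
  intro d H P hdA hs zt hzt hm
  set C : ℝ := max C0 (2 * c.Cp ^ 5) with hCdef
  have hCC0 : C0 ≤ C := le_max_left _ _
  have hC5 : 2 * c.Cp ^ 5 ≤ C := le_max_right _ _
  have hCpos : 0 < C := by linarith
  have hU : 0 < d.U := skw_pl_Upos H
  have hU4 : 0 < d.U ^ 4 := by positivity
  have hU41 : d.U ^ 4 ≤ 1 := pow_le_one₀ hU.le H.U1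
  -- the mass condition
  have hm1 : d.U ^ 4 / C ≤ d.U ^ 4 / (2 * c.Cp ^ 5) := div_le_div_of_nonneg_left hU4.le (by positivity) hC5
  have hm2 : d.U ^ 4 / (2 * c.Cp ^ 5) ≤ d.U ^ 4 := div_le_self hU4.le (by linarith)
  have hm3 : d.U ^ 4 / (2 * c.Cp ^ 5) ≤ 1 / (2 * c.Cp) := by
    have h5 : c.Cp ≤ c.Cp ^ 5 := by
      calc c.Cp = c.Cp ^ 1 := (pow_one _).symm
        _ ≤ c.Cp ^ 5 := pow_le_pow_right₀ hCp1 (by norm_num)
    calc d.U ^ 4 / (2 * c.Cp ^ 5) ≤ 1 / (2 * c.Cp ^ 5) := div_le_div_of_nonneg_right hU41 (by positivity)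
      _ ≤ 1 / (2 * c.Cp) := div_le_div_of_nonneg_left zero_le_one (by positivity) (by linarith)
  have h4 : ∫ z in zt..d.zmax, d.G z ≤ min (d.U ^ 4) (1 / (2 * c.Cp)) :=
    le_min (hm.trans (hm1.trans hm2)) (hm.trans (hm1.trans hm3))
  -- the length condition
  have h3 : d.zmax - zt ≤ 1 / (2 * c.Cp) := by
    have h5 := (skw_llz_len hc H P hzt.1 hzt.2).trans (hm.trans hm1)
    have e : d.U ^ 4 / (2 * c.Cp ^ 5) = 1 / (2 * c.Cp) * (d.U ^ 4 / c.Cp ^ 4) := by field_simp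
    rw [e] at h5
    exact le_of_mul_le_mul_right h5 (by positivity)
  have H' := skw_llz_hyp hc H hzt.1 hzt.2
  have P' := skw_llz_plat hc H P hzt.2 h3 h4
  have hs0 : SkwSmall C0 d := skw_gd_small_mono (by linarith) hCC0 hs
  have h5 : SkwConcl C0 (skwCut d zt) zt zt c.zs (skwH c d) := hDir (skwCut d zt) H' P' hdA ⟨hs0.b, hs0.U, hs0.x⟩
  exact skw_llz_concl_mono hc H hzt.1 hzt.2 hC0 hCC0 (skw_llz_concl_cut (zt' := d.zmax) h5)

/-- from the coordinate `z` to the mass: `∫_zt^zmax G = ℓ - V(zt)`, and a small missing mass forces `zt` to lie on the plateau -/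
theorem skw_llz_in {c : SkwC} {π : SkwProf} {i : SkwIn} {cv C C' : ℝ} (hc : c.Ok) (_hzs : c.zs = π.zs)
    (H : SkwHyp c (skwInD π i)) (P : SkwPlat c (skwInD π i)) (V : SkwInVConcl cv π i) (hC : 1 ≤ C) (hCC : C ≤ C')
    (hCp : c.Cp ≤ C')
    (hD : ∀ zt ∈ Icc c.zs (skwInD π i).zmax, ∫ z in zt..(skwInD π i).zmax, (skwInD π i).G z ≤ (skwInD π i).U ^ 4 / C →
      SkwConcl C (skwInD π i) zt zt c.zs (skwH c (skwInD π i))) :
    ∀ zt ∈ Icc 0 (skwInD π i).zmax, i.ell - skwInV π i zt ≤ i.U ^ 4 / C' →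
      c.zs ≤ zt ∧ SkwConcl C' (skwInD π i) zt zt c.zs (skwH c (skwInD π i)) := by
  intro zt hzt hm
  have hU : 0 < i.U := skw_pl_Upos H
  have hU4 : 0 < i.U ^ 4 := by positivity
  have hU41 : i.U ^ 4 ≤ 1 := pow_le_one₀ hU.le H.U1
  have hC0 : 0 < C := by linarith
  have hC'0 : 0 < C' := by linarith
  have hCp0 : 0 < c.Cp := by linarith [hc.Cp]
  have hzmax : c.zs ≤ (i.pf π).zmax := H.zmax
  have hmem : (i.pf π).zmax ∈ Icc 0 (i.pf π).zmax := ⟨hc.zs.le.trans hzmax, le_rfl⟩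
  have hzsm : c.zs ∈ Icc 0 (i.pf π).zmax := ⟨hc.zs.le, hzmax⟩
  have h1 : c.zs ≤ zt := by
    by_contra hcon
    rw [not_le] at hcon
    have h2 : skwInV π i zt < skwInV π i c.zs := V.mono hzt hzsm hcon
    have h3 : 1 / c.Cp ≤ ∫ z in c.zs..(i.pf π).zmax, skwInG π i z := P.mass
    rw [V.mass c.zs hzsm _ hmem, V.vmax] at h3
    have h4 : i.U ^ 4 / C' ≤ 1 / c.Cp :=
      (div_le_div_of_nonneg_right hU41 hC'0.le).trans (div_le_div_of_nonneg_left zero_le_one hCp0 hCp)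
    linarith
  refine ⟨h1, ?_⟩
  apply skw_llz_concl_mono hc H h1 hzt.2 hC hCC
  apply hD zt ⟨h1, hzt.2⟩
  show ∫ z in zt..(i.pf π).zmax, skwInG π i z ≤ i.U ^ 4 / C
  rw [V.mass zt hzt _ hmem, V.vmax]
  exact hm.trans (div_le_div_of_nonneg_left hU4.le hC0 hCC)

/-- **EXIT of unit W for the direct paths, `zt`-variant** (cure of F4): as `SkwLlDirect`, but the conclusions hold at `zhi = zbuf = zt` for EVERY `zt ∈ [0, zmax]`
with missing mass `ℓ - V(zt) ≤ U⁴ / C` (such a `zt` lies on the plateau).  The record is the TRUE `d` (so `SkwHyp c d`, `zbuf ≤ d.zmax` of `SkpI.Ok` hold). -/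
def SkwLlDirectZ : Prop :=
  ∀ (𝔹 : LlBase) (F : LlFix) (eps : ℝ) (K : ℕ) (C1v Klo : ℝ), 0 < eps → 12 ≤ K → 1 ≤ C1v → 1 ≤ Klo →
    ∀ (r : ℕ), 2 ≤ r → (K : ℝ) < eps * ((r : ℝ) - 1) → ∀ (At : ℝ → ℝ) (cA Lq : ℝ), SkwL03 𝔹 F At cA Lq r →
    ∃ (A C cv : ℝ) (c : SkwC) (N0 : ℕ), 1 ≤ A ∧ 1 ≤ C ∧ 0 < cv ∧ c.Ok ∧ c.zs = 𝔹.xiS F.T ∧
      ∀ p : LlPt, p.Ok F → N0 ≤ p.N → p.sm = false → p.U F ≤ 1 / C → ∀ (Sv : ℝ → ℝ) (Z zlo : ℝ),
        SkwLlDev 𝔹 F (skwLlProf 𝔹 F At cA) p (skwLlIn 𝔹 F p Sv Z eps K A zlo) C1v Klo →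
        SkwHyp c (skwInD (skwLlProf 𝔹 F At cA) (skwLlIn 𝔹 F p Sv Z eps K A zlo)) ∧
        SkwPlat c (skwInD (skwLlProf 𝔹 F At cA) (skwLlIn 𝔹 F p Sv Z eps K A zlo)) ∧
        SkwInVConcl cv (skwLlProf 𝔹 F At cA) (skwLlIn 𝔹 F p Sv Z eps K A zlo) ∧
        ∀ zt ∈ Icc 0 (skwInD (skwLlProf 𝔹 F At cA) (skwLlIn 𝔹 F p Sv Z eps K A zlo)).zmax,
          p.ell - skwInV (skwLlProf 𝔹 F At cA) (skwLlIn 𝔹 F p Sv Z eps K A zlo) zt ≤ p.U F ^ 4 / C →
          c.zs ≤ zt ∧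
          SkwConcl C (skwInD (skwLlProf 𝔹 F At cA) (skwLlIn 𝔹 F p Sv Z eps K A zlo)) zt zt c.zs
            (skwH c (skwInD (skwLlProf 𝔹 F At cA) (skwLlIn 𝔹 F p Sv Z eps K A zlo)))

/-- TEX[LL:lem:statistics-widths] direct paths of LL Section 3, endpoint `zt` (copy of `skw_ll_direct` with `skw_direct_z`) -/
theorem skw_ll_direct_z : SkwLlDirectZ := by
  intro 𝔹 F eps K C1v Klo heps hK hC1v hKlo r hr hKr At cA Lq h
  obtain ⟨π, hπ⟩ : ∃ π, π = skwLlProf 𝔹 F At cA := ⟨_, rfl⟩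
  have hOk : π.Ok r := hπ ▸ h.prof
  obtain ⟨n, hn⟩ : ∃ n : ℕ, n + 1 = r := ⟨r - 1, by omega⟩
  have hnr : (n : ℝ) = (r : ℝ) - 1 := by rw [← hn]; push_cast; ring
  obtain ⟨c, κ0, Mn, cv, hcOk, hczs, hκ0, hMn, hcv, hInst⟩ :=
    skw_inst_direct π r n hr hn.le hOk Lq C1v Klo h.Lq1 hC1v hKlo
  obtain ⟨A, hA, C, hC, hDir⟩ := skw_direct_z c hcOk
  obtain ⟨M0, lam0, hM0, hlam0, _, hG⟩ := skw_leaf_inG π r hr hOk
  have hz00 := hOk.z00
  have hz0s := hOk.z0s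
  have hE1 : 0 < min 1 ((π.zs - π.z0) / 2) := lt_min one_pos (by linarith)
  obtain ⟨U1e, hU1e, _, hE⟩ := skw_leaf_inE π r hr hOk M0 hM0 _ hE1
  obtain ⟨Cp, hCp, hPF⟩ := skw_leaf_pf π.ptop M0 hOk.pt0 hOk.pt1 hM0
  obtain ⟨U1b, hU1b, _, hEb⟩ := skw_leaf_llEb 𝔹 F At cA Lq r hr h
  obtain ⟨Ng, hNg⟩ := h.Gam
  obtain ⟨N1, hN1⟩ := skw_llb_small F.pS (min κ0 lam0) h.fix.pS0 (lt_min hκ0 hlam0)
  obtain ⟨N2, hN2⟩ := skw_llb_small eps (min (1 / 8) (1 / C)) heps (lt_min (by norm_num) (by positivity))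
  have hexp : 0 < eps * n - K := by rw [hnr]; linarith
  obtain ⟨N3, hN3⟩ := skw_llb_small (eps * n - K) (1 / (Mn + 1)) hexp (by positivity)
  set C' : ℝ := max C (max (1 / κ0) (max (1 / U1e) (max (1 / U1b) (max Cp c.Cp)))) with hC'
  have hCC' : C ≤ C' := le_max_left _ _
  have hk1 : 1 / κ0 ≤ C' := (le_max_left _ _).trans (le_max_right _ _)
  have hk2 : 1 / U1e ≤ C' := (le_max_left _ _).trans ((le_max_right _ _).trans (le_max_right _ _))
  have hk3 : 1 / U1b ≤ C' :=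
    (le_max_left _ _).trans ((le_max_right _ _).trans ((le_max_right _ _).trans (le_max_right _ _)))
  have hk45 : max Cp c.Cp ≤ C' :=
    (le_max_right _ _).trans ((le_max_right _ _).trans ((le_max_right _ _).trans (le_max_right _ _)))
  have hk4 : Cp ≤ C' := (le_max_left _ _).trans hk45
  have hk5 : c.Cp ≤ C' := (le_max_right _ _).trans hk45
  refine ⟨A, C', cv, c, max Ng (max N1 (max N2 N3)), hA, hC.trans hCC', hcv, hcOk, by rw [hczs, hπ]; rfl, ?_⟩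
  intro p hp hN hsm hU Sv Z zlo
  rw [← hπ]
  obtain ⟨i, hi⟩ : ∃ i, i = skwLlIn 𝔹 F p Sv Z eps K A zlo := ⟨_, rfl⟩
  rw [← hi]
  intro hDev
  have hNg' : Ng ≤ p.N := (le_max_left _ _).trans hN
  have hN1' : N1 ≤ p.N := (le_max_left _ _).trans ((le_max_right _ _).trans hN)
  have hN2' : N2 ≤ p.N := (le_max_left _ _).trans ((le_max_right _ _).trans ((le_max_right _ _).trans hN))
  have hN3' : N3 ≤ p.N := (le_max_right _ _).trans ((le_max_right _ _).trans ((le_max_right _ _).trans hN))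
  -- the fields of the instance
  have e_ell : i.ell = p.ell := by rw [hi]; rfl
  have e_lam : i.lam = p.lam := by rw [hi]; rfl
  have e_x : i.x = p.x := by rw [hi]; rfl
  have e_U : i.U = p.U F := by rw [hi]; rfl
  have e_b : i.b = p.x ^ eps := by rw [hi]; rfl
  have e_t : i.tiny = p.x ^ K := by rw [hi]; rfl
  have e_A : i.A = A := by rw [hi]; rfl
  have e_E : i.E = p.Eb F 𝔹 := by rw [hi]; rfl
  have e_q : i.qv = p.q F 𝔹 := by rw [hi]; rfl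
  have e_G : i.Gm = p.GamN F 𝔹 := by rw [hi]; rfl
  have e_zs : π.zs = 𝔹.xiS F.T := by rw [hπ]; rfl
  have e_pt : π.ptop = 𝔹.pTop F.T := by rw [hπ]; rfl
  have e_At : π.At = At := by rw [hπ]; rfl
  -- numerics
  have hx0 : 0 < p.x := skw_llb_x_pos p hp.N2
  have hx1 : p.x ≤ 1 := skw_llb_x_le_one p hp.N2
  have hl0 : 0 < p.lam := lt_of_lt_of_le (by positivity) hp.lam_lo
  have hl1 : p.lam ≤ min κ0 lam0 := hp.lam_hi.trans (hN1 p hN1')
  have hl2 : p.lam ≤ 1 := hp.lam_hi.trans (Real.rpow_le_one hx0.le hx1 h.fix.pS0.le)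
  have hell2 : p.ell ≤ 2 := by
    refine hp.ell2.trans ?_
    calc (2 : ℝ) ^ (1 / 6 : ℝ) ≤ (2 : ℝ) ^ (1 : ℝ) := Real.rpow_le_rpow_of_exponent_le (by norm_num) (by norm_num)
      _ = 2 := Real.rpow_one _
  have hxU : p.x ≤ p.U F := by
    unfold LlPt.U
    refine le_min hx1 ?_
    have : 1 ≤ p.lam ^ (-(F.sS / 2)) :=
      Real.one_le_rpow_of_pos_of_le_one_of_nonpos hl0 hl2 (by linarith [h.fix.sS0])
    exact le_mul_of_one_le_right hx0.le this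
  have hU0 : 0 < p.U F := hx0.trans_le hxU
  have hC'0 : 0 < C' := by linarith
  have hUC : p.U F ≤ 1 / C := hU.trans (div_le_div_of_nonneg_left zero_le_one (by linarith) hCC')
  have hUκ : p.U F ≤ κ0 := hU.trans (skw_llb_inv_le hκ0 hk1)
  have hUe : p.U F ≤ U1e := hU.trans (skw_llb_inv_le hU1e hk2)
  have hUb : p.U F ≤ U1b := hU.trans (skw_llb_inv_le hU1b hk3)
  have hUp : p.U F ≤ 1 / Cp := hU.trans (div_le_div_of_nonneg_left zero_le_one (by linarith) hk4)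
  have hb0 : 0 < p.x ^ eps := by positivity
  have hb1 := hN2 p hN2'
  have htn : Mn * (p.x ^ eps) ^ n ≤ p.x ^ K := by
    have h1 : (p.x ^ eps) ^ n = p.x ^ (eps * n - K) * p.x ^ K := by
      rw [← Real.rpow_natCast (p.x ^ eps) n, ← Real.rpow_mul hx0.le, ← Real.rpow_natCast p.x K, ← Real.rpow_add hx0]
      congr 1
      ring
    have h2 := hN3 p hN3'
    have h3 : Mn * p.x ^ (eps * n - K) ≤ 1 := by
      calc Mn * p.x ^ (eps * n - K) ≤ Mn * (1 / (Mn + 1)) := mul_le_mul_of_nonneg_left h2 hMn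
        _ ≤ 1 := by rw [mul_one_div, div_le_one (by linarith)]; linarith
    rw [h1, ← mul_assoc]
    calc Mn * p.x ^ (eps * n - K) * p.x ^ K ≤ 1 * p.x ^ K := mul_le_mul_of_nonneg_right h3 (by positivity)
      _ = p.x ^ K := one_mul _
  obtain ⟨_, _, hEb0, hEbs, hEbeq⟩ := hEb p hU0 hUb
  have hNum : i.Num π κ0 Mn Klo n := by
    refine ⟨?_, ?_, ?_, ?_, ?_, ?_, ?_, hDev.Z1, ?_, ?_, ?_, ?_, ?_, ?_, ?_, ?_, ?_, hDev.zlo0, hDev.zlo1, hDev.zloY⟩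
    · rw [e_ell]; exact hp.ell1
    · rw [e_ell]; exact hell2
    · rw [e_lam]; exact hl0.le
    · rw [e_lam]; exact hl1.trans (min_le_left _ _)
    · rw [e_x]; exact hx0
    · rw [e_x, e_U]; exact hxU
    · rw [e_U]; exact hUκ
    · rw [e_b]; exact hb0
    · rw [e_b]; exact hb1.trans (min_le_left _ _)
    · rw [e_t]; positivity
    · rw [e_t, e_x]; exact pow_le_pow_of_le_one hx0.le hx1 hK
    · rw [e_b, e_t]; exact htn
    · rw [e_A]; exact hA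
    · rw [e_E]; exact hEb0
    · rw [e_E, e_zs]; exact hEbs
    · rw [e_E, e_zs, e_pt, e_At, e_U]; exact hEbeq
  -- the conclusions of IN-G, IN-E, PLF
  obtain ⟨g1, g2, g3, g4, g5, g6, g7, g8⟩ := hG i hNum.ell1 hNum.ell2 hNum.lam0 (by rw [e_lam]; exact hl1.trans (min_le_right _ _))
  obtain ⟨k1, _, k3⟩ := hE i hNum.ell1 hNum.ell2 (fun z hz => (g1 z hz).2) g3 (by rw [e_U]; exact hU0) (by rw [e_U]; exact hUe)
    hNum.E0 hNum.Es hNum.Eeq
  have hElt : i.E < π.zs - π.z0 := by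
    have := k1.trans (min_le_right _ _)
    linarith
  have hpf : SkwPFConcl Cp (i.pf π) :=
    hPF (i.pf π) rfl hNum.ell1 hNum.ell2 (by show 0 < i.U; rw [e_U]; exact hU0) (by show i.U ≤ 1 / Cp; rw [e_U]; exact hUp)
      hNum.E0 (k1.trans (min_le_left _ _)) (k3 hElt)
  have hXi := skw_leaf_llXi 𝔹 F At cA Lq r hr h p i Cp hsm hp.ell1 e_ell e_lam hl0.le
    (by rw [← hπ, ← e_zs]; exact g6) (by rw [← hπ, ← e_zs, ← e_pt]; exact g8) (by rw [← hπ]; exact hpf)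
  rw [← hπ] at hXi
  obtain ⟨q1, q2, q3⟩ := hNg p hp hNg' hsm
  have hDv : i.Dev π Lq C1v := by
    refine ⟨?_, ?_, ?_, ?_, ?_, ?_, ?_, ?_, ?_⟩
    · rw [e_ell]; exact hDev.Smono
    · rw [e_ell]; exact hDev.S0
    · rw [e_ell]; exact hDev.S1
    · rw [e_G, e_zs]; exact q1
    · rw [e_G]; exact q2
    · rw [e_G, e_zs]; exact fun ξ hξ => (q3 ξ hξ).1
    · rw [e_G, e_zs]; exact fun ξ hξ => (q3 ξ hξ).2
    · intro z hz
      rw [e_q, e_G, e_zs]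
      exact (hXi z hz).2.2
    · rw [e_ell, e_q]; exact hDev.D1v
  obtain ⟨r1, r2, r3⟩ := hInst i hNum hDv
  refine ⟨r1, r2, r3, ?_⟩
  rw [← e_ell, ← e_U]
  apply skw_llz_in hcOk hczs r1 r2 r3 hC hCC' hk5
  apply hDir _ r1 r2 e_A
  refine ⟨?_, ?_, ?_⟩
  · show i.b ≤ 1 / C
    rw [e_b]; exact hb1.trans (min_le_right _ _)
  · show i.U ≤ 1 / C
    rw [e_U]; exact hUC
  · show i.x ≤ 1 / C
    rw [e_x]; exact hxU.trans hUC

end Claimed.Agent.R286
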