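import Claimed.Agent.R286.W.InstDefs

/-!
# Row 286, folder W, file InstG : Leaves IN-G, IN-E of the instance of the width construction      (contract helper246; proofs helper237; prefix `skw_ig_`, `skw_ie_`)
Pure calculus on the smooth profile `At`, `P` (see the docstrings of `SkwLeafInG`, `SkwLeafInE` in W/InstDefs.lean).
-/

set_option autoImplicit false

namespace Claimed.Agent.R286

open Set MeasureTheory

theorem skw_ig_dP_zero (π : SkwProf) (r : ℕ) (h : π.Ok r) (z : ℝ) (hz : π.z0 < z) : deriv π.P z = 0 := by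
  have hev : π.P =ᶠ[nhds z] fun _ => (0 : ℝ) := by
    filter_upwards [Ioi_mem_nhds hz] with y hy
    exact h.P_zero y (le_of_lt hy)
  rw [hev.deriv_eq]
  simp

theorem skw_ig_cont (π : SkwProf) (r : ℕ) (hr : 2 ≤ r) (h : π.Ok r) :
    Continuous (deriv π.At) ∧ Continuous (deriv π.P) ∧ Differentiable ℝ π.At ∧ Differentiable ℝ π.P := by
  have h1 : (1 : WithTop ℕ∞) ≤ (r : WithTop ℕ∞) := by
    have : (1 : ℕ) ≤ r := by omega
    exact_mod_cast this
  have h0 : (r : WithTop ℕ∞) ≠ 0 := by
    have : r ≠ 0 := by omega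
    exact_mod_cast this
  exact ⟨h.At_sm.continuous_deriv h1, h.P_sm.continuous_deriv h1, h.At_sm.differentiable h0, h.P_sm.differentiable h0⟩

theorem skw_leaf_inG : SkwLeafInG := by
  intro π r hr h
  obtain ⟨cAt, cP, dAt, dP⟩ := skw_ig_cont π r hr h
  obtain ⟨MA, hMA⟩ := (isCompact_Icc (a := (0:ℝ)) (b := π.zs)).exists_bound_of_continuousOn cAt.continuousOn
  obtain ⟨MP, hMP⟩ := (isCompact_Icc (a := (0:ℝ)) (b := π.zs)).exists_bound_of_continuousOn cP.continuousOn
  have hz00 := h.z00
  have hz0s := h.z0s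
  have hcA := h.cA0
  have hzs : 0 < π.zs := by linarith
  have hMA0 : 0 ≤ MA := (norm_nonneg _).trans (hMA 0 ⟨le_refl _, hzs.le⟩)
  have hMP0 : 0 ≤ MP := (norm_nonneg _).trans (hMP 0 ⟨le_refl _, hzs.le⟩)
  have hl0 : 0 < π.cA / (2 * (MP + 1)) := by positivity
  refine ⟨2 * (MA + MP) + 1, min 1 (π.cA / (2 * (MP + 1))), by linarith, lt_min one_pos hl0, min_le_left _ _, ?_⟩
  intro i he1 he2 hla0 hla
  have hla1 : i.lam ≤ 1 := hla.trans (min_le_left _ _)
  have hla2 : i.lam ≤ π.cA / (2 * (MP + 1)) := hla.trans (min_le_right _ _)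
  -- `λ |P'| ≤ cA / 2`
  have hlP : ∀ z ∈ Icc 0 π.zs, |i.lam * deriv π.P z| ≤ π.cA / 2 := by
    intro z hz
    have h1 : |deriv π.P z| ≤ MP := by simpa using hMP z hz
    rw [abs_mul, abs_of_nonneg hla0]
    calc i.lam * |deriv π.P z| ≤ π.cA / (2 * (MP + 1)) * (MP + 1) :=
          mul_le_mul hla2 (by linarith) (abs_nonneg _) hl0.le
      _ = π.cA / 2 := by field_simp
  have hlow : ∀ z ∈ Icc 0 (2 * π.z0), π.cA / 2 ≤ deriv π.At z + i.lam * deriv π.P z := by
    intro z hz
    have h1 := h.dAt0 z hz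
    have h2 := hlP z ⟨hz.1, hz.2.trans hz0s⟩
    have h3 := (abs_le.1 h2).1
    linarith
  have hlow' : ∀ z ∈ Icc 0 (2 * π.z0), π.cA / 2 ≤ skwInGa π i z := by
    intro z hz
    have h1 := hlow z hz
    rw [skwInGa_eqns_cite]
    nlinarith
  have hafter : ∀ z, π.z0 < z → skwInGa π i z = i.ell * deriv π.At z := by
    intro z hz
    rw [skwInGa_eqns_cite, skw_ig_dP_zero π r h z hz]
    ring
  have hderA : ∀ z, HasDerivAt (skwInA π i) (deriv π.At z + i.lam * deriv π.P z) z := by
    intro z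
    have h1 : HasDerivAt π.At (deriv π.At z) z := (dAt z).hasDerivAt
    have h2 : HasDerivAt π.P (deriv π.P z) z := (dP z).hasDerivAt
    exact h1.add (h2.const_mul i.lam)
  refine ⟨?_, hlow', hafter, ?_, ?_, ?_, ?_, ?_⟩
  · intro z hz
    constructor
    · by_cases hzz : z ≤ 2 * π.z0
      · have := hlow' z ⟨hz.1, hzz⟩
        linarith
      · rw [hafter z (by linarith)]
        have := h.dAt z hz
        positivity
    · have h1 : |deriv π.At z| ≤ MA := by simpa using hMA z hz
      have h2 : |deriv π.P z| ≤ MP := by simpa using hMP z hz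
      have h3 : deriv π.At z + i.lam * deriv π.P z ≤ MA + MP := by
        have h4 : i.lam * deriv π.P z ≤ 1 * MP := by
          calc i.lam * deriv π.P z ≤ i.lam * |deriv π.P z| := mul_le_mul_of_nonneg_left (le_abs_self _) hla0
            _ ≤ 1 * MP := mul_le_mul hla1 h2 (abs_nonneg _) zero_le_one
        have := le_abs_self (deriv π.At z)
        linarith
      rw [skwInGa_eqns_cite]
      by_cases h5 : 0 ≤ deriv π.At z + i.lam * deriv π.P z
      · calc i.ell * (deriv π.At z + i.lam * deriv π.P z) ≤ 2 * (MA + MP) :=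
              mul_le_mul he2 h3 h5 (by norm_num)
          _ ≤ _ := by linarith
      · push Not at h5
        have : i.ell * (deriv π.At z + i.lam * deriv π.P z) ≤ 0 :=
          mul_nonpos_of_nonneg_of_nonpos (by linarith) h5.le
        linarith
  · have : skwInGa π i = fun z => i.ell * (deriv π.At z + i.lam * deriv π.P z) := rfl
    rw [this]
    exact continuous_const.mul (cAt.add (continuous_const.mul cP))
  · intro z
    exact (hderA z).const_mul i.ell
  · -- strict monotonicity
    have hA : StrictMonoOn (skwInA π i) (Icc 0 π.z0) := by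
      apply strictMonoOn_of_deriv_pos (convex_Icc _ _)
      · exact fun z _ => (hderA z).continuousAt.continuousWithinAt
      · intro z hz
        rw [interior_Icc] at hz
        rw [(hderA z).deriv]
        have := hlow z ⟨hz.1.le, by linarith [hz.2]⟩
        linarith
    have hB : StrictMonoOn (skwInA π i) (Icc π.z0 π.zs) := by
      intro a ha b hb hab
      rw [skwInA_eqns_cite, skwInA_eqns_cite, h.P_zero a ha.1, h.P_zero b hb.1]
      have := h.smono ⟨hz00.le.trans ha.1, ha.2⟩ ⟨hz00.le.trans hb.1, hb.2⟩ hab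
      linarith
    have hU := hA.union hB (isGreatest_Icc hz00.le) (isLeast_Icc (by linarith))
    rwa [Icc_union_Icc_eq_Icc hz00.le (by linarith)] at hU
  · rw [skwInA_eqns_cite, h.At0, h.P0]; ring
  · rw [skwInA_eqns_cite, h.Atz, h.P_zero π.zs (by linarith)]; ring

theorem skw_leaf_inE : SkwLeafInE := by
  intro π r hr h M0 hM0 E1 hE1
  obtain ⟨cAt, cP, dAt, dP⟩ := skw_ig_cont π r hr h
  have hz00 := h.z00
  have hz0s := h.z0s
  have hzs : 0 < π.zs := by linarith
  set E' : ℝ := min E1 π.zs with hE'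
  have hE'0 : 0 < E' := lt_min hE1 hzs
  have hE's : E' ≤ π.zs := min_le_right _ _
  set δ : ℝ := π.ptop - π.At (π.zs - E') with hδ
  have hδ0 : 0 < δ := by
    have := h.smono (a := π.zs - E') (b := π.zs) ⟨by linarith, by linarith⟩ ⟨hzs.le, le_refl _⟩ (by linarith)
    rw [h.Atz] at this
    linarith
  have hU10 : 0 < δ * E' ^ 2 / 2 := by positivity
  refine ⟨min 1 (δ * E' ^ 2 / 2), lt_min one_pos hU10, min_le_left _ _, ?_⟩
  intro i he1 he2 hGM hGa hU0 hU1 hE0 hEs hEq
  have hint : i.E < π.zs - π.z0 → ∫ z in (π.zs - i.E)..π.zs, skwInGa π i z = i.ell * (i.U ^ 4 / i.E ^ 2) := by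
    intro hlt
    have h1 : ∫ z in (π.zs - i.E)..π.zs, skwInGa π i z = ∫ z in (π.zs - i.E)..π.zs, i.ell * deriv π.At z := by
      apply intervalIntegral.integral_congr
      intro z hz
      rw [uIcc_of_le (by linarith)] at hz
      exact hGa z (by linarith [hz.1])
    rw [h1, intervalIntegral.integral_const_mul,
      intervalIntegral.integral_deriv_eq_sub (fun z _ => dAt z) (cAt.intervalIntegrable _ _), h.Atz, hEq]
  refine ⟨?_, hint, ?_⟩
  · by_contra hcon
    push Not at hcon
    have hEE : E' < i.E := lt_of_le_of_lt (min_le_left _ _) hcon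
    have h1 := h.smono (a := π.zs - i.E) (b := π.zs - E') ⟨by linarith, by linarith⟩ ⟨by linarith, by linarith⟩ (by linarith)
    have h2 : δ < i.U ^ 4 / i.E ^ 2 := by rw [← hEq]; linarith
    have hE2 : 0 < i.E ^ 2 := by positivity
    rw [lt_div_iff₀ hE2] at h2
    have h3 : E' ^ 2 ≤ i.E ^ 2 := pow_le_pow_left₀ hE'0.le hEE.le 2
    have h4 : δ * E' ^ 2 ≤ δ * i.E ^ 2 := mul_le_mul_of_nonneg_left h3 hδ0.le
    have hU1' : i.U ≤ 1 := hU1.trans (min_le_left _ _)
    have hU2' : i.U ≤ δ * E' ^ 2 / 2 := hU1.trans (min_le_right _ _)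
    have h5 : i.U ^ 4 ≤ i.U := by
      calc i.U ^ 4 ≤ i.U ^ 1 := pow_le_pow_of_le_one hU0.le hU1' (by norm_num)
        _ = i.U := pow_one _
    linarith
  · intro hlt
    have h1 := hint hlt
    have h2 : ∫ z in (π.zs - i.E)..π.zs, skwInGa π i z ≤ ∫ z in (π.zs - i.E)..π.zs, M0 := by
      apply intervalIntegral.integral_mono_on (by linarith)
      · have : skwInGa π i = fun z => i.ell * (deriv π.At z + i.lam * deriv π.P z) := rfl
        rw [this]
        exact (continuous_const.mul (cAt.add (continuous_const.mul cP))).intervalIntegrable _ _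
      · exact intervalIntegrable_const
      · intro z hz
        exact hGM z ⟨by linarith [hz.1], hz.2⟩
    rw [intervalIntegral.integral_const, h1] at h2
    have h3 : π.zs - (π.zs - i.E) = i.E := by ring
    rw [h3, smul_eq_mul] at h2
    have hE2 : 0 < i.E ^ 2 := by positivity
    have hq : 0 ≤ i.U ^ 4 / i.E ^ 2 := by positivity
    have h4 : i.U ^ 4 / i.E ^ 2 ≤ i.E * M0 := by
      calc i.U ^ 4 / i.E ^ 2 = 1 * (i.U ^ 4 / i.E ^ 2) := (one_mul _).symm
        _ ≤ i.ell * (i.U ^ 4 / i.E ^ 2) := mul_le_mul_of_nonneg_right he1 hq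
        _ ≤ _ := h2
    rw [div_le_iff₀ hE2] at h4
    calc i.U ^ 4 ≤ i.E * M0 * i.E ^ 2 := h4
      _ = M0 * i.E ^ 3 := by ring

end Claimed.Agent.R286
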