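import Claimed.Agent.R286.W.InstDefs

/-!
# Row 286, folder W, file InstV : Leaf IN-V, the mass coordinate `v(z)`      (contract helper246; OWNER helper237; prefix `skw_iv_`)      0 sorry
Abstract form `SkwIvD` : an active primitive `A₁` (`A₁' = Ga`) glued at `zs` to the explicit plateau (`SkwPFConcl`).
Change of variables: `skw_iv_cov_gen` = Mathlib's `integral_image_eq_integral_deriv_smul_of_monotoneOn` on `Ioo a b \ {m}` (no hypothesis on the integrand;
the glued mass is not differentiable at the join); derivative of `wof` by `HasDerivAt.of_local_left_inverse`.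
-/

set_option autoImplicit false

namespace Claimed.Agent.R286

open Set MeasureTheory

/-- change of variables for a continuous monotone function which is differentiable off one point -/
theorem skw_iv_cov_gen {f f' g : ℝ → ℝ} {a b m : ℝ} (hf : ContinuousOn f (Icc a b))
    (M : MonotoneOn f (Icc a b))
    (hff' : ∀ x ∈ Ioo a b \ {m}, HasDerivAt f (f' x) x) (hab : a ≤ b) :
    ∫ x in Icc a b, f' x • g (f x) = ∫ u in Icc (f a) (f b), g u := by
  have A : ∫ u in Icc (f a) (f b), g u = ∫ u in f '' (Ioo a b \ {m}), g u := by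
    apply setIntegral_congr_set
    rw [← hf.image_Icc_of_monotoneOn hab M]
    refine ae_eq_set.2 ⟨?_, by simp [show f '' (Ioo a b \ {m}) \ f '' Icc a b = ∅ by grind]⟩
    have : f '' (Icc a b) \ f '' (Ioo a b \ {m}) ⊆ {f a, f b, f m} := by grind
    apply measure_mono_null this
    apply Finite.measure_zero (by simp)
  have B : ∫ x in Icc a b, f' x • g (f x) = ∫ x in Ioo a b \ {m}, f' x • g (f x) := by
    apply setIntegral_congr_set
    refine ae_eq_set.2 ⟨?_, by simp [show (Ioo a b \ {m}) \ Icc a b = ∅ by grind]⟩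
    have : Icc a b \ (Ioo a b \ {m}) ⊆ {a, b, m} := by grind
    apply measure_mono_null this
    apply Finite.measure_zero (by simp)
  rw [A, B, integral_image_eq_integral_deriv_smul_of_monotoneOn
    (measurableSet_Ioo.diff (measurableSet_singleton m))]
  · exact fun z hz ↦ (hff' z hz).hasDerivWithinAt
  · exact M.mono (fun x hx => Ioo_subset_Icc_self hx.1)

/-- abstract data: an active primitive glued to the explicit plateau -/
structure SkwIvD (Cp M0 : ℝ) (p : SkwPF) (A₁ Ga : ℝ → ℝ) : Prop where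
  Q : SkwPFConcl Cp p
  ell1 : 1 ≤ p.ell
  ell2 : p.ell ≤ 2
  zs0 : 0 < p.zs
  pt1 : p.ptop ≤ 1
  Ga0 : ∀ z ∈ Icc 0 p.zs, 0 ≤ Ga z
  GaM : ∀ z ∈ Icc 0 p.zs, Ga z ≤ M0
  Gac : Continuous Ga
  der : ∀ z, HasDerivAt A₁ (Ga z) z
  mono : StrictMonoOn A₁ (Icc 0 p.zs)
  A0 : A₁ 0 = 0
  As : A₁ p.zs = p.ell * p.ptop

/-- the glued mass -/
noncomputable def skwIvV (p : SkwPF) (A₁ : ℝ → ℝ) (z : ℝ) : ℝ :=
  if z ≤ p.zs then A₁ z else p.ell * p.wof z

/-- the glued density -/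
noncomputable def skwIvG (p : SkwPF) (Ga : ℝ → ℝ) (z : ℝ) : ℝ :=
  if z ≤ p.zs then Ga z else p.G z

theorem skw_iv_eqns_cite : True := by
  have := @skwIvV.eq_1; have := @skwIvG.eq_1
  trivial

variable {Cp M0 : ℝ} {p : SkwPF} {A₁ Ga : ℝ → ℝ}

theorem skw_iv_V_act {z : ℝ} (hz : z ≤ p.zs) : skwIvV p A₁ z = A₁ z := by
  unfold skwIvV; rw [if_pos hz]

theorem skw_iv_zlt (D : SkwIvD Cp M0 p A₁ Ga) : p.zs < p.zmax := by linarith [D.Q.len_lo]

theorem skw_iv_wof_zs (D : SkwIvD Cp M0 p A₁ Ga) : p.wof p.zs = p.ptop := by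
  have := D.Q.wof_zof p.ptop ⟨le_rfl, D.pt1⟩
  rwa [D.Q.zof_ptop] at this

theorem skw_iv_wof_zmax (D : SkwIvD Cp M0 p A₁ Ga) : p.wof p.zmax = 1 :=
  D.Q.wof_zof 1 ⟨D.pt1, le_rfl⟩

theorem skw_iv_V_pl (D : SkwIvD Cp M0 p A₁ Ga) {z : ℝ} (hz : p.zs ≤ z) :
    skwIvV p A₁ z = p.ell * p.wof z := by
  rcases eq_or_lt_of_le hz with e | e
  · rw [← e, skw_iv_V_act le_rfl, D.As, skw_iv_wof_zs D]
  · unfold skwIvV; rw [if_neg (not_le.2 e)]

theorem skw_iv_wof_mono (D : SkwIvD Cp M0 p A₁ Ga) : StrictMonoOn p.wof (Icc p.zs p.zmax) := by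
  intro z hz z' hz' hlt
  by_contra hcon
  have h1 : p.wof z' ≤ p.wof z := not_lt.1 hcon
  have h2 := D.Q.zof_mono.monotoneOn (D.Q.wof_mem z' hz') (D.Q.wof_mem z hz) h1
  rw [D.Q.zof_wof z hz, D.Q.zof_wof z' hz'] at h2
  linarith

theorem skw_iv_cont (D : SkwIvD Cp M0 p A₁ Ga) : ContinuousOn (skwIvV p A₁) (Icc 0 p.zmax) := by
  have hA : Continuous A₁ := continuous_iff_continuousAt.2 fun z => (D.der z).continuousAt
  have h1 : ContinuousOn (skwIvV p A₁) (Icc 0 p.zs) :=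
    hA.continuousOn.congr fun z hz => skw_iv_V_act hz.2
  have h2 : ContinuousOn (skwIvV p A₁) (Icc p.zs p.zmax) :=
    (continuousOn_const.mul D.Q.wof_cont).congr fun z hz => skw_iv_V_pl D hz.1
  have := h1.union_of_isClosed h2 isClosed_Icc isClosed_Icc
  rwa [Icc_union_Icc_eq_Icc D.zs0.le (skw_iv_zlt D).le] at this

theorem skw_iv_mono (D : SkwIvD Cp M0 p A₁ Ga) : StrictMonoOn (skwIvV p A₁) (Icc 0 p.zmax) := by
  have hℓ : 0 < p.ell := by linarith [D.ell1]
  have h1 : StrictMonoOn (skwIvV p A₁) (Icc 0 p.zs) := by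
    intro z hz z' hz' hlt
    rw [skw_iv_V_act hz.2, skw_iv_V_act hz'.2]
    exact D.mono hz hz' hlt
  have h2 : StrictMonoOn (skwIvV p A₁) (Icc p.zs p.zmax) := by
    intro z hz z' hz' hlt
    rw [skw_iv_V_pl D hz.1, skw_iv_V_pl D hz'.1]
    exact mul_lt_mul_of_pos_left (skw_iv_wof_mono D hz hz' hlt) hℓ
  have := h1.union h2 (isGreatest_Icc D.zs0.le) (isLeast_Icc (skw_iv_zlt D).le)
  rwa [Icc_union_Icc_eq_Icc D.zs0.le (skw_iv_zlt D).le] at this

/-- the derivative of the glued mass off the join -/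
theorem skw_iv_deriv (D : SkwIvD Cp M0 p A₁ Ga) {z : ℝ} (hz : z ∈ Ioo 0 p.zmax \ {p.zs}) :
    HasDerivAt (skwIvV p A₁) (skwIvG p Ga z) z := by
  have hne : z ≠ p.zs := fun h => hz.2 (by simp [h])
  rcases lt_or_gt_of_ne hne with h1 | h1
  · have e : skwIvG p Ga z = Ga z := by unfold skwIvG; rw [if_pos h1.le]
    rw [e]
    refine (D.der z).congr_of_eventuallyEq ?_
    filter_upwards [Iio_mem_nhds h1] with y hy
    exact skw_iv_V_act (le_of_lt hy)
  · have e : skwIvG p Ga z = p.G z := by unfold skwIvG; rw [if_neg (not_le.2 h1)]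
    rw [e]
    have hzI : z ∈ Icc p.zs p.zmax := ⟨h1.le, hz.1.2.le⟩
    have hnhds : Ioo p.zs p.zmax ∈ nhds z := Ioo_mem_nhds h1 hz.1.2
    have hℓ : 0 < p.ell := by linarith [D.ell1]
    have hGpos := D.Q.G_pos z hzI
    have hdz : p.dz (p.wof z) ≠ 0 := by
      intro h0
      unfold SkwPF.G at hGpos
      rw [h0, div_zero] at hGpos
      exact lt_irrefl _ hGpos
    have hw : HasDerivAt p.wof (p.dz (p.wof z))⁻¹ z := by
      apply HasDerivAt.of_local_left_inverse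
      · exact D.Q.wof_cont.continuousAt (Icc_mem_nhds h1 hz.1.2)
      · exact D.Q.zof_deriv _ (D.Q.wof_mem z hzI)
      · exact hdz
      · filter_upwards [hnhds] with y hy
        exact D.Q.zof_wof y ⟨hy.1.le, hy.2.le⟩
    have h2 : HasDerivAt (fun y => p.ell * p.wof y) (p.G z) z := by
      have := hw.const_mul p.ell
      have e2 : p.ell * (p.dz (p.wof z))⁻¹ = p.G z := by unfold SkwPF.G; rw [div_eq_mul_inv]
      rwa [e2] at this
    refine h2.congr_of_eventuallyEq ?_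
    filter_upwards [hnhds] with y hy
    exact skw_iv_V_pl D hy.1.le

/-- change of variables `dv = G dz` -/
theorem skw_iv_cov (D : SkwIvD Cp M0 p A₁ Ga) (g : ℝ → ℝ) {z₁ z₂ : ℝ} (h1 : z₁ ∈ Icc 0 p.zmax)
    (h2 : z₂ ∈ Icc 0 p.zmax) (h12 : z₁ ≤ z₂) :
    ∫ z in z₁..z₂, g (skwIvV p A₁ z) * skwIvG p Ga z
      = ∫ v in (skwIvV p A₁ z₁)..(skwIvV p A₁ z₂), g v := by
  have hsub : Icc z₁ z₂ ⊆ Icc 0 p.zmax := Icc_subset_Icc h1.1 h2.2
  have hV := (skw_iv_mono D).monotoneOn h1 h2 h12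
  have key := skw_iv_cov_gen (f := skwIvV p A₁) (f' := skwIvG p Ga) (g := g) (m := p.zs)
    ((skw_iv_cont D).mono hsub) ((skw_iv_mono D).monotoneOn.mono hsub)
    (fun x hx => skw_iv_deriv D ⟨⟨lt_of_le_of_lt h1.1 hx.1.1, lt_of_lt_of_le hx.1.2 h2.2⟩, hx.2⟩) h12
  rw [intervalIntegral.integral_of_le h12, intervalIntegral.integral_of_le hV,
    ← integral_Icc_eq_integral_Ioc, ← integral_Icc_eq_integral_Ioc, ← key]
  apply setIntegral_congr_fun measurableSet_Icc
  intro x _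
  simp only [smul_eq_mul]
  ring

theorem skw_iv_Gint (D : SkwIvD Cp M0 p A₁ Ga) :
    IntervalIntegrable (skwIvG p Ga) volume 0 p.zmax := by
  have h1 : IntervalIntegrable (skwIvG p Ga) volume 0 p.zs := by
    refine (D.Gac.intervalIntegrable 0 p.zs).congr ?_
    intro z hz
    rw [uIoc_of_le D.zs0.le] at hz
    unfold skwIvG; rw [if_pos hz.2]
  have h2 : IntervalIntegrable (skwIvG p Ga) volume p.zs p.zmax := by
    have h3 : IntervalIntegrable p.G volume p.zs p.zmax := by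
      apply ContinuousOn.intervalIntegrable
      rw [uIcc_of_le (skw_iv_zlt D).le]
      exact D.Q.G_cont
    refine h3.congr ?_
    intro z hz
    rw [uIoc_of_le (skw_iv_zlt D).le] at hz
    unfold skwIvG; rw [if_neg (not_le.2 hz.1)]
  exact h1.trans h2

theorem skw_iv_mass (D : SkwIvD Cp M0 p A₁ Ga) {z₁ z₂ : ℝ} (h1 : z₁ ∈ Icc 0 p.zmax)
    (h2 : z₂ ∈ Icc 0 p.zmax) :
    ∫ z in z₁..z₂, skwIvG p Ga z = skwIvV p A₁ z₂ - skwIvV p A₁ z₁ := by
  have key : ∀ a b, a ∈ Icc 0 p.zmax → b ∈ Icc 0 p.zmax → a ≤ b →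
      ∫ z in a..b, skwIvG p Ga z = skwIvV p A₁ b - skwIvV p A₁ a := by
    intro a b ha hb hab
    have := skw_iv_cov D (fun _ => (1 : ℝ)) ha hb hab
    simpa using this
  rcases le_total z₁ z₂ with h | h
  · exact key z₁ z₂ h1 h2 h
  · rw [intervalIntegral.integral_symm, key z₂ z₁ h2 h1 h]; ring

theorem skw_iv_vmax (D : SkwIvD Cp M0 p A₁ Ga) : skwIvV p A₁ p.zmax = p.ell := by
  rw [skw_iv_V_pl D (skw_iv_zlt D).le, skw_iv_wof_zmax D, mul_one]

theorem skw_iv_ftc (D : SkwIvD Cp M0 p A₁ Ga) (z : ℝ) : ∫ s in (0 : ℝ)..z, Ga s = A₁ z := by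
  rw [intervalIntegral.integral_eq_sub_of_hasDerivAt (fun x _ => D.der x)
    (D.Gac.intervalIntegrable _ _), D.A0, sub_zero]

theorem skw_iv_lower (D : SkwIvD Cp M0 p A₁ Ga) {cA z0 cv : ℝ} (hz0 : 0 < z0)
    (hz0s : 2 * z0 ≤ p.zs) (hcA : 0 < cA) (hlow : ∀ z ∈ Icc 0 (2 * z0), cA / 2 ≤ Ga z)
    (hcv0 : 0 < cv) (hcv1 : cv ≤ cA / 2) (hcv2 : cv ≤ cA * z0) :
    ∀ z ∈ Icc 0 p.zmax, cv * skwR z ≤ skwIvV p A₁ z := by
  have hsmall : ∀ z ∈ Icc 0 (2 * z0), cA / 2 * z ≤ skwIvV p A₁ z := by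
    intro z hz
    rw [skw_iv_V_act (hz.2.trans hz0s), ← skw_iv_ftc D z]
    have := intervalIntegral.integral_mono_on (μ := volume) hz.1
      (intervalIntegrable_const (c := cA / 2))
      (D.Gac.intervalIntegrable 0 z) (fun s hs => hlow s ⟨hs.1, hs.2.trans hz.2⟩)
    rw [intervalIntegral.integral_const, smul_eq_mul, sub_zero] at this
    linarith
  intro z hz
  have hr0 : 0 ≤ skwR z := le_min hz.1 zero_le_one
  have hr1 : skwR z ≤ 1 := min_le_right _ _
  have hrz : skwR z ≤ z := min_le_left _ _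
  rcases le_or_gt z (2 * z0) with h | h
  · refine le_trans ?_ (hsmall z ⟨hz.1, h⟩)
    calc cv * skwR z ≤ cA / 2 * skwR z := mul_le_mul_of_nonneg_right hcv1 hr0
      _ ≤ cA / 2 * z := mul_le_mul_of_nonneg_left hrz (by positivity)
  · have h1 := hsmall (2 * z0) ⟨by positivity, le_rfl⟩
    have h2 := (skw_iv_mono D).monotoneOn (a := 2 * z0) (b := z)
      ⟨by positivity, by linarith [hz.2]⟩ hz h.le
    have h3 : cv * skwR z ≤ cv * 1 := mul_le_mul_of_nonneg_left hr1 hcv0.le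
    nlinarith

theorem skw_iv_upper (D : SkwIvD Cp M0 p A₁ Ga) {cv : ℝ} (hM0 : 1 ≤ M0)
    (hcv0 : 0 < cv) (hcv1 : cv ≤ 1 / M0) (hcv2 : cv ≤ 1 / 2) (hcv3 : cv ≤ p.zs / 2) :
    ∀ z ∈ Icc 0 p.zmax, skwIvV p A₁ z ≤ skwR z / cv := by
  intro z hz
  rw [le_div_iff₀ hcv0]
  have htop : skwIvV p A₁ z ≤ 2 := by
    have := (skw_iv_mono D).monotoneOn hz ⟨D.zs0.le.trans (skw_iv_zlt D).le, le_rfl⟩ hz.2
    rw [skw_iv_vmax D] at this
    linarith [D.ell2]
  have hnn : 0 ≤ skwIvV p A₁ z := by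
    have := (skw_iv_mono D).monotoneOn ⟨le_rfl, D.zs0.le.trans (skw_iv_zlt D).le⟩ hz hz.1
    rwa [skw_iv_V_act D.zs0.le, D.A0] at this
  have h1 : skwIvV p A₁ z * cv ≤ 1 := by
    calc skwIvV p A₁ z * cv ≤ 2 * (1 / 2) := mul_le_mul htop hcv2 hcv0.le (by norm_num)
      _ = 1 := by norm_num
  refine le_min ?_ h1
  rcases le_or_gt z p.zs with h | h
  · have h2 : skwIvV p A₁ z ≤ M0 * z := by
      rw [skw_iv_V_act h, ← skw_iv_ftc D z]
      have := intervalIntegral.integral_mono_on (μ := volume) hz.1 (D.Gac.intervalIntegrable 0 z)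
        (intervalIntegrable_const (c := M0)) (fun s hs => D.GaM s ⟨hs.1, hs.2.trans h⟩)
      rw [intervalIntegral.integral_const, smul_eq_mul, sub_zero] at this
      linarith
    calc skwIvV p A₁ z * cv ≤ M0 * z * (1 / M0) :=
          mul_le_mul h2 hcv1 hcv0.le (by have := hz.1; positivity)
      _ = z := by field_simp
  · calc skwIvV p A₁ z * cv ≤ 2 * (p.zs / 2) := mul_le_mul htop hcv3 hcv0.le (by norm_num)
      _ = p.zs := by ring
      _ ≤ z := h.le

/-- **Leaf IN-V**. -/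
theorem skw_leaf_inV : SkwLeafInV := by
  intro π _r _hr hπ M0 Cp hM0 _hCp
  have hcA := hπ.cA0
  have hz0 := hπ.z00
  have hzs : 0 < π.zs := by linarith [hπ.z0s]
  obtain ⟨cv, hcv⟩ : ∃ cv, cv = min (min (π.cA / 2) (π.cA * π.z0))
      (min (1 / M0) (min (1 / 2) (π.zs / 2))) := ⟨_, rfl⟩
  have c1 : cv ≤ π.cA / 2 := by rw [hcv]; exact (min_le_left _ _).trans (min_le_left _ _)
  have c2 : cv ≤ π.cA * π.z0 := by rw [hcv]; exact (min_le_left _ _).trans (min_le_right _ _)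
  have c3 : cv ≤ 1 / M0 := by rw [hcv]; exact (min_le_right _ _).trans (min_le_left _ _)
  have c4 : cv ≤ 1 / 2 := by
    rw [hcv]; exact (min_le_right _ _).trans ((min_le_right _ _).trans (min_le_left _ _))
  have c5 : cv ≤ π.zs / 2 := by
    rw [hcv]; exact (min_le_right _ _).trans ((min_le_right _ _).trans (min_le_right _ _))
  have c0 : 0 < cv := by
    rw [hcv]
    exact lt_min (lt_min (by positivity) (by positivity))
      (lt_min (by positivity) (lt_min (by norm_num) (by positivity)))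
  refine ⟨cv, c0, by linarith, ?_⟩
  intro i hl1 hl2 hG hlow hGc hder hmono hA0 hAs Q
  have hℓ : 0 < i.ell := by linarith
  have D : SkwIvD Cp M0 (i.pf π) (fun ξ => i.ell * skwInA π i ξ) (skwInGa π i) :=
    { Q := Q
      ell1 := hl1
      ell2 := hl2
      zs0 := hzs
      pt1 := hπ.pt1.le
      Ga0 := fun z hz => (hG z hz).1
      GaM := fun z hz => (hG z hz).2
      Gac := hGc
      der := hder
      mono := fun z hz z' hz' hlt => mul_lt_mul_of_pos_left (hmono hz hz' hlt) hℓ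
      A0 := by rw [hA0, mul_zero]
      As := by
        change i.ell * skwInA π i π.zs = i.ell * π.ptop
        rw [hAs] }
  have eV : skwInV π i = skwIvV (i.pf π) (fun ξ => i.ell * skwInA π i ξ) := by
    funext z; rfl
  have eG : skwInG π i = skwIvG (i.pf π) (skwInGa π i) := by
    funext z; rfl
  refine ⟨?_, ?_, ?_, ?_, ?_, ?_, ?_, ?_, ?_, ?_⟩
  · rw [eV, skw_iv_V_act D.zs0.le, hA0, mul_zero]
  · rw [eV]
    have := skw_iv_V_act (p := i.pf π) (A₁ := fun ξ => i.ell * skwInA π i ξ) (z := π.zs) le_rfl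
    rw [this, hAs]
  · rw [eV]; exact skw_iv_vmax D
  · rw [eV]; exact skw_iv_cont D
  · rw [eV]; exact skw_iv_mono D
  · rw [eV]; exact skw_iv_lower D hz0 hπ.z0s hcA hlow c0 c1 c2
  · rw [eV]; exact skw_iv_upper D hM0 c0 c3 c4 c5
  · rw [eG]; exact skw_iv_Gint D
  · intro z₁ h1 z₂ h2
    rw [eV, eG]; exact skw_iv_mass D h1 h2
  · intro g z₁ h1 z₂ h2 h12
    rw [eV, eG]; exact skw_iv_cov D g h1 h2 h12

end Claimed.Agent.R286
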