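import Claimed.Agent.R286.W.PlatF

/-!
# Row 286, folder W, file PF : Leaf PLF (the explicit plateau formulas satisfy the contract `SkwPFConcl`)      (helper113; prefix `skw_pf_`)

`A(w) = U²/√(w - p_top + d₋)` (decreasing), `B(w) = U²/√(1 - w + d₊)` (increasing), `zof w = zs + 2 (B w - B p_top) + 2 (A p_top - A w)`, `dz = (A³ + B³)/U⁴`, `hw = max A B`.
`Cp = 16 + (M0 + 4)/(1 - p_top)`.
-/

set_option autoImplicit false

namespace Claimed.Agent.R286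

open Set MeasureTheory

namespace SkwPF

/-- the decreasing branch -/
noncomputable def Af (p : SkwPF) (w : ℝ) : ℝ := p.U ^ 2 / Real.sqrt (w - p.ptop + p.dm)

/-- the increasing branch -/
noncomputable def Bf (p : SkwPF) (w : ℝ) : ℝ := p.U ^ 2 / Real.sqrt (1 - w + p.dp)

/-- standing hypotheses -/
structure Ok (p : SkwPF) : Prop where
  U0 : 0 < p.U
  E0 : 0 < p.E
  E1 : p.E ≤ 1
  pt0 : 0 < p.ptop
  pt1 : p.ptop < 1
  l1 : 1 ≤ p.ell
  l2 : p.ell ≤ 2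

end SkwPF

theorem skw_pf_eqns_cite : True := by
  have := @SkwPF.Af.eq_1; have := @SkwPF.Bf.eq_1
  trivial

section basic

variable {p : SkwPF} (h : p.Ok)
include h

theorem skw_pf_dp_pos : 0 < p.dp := by
  unfold SkwPF.dp
  have := h.U0
  positivity

theorem skw_pf_dm_pos : 0 < p.dm := by
  unfold SkwPF.dm
  have := h.U0
  have := h.E0
  positivity

theorem skw_pf_sqrt_dp : Real.sqrt p.dp = p.U ^ 2 := by
  unfold SkwPF.dp
  rw [show p.U ^ 4 = (p.U ^ 2) ^ 2 by ring]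
  exact Real.sqrt_sq (by positivity)

theorem skw_pf_sqrt_dm : Real.sqrt p.dm = p.U ^ 2 / p.E := by
  unfold SkwPF.dm
  rw [show p.U ^ 4 / p.E ^ 2 = (p.U ^ 2 / p.E) ^ 2 by rw [div_pow]; ring]
  have := h.E0
  exact Real.sqrt_sq (by positivity)

theorem skw_pf_dp_le_dm : p.dp ≤ p.dm := by
  unfold SkwPF.dp SkwPF.dm
  have hE := h.E0
  have hU := h.U0
  rw [le_div_iff₀ (by positivity)]
  have : p.E ^ 2 ≤ 1 := pow_le_one₀ hE.le h.E1
  nlinarith [pow_pos hU 4]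

/-- positivity of the two radicands -/
theorem skw_pf_a_pos {w : ℝ} (hw : p.ptop ≤ w) : 0 < w - p.ptop + p.dm := by
  have := skw_pf_dm_pos h
  linarith

theorem skw_pf_b_pos {w : ℝ} (hw : w ≤ 1) : 0 < 1 - w + p.dp := by
  have := skw_pf_dp_pos h
  linarith

theorem skw_pf_Af_pos {w : ℝ} (hw : p.ptop ≤ w) : 0 < p.Af w := by
  unfold SkwPF.Af
  have := h.U0
  exact div_pos (by positivity) (Real.sqrt_pos.2 (skw_pf_a_pos h hw))

theorem skw_pf_Bf_pos {w : ℝ} (hw : w ≤ 1) : 0 < p.Bf w := by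
  unfold SkwPF.Bf
  have := h.U0
  exact div_pos (by positivity) (Real.sqrt_pos.2 (skw_pf_b_pos h hw))

theorem skw_pf_Af_anti {w₁ w₂ : ℝ} (h1 : p.ptop ≤ w₁) (h12 : w₁ < w₂) : p.Af w₂ < p.Af w₁ := by
  unfold SkwPF.Af
  have := h.U0
  exact div_lt_div_of_pos_left (by positivity) (Real.sqrt_pos.2 (skw_pf_a_pos h h1))
    (Real.sqrt_lt_sqrt (skw_pf_a_pos h h1).le (by linarith))

theorem skw_pf_Bf_mono {w₁ w₂ : ℝ} (h12 : w₁ < w₂) (h2 : w₂ ≤ 1) : p.Bf w₁ < p.Bf w₂ := by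
  unfold SkwPF.Bf
  have := h.U0
  exact div_lt_div_of_pos_left (by positivity) (Real.sqrt_pos.2 (skw_pf_b_pos h h2))
    (Real.sqrt_lt_sqrt (skw_pf_b_pos h h2).le (by linarith))

theorem skw_pf_Af_ptop : p.Af p.ptop = p.E := by
  unfold SkwPF.Af
  rw [sub_self, zero_add, skw_pf_sqrt_dm h]
  have := h.U0
  have := h.E0
  field_simp

theorem skw_pf_Bf_one : p.Bf 1 = 1 := by
  unfold SkwPF.Bf
  rw [sub_self, zero_add, skw_pf_sqrt_dp h]
  have := h.U0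
  field_simp

omit h in
theorem skw_pf_zof_eq (w : ℝ) : p.zof w = p.zs + 2 * (p.Bf w - p.Bf p.ptop) + 2 * (p.Af p.ptop - p.Af w) := by
  unfold SkwPF.zof SkwPF.Af SkwPF.Bf
  rw [sub_self, zero_add]
  ring

/-- `A² (w - p_top + d₋) = U⁴` -/
theorem skw_pf_Af_sq {w : ℝ} (hw : p.ptop ≤ w) : p.Af w ^ 2 * (w - p.ptop + p.dm) = p.U ^ 4 := by
  unfold SkwPF.Af
  have h0 := skw_pf_a_pos h hw
  rw [div_pow, Real.sq_sqrt h0.le]
  field_simp

theorem skw_pf_Bf_sq {w : ℝ} (hw : w ≤ 1) : p.Bf w ^ 2 * (1 - w + p.dp) = p.U ^ 4 := by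
  unfold SkwPF.Bf
  have h0 := skw_pf_b_pos h hw
  rw [div_pow, Real.sq_sqrt h0.le]
  field_simp

/-- `dz = (A³ + B³)/U⁴` -/
theorem skw_pf_dz_eq {w : ℝ} (hw : w ∈ Icc p.ptop 1) : p.dz w = (p.Af w ^ 3 + p.Bf w ^ 3) / p.U ^ 4 := by
  unfold SkwPF.dz SkwPF.Af SkwPF.Bf
  have ha := skw_pf_a_pos h hw.1
  have hb := skw_pf_b_pos h hw.2
  have hU := h.U0
  have sa := Real.sqrt_pos.2 ha
  have sb := Real.sqrt_pos.2 hb
  have ea : (w - p.ptop + p.dm) = Real.sqrt (w - p.ptop + p.dm) ^ 2 := (Real.sq_sqrt ha.le).symm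
  have eb : (1 - w + p.dp) = Real.sqrt (1 - w + p.dp) ^ 2 := (Real.sq_sqrt hb.le).symm
  obtain ⟨x, hx⟩ : ∃ x, x = Real.sqrt (w - p.ptop + p.dm) := ⟨_, rfl⟩
  obtain ⟨y, hy⟩ : ∃ y, y = Real.sqrt (1 - w + p.dp) := ⟨_, rfl⟩
  rw [← hx] at sa ea ⊢
  rw [← hy] at sb eb ⊢
  rw [ea, eb]
  field_simp
  ring

theorem skw_pf_dz_pos {w : ℝ} (hw : w ∈ Icc p.ptop 1) : 0 < p.dz w := by
  rw [skw_pf_dz_eq h hw]
  have := skw_pf_Af_pos h hw.1
  have := skw_pf_Bf_pos h hw.2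
  have := h.U0
  positivity

omit h in
theorem skw_pf_hw_eq (w : ℝ) : p.hw w = max (p.Af w) (p.Bf w) := rfl

end basic

section coord

variable {p : SkwPF} (h : p.Ok)
include h

omit h in
theorem skw_pf_zof_diff (w₁ w₂ : ℝ) : p.zof w₂ - p.zof w₁ = 2 * (p.Bf w₂ - p.Bf w₁) + 2 * (p.Af w₁ - p.Af w₂) := by
  rw [skw_pf_zof_eq, skw_pf_zof_eq]
  ring

omit h in
theorem skw_pf_zof_ptop : p.zof p.ptop = p.zs := by
  rw [skw_pf_zof_eq]
  ring

theorem skw_pf_zof_strictMono : StrictMonoOn p.zof (Icc p.ptop 1) := by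
  intro w₁ h1 w₂ h2 h12
  have e := skw_pf_zof_diff (p := p) w₁ w₂
  have a := skw_pf_Af_anti h h1.1 h12
  have b := skw_pf_Bf_mono h h12 h2.2
  linarith

theorem skw_pf_zof_deriv {w : ℝ} (hw : w ∈ Icc p.ptop 1) : HasDerivAt p.zof (p.dz w) w := by
  have ha := skw_pf_a_pos h hw.1
  have hb := skw_pf_b_pos h hw.2
  have sa := Real.sqrt_pos.2 ha
  have sb := Real.sqrt_pos.2 hb
  have db : HasDerivAt (fun w : ℝ => 1 - w + p.dp) (-1) w := by
    simpa using ((hasDerivAt_id w).const_sub 1).add_const p.dp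
  have da : HasDerivAt (fun w : ℝ => w - p.ptop + p.dm) 1 w := by
    simpa using ((hasDerivAt_id w).sub_const p.ptop).add_const p.dm
  have ib := (hasDerivAt_const w (1 : ℝ)).div (db.sqrt hb.ne') sb.ne'
  have ia := (hasDerivAt_const w (1 : ℝ)).div (da.sqrt ha.ne') sa.ne'
  have key := ((((ib.sub_const (1 / Real.sqrt (1 - p.ptop + p.dp))).add_const (1 / Real.sqrt p.dm)).sub ia).const_mul (2 * p.U ^ 2)).const_add p.zs
  refine key.congr_deriv ?_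
  unfold SkwPF.dz
  have ea : (w - p.ptop + p.dm) = Real.sqrt (w - p.ptop + p.dm) ^ 2 := (Real.sq_sqrt ha.le).symm
  have eb : (1 - w + p.dp) = Real.sqrt (1 - w + p.dp) ^ 2 := (Real.sq_sqrt hb.le).symm
  obtain ⟨x, hx⟩ : ∃ x, x = Real.sqrt (w - p.ptop + p.dm) := ⟨_, rfl⟩
  obtain ⟨y, hy⟩ : ∃ y, y = Real.sqrt (1 - w + p.dp) := ⟨_, rfl⟩
  rw [← hx] at sa ea ⊢
  rw [← hy] at sb eb ⊢
  rw [ea, eb]
  field_simp
  ring

theorem skw_pf_zof_cont : ContinuousOn p.zof (Icc p.ptop 1) :=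
  fun _ hw => (skw_pf_zof_deriv h hw).continuousAt.continuousWithinAt

theorem skw_pf_wof_zof {w : ℝ} (hw : w ∈ Icc p.ptop 1) : p.wof (p.zof w) = w := by
  unfold SkwPF.wof
  have e : {w' : ℝ | w' ∈ Icc p.ptop 1 ∧ p.zof w' ≤ p.zof w} = Icc p.ptop w := by
    ext w'
    constructor
    · rintro ⟨h1, h2⟩
      exact ⟨h1.1, ((skw_pf_zof_strictMono h).le_iff_le h1 hw).1 h2⟩
    · intro h1
      have hm : w' ∈ Icc p.ptop 1 := ⟨h1.1, h1.2.trans hw.2⟩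
      exact ⟨hm, ((skw_pf_zof_strictMono h).le_iff_le hm hw).2 h1.2⟩
  rw [e, csSup_Icc hw.1]

theorem skw_pf_surj {z : ℝ} (hz : z ∈ Icc p.zs p.zmax) : ∃ w ∈ Icc p.ptop 1, p.zof w = z := by
  have hi := intermediate_value_Icc h.pt1.le (skw_pf_zof_cont h)
  rw [skw_pf_zof_ptop] at hi
  obtain ⟨w, hw, e⟩ := hi hz
  exact ⟨w, hw, e⟩

theorem skw_pf_wof_mem {z : ℝ} (hz : z ∈ Icc p.zs p.zmax) : p.wof z ∈ Icc p.ptop 1 := by
  obtain ⟨w, hw, rfl⟩ := skw_pf_surj h hz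
  rw [skw_pf_wof_zof h hw]
  exact hw

theorem skw_pf_zof_wof {z : ℝ} (hz : z ∈ Icc p.zs p.zmax) : p.zof (p.wof z) = z := by
  obtain ⟨w, hw, rfl⟩ := skw_pf_surj h hz
  rw [skw_pf_wof_zof h hw]

theorem skw_pf_zof_mem {w : ℝ} (hw : w ∈ Icc p.ptop 1) : p.zof w ∈ Icc p.zs p.zmax := by
  have hm := (skw_pf_zof_strictMono h).monotoneOn
  constructor
  · rw [← skw_pf_zof_ptop (p := p)]
    exact hm ⟨le_rfl, h.pt1.le⟩ hw hw.1
  · exact hm hw ⟨h.pt1.le, le_rfl⟩ hw.2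

/-- lower bound of the slope of the coordinate -/
theorem skw_pf_zof_slope {w₁ w₂ : ℝ} (h1 : p.ptop ≤ w₁) (h12 : w₁ ≤ w₂) (h2 : w₂ ≤ 1) :
    p.Bf p.ptop ^ 3 / p.U ^ 4 * (w₂ - w₁) ≤ p.zof w₂ - p.zof w₁ := by
  refine Convex.mul_sub_le_image_sub_of_le_deriv (convex_Icc p.ptop 1) (skw_pf_zof_cont h) ?_ ?_ w₁ ⟨h1, h12.trans h2⟩ w₂ ⟨h1.trans h12, h2⟩ h12
  · intro x hx
    exact (skw_pf_zof_deriv h (interior_subset hx)).differentiableAt.differentiableWithinAt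
  · intro x hx
    have hx' := interior_subset hx
    rw [(skw_pf_zof_deriv h hx').deriv, skw_pf_dz_eq h hx']
    have hU := h.U0
    have b0 := skw_pf_Bf_pos h h.pt1.le
    have a0 := skw_pf_Af_pos h hx'.1
    have bm : p.Bf p.ptop ≤ p.Bf x := by
      rcases hx'.1.eq_or_lt with e | e
      · rw [e]
      · exact (skw_pf_Bf_mono h e hx'.2).le
    have : p.Bf p.ptop ^ 3 ≤ p.Af x ^ 3 + p.Bf x ^ 3 := by
      have := pow_le_pow_left₀ b0.le bm 3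
      have := pow_pos a0 3
      linarith
    gcongr

theorem skw_pf_wof_lip {z₁ z₂ : ℝ} (h1 : z₁ ∈ Icc p.zs p.zmax) (h2 : z₂ ∈ Icc p.zs p.zmax) :
    p.Bf p.ptop ^ 3 / p.U ^ 4 * |p.wof z₁ - p.wof z₂| ≤ |z₁ - z₂| := by
  have m1 := skw_pf_wof_mem h h1
  have m2 := skw_pf_wof_mem h h2
  have e1 := skw_pf_zof_wof h h1
  have e2 := skw_pf_zof_wof h h2
  rcases le_total (p.wof z₁) (p.wof z₂) with hle | hle
  · have := skw_pf_zof_slope h m1.1 hle m2.2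
    rw [e1, e2] at this
    rw [abs_sub_comm, abs_of_nonneg (sub_nonneg.2 hle), abs_sub_comm]
    exact this.trans (le_abs_self _)
  · have := skw_pf_zof_slope h m2.1 hle m1.2
    rw [e1, e2] at this
    rw [abs_of_nonneg (sub_nonneg.2 hle)]
    exact this.trans (le_abs_self _)

theorem skw_pf_wof_cont : ContinuousOn p.wof (Icc p.zs p.zmax) := by
  have hU := h.U0
  have b0 := skw_pf_Bf_pos h h.pt1.le
  have c0 : 0 < p.Bf p.ptop ^ 3 / p.U ^ 4 := by positivity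
  refine (LipschitzOnWith.of_dist_le_mul (K := Real.toNNReal (1 / (p.Bf p.ptop ^ 3 / p.U ^ 4))) ?_).continuousOn
  intro x hx y hy
  rw [Real.coe_toNNReal _ (by positivity), Real.dist_eq, Real.dist_eq, one_div, inv_mul_eq_div, le_div_iff₀ c0, mul_comm]
  exact skw_pf_wof_lip h hx hy

end coord

section mass

variable {p : SkwPF} (h : p.Ok)
include h

theorem skw_pf_Af_cont : ContinuousOn p.Af (Icc p.ptop 1) := by
  intro w hw
  apply ContinuousAt.continuousWithinAt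
  unfold SkwPF.Af
  have n1 : Real.sqrt (w - p.ptop + p.dm) ≠ 0 := (Real.sqrt_pos.2 (skw_pf_a_pos h hw.1)).ne'
  fun_prop (disch := assumption)

theorem skw_pf_Bf_cont : ContinuousOn p.Bf (Icc p.ptop 1) := by
  intro w hw
  apply ContinuousAt.continuousWithinAt
  unfold SkwPF.Bf
  have n1 : Real.sqrt (1 - w + p.dp) ≠ 0 := (Real.sqrt_pos.2 (skw_pf_b_pos h hw.2)).ne'
  fun_prop (disch := assumption)

theorem skw_pf_dz_cont : ContinuousOn p.dz (Icc p.ptop 1) := by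
  have e : EqOn p.dz (fun w => (p.Af w ^ 3 + p.Bf w ^ 3) / p.U ^ 4) (Icc p.ptop 1) := fun w hw => skw_pf_dz_eq h hw
  refine ContinuousOn.congr ?_ e
  exact (((skw_pf_Af_cont h).pow 3).add ((skw_pf_Bf_cont h).pow 3)).div_const _

theorem skw_pf_hw_cont : ContinuousOn p.hw (Icc p.ptop 1) :=
  ContinuousOn.sup (skw_pf_Af_cont h) (skw_pf_Bf_cont h)

theorem skw_pf_G_zof {w : ℝ} (hw : w ∈ Icc p.ptop 1) : p.G (p.zof w) = p.ell / p.dz w := by
  unfold SkwPF.G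
  rw [skw_pf_wof_zof h hw]

theorem skw_pf_hpl_zof {w : ℝ} (hw : w ∈ Icc p.ptop 1) : p.hpl (p.zof w) = p.hw w := by
  unfold SkwPF.hpl
  rw [skw_pf_wof_zof h hw]

theorem skw_pf_G_pos {z : ℝ} (hz : z ∈ Icc p.zs p.zmax) : 0 < p.G z := by
  unfold SkwPF.G
  exact div_pos (by linarith [h.l1]) (skw_pf_dz_pos h (skw_pf_wof_mem h hz))

theorem skw_pf_G_cont : ContinuousOn p.G (Icc p.zs p.zmax) := by
  unfold SkwPF.G
  refine ContinuousOn.div continuousOn_const ((skw_pf_dz_cont h).comp (skw_pf_wof_cont h) fun z hz => skw_pf_wof_mem h hz) ?_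
  intro z hz
  exact (skw_pf_dz_pos h (skw_pf_wof_mem h hz)).ne'

theorem skw_pf_hpl_cont : ContinuousOn p.hpl (Icc p.zs p.zmax) :=
  (skw_pf_hw_cont h).comp (skw_pf_wof_cont h) fun _ hz => skw_pf_wof_mem h hz

/-- change of variables `z = zof w` -/
theorem skw_pf_cov (g : ℝ → ℝ) (hg : ContinuousOn g (Icc p.zs p.zmax)) {w₁ w₂ : ℝ} (h1 : w₁ ∈ Icc p.ptop 1) (h2 : w₂ ∈ Icc p.ptop 1) :
    ∫ z in p.zof w₁..p.zof w₂, g z = ∫ w in w₁..w₂, g (p.zof w) * p.dz w := by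
  have hsub : uIcc w₁ w₂ ⊆ Icc p.ptop 1 := uIcc_subset_Icc h1 h2
  symm
  refine intervalIntegral.integral_comp_mul_deriv'' ((skw_pf_zof_cont h).mono hsub)
    (fun x hx => (skw_pf_zof_deriv h (hsub (Ioo_subset_Icc_self hx))).hasDerivWithinAt) ((skw_pf_dz_cont h).mono hsub) (hg.mono ?_)
  rintro _ ⟨w, hw, rfl⟩
  exact skw_pf_zof_mem h (hsub hw)

theorem skw_pf_mass_eq {z₁ z₂ : ℝ} (h1 : z₁ ∈ Icc p.zs p.zmax) (h2 : z₂ ∈ Icc p.zs p.zmax) :
    ∫ z in z₁..z₂, p.G z = p.ell * (p.wof z₂ - p.wof z₁) := by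
  have m1 := skw_pf_wof_mem h h1
  have m2 := skw_pf_wof_mem h h2
  have key := skw_pf_cov h p.G (skw_pf_G_cont h) m1 m2
  rw [skw_pf_zof_wof h h1, skw_pf_zof_wof h h2] at key
  rw [key]
  have hsub : uIcc (p.wof z₁) (p.wof z₂) ⊆ Icc p.ptop 1 := uIcc_subset_Icc m1 m2
  rw [intervalIntegral.integral_congr (g := fun _ => p.ell) (fun w hw => by
    show p.G (p.zof w) * p.dz w = p.ell
    rw [skw_pf_G_zof h (hsub hw)]
    exact div_mul_cancel₀ _ (skw_pf_dz_pos h (hsub hw)).ne')]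
  rw [intervalIntegral.integral_const, smul_eq_mul, mul_comm]

theorem skw_pf_Af_anti_le {w₁ w₂ : ℝ} (h1 : p.ptop ≤ w₁) (h12 : w₁ ≤ w₂) : p.Af w₂ ≤ p.Af w₁ := by
  rcases h12.eq_or_lt with e | e
  · rw [e]
  · exact (skw_pf_Af_anti h h1 e).le

theorem skw_pf_Bf_mono_le {w₁ w₂ : ℝ} (h12 : w₁ ≤ w₂) (h2 : w₂ ≤ 1) : p.Bf w₁ ≤ p.Bf w₂ := by
  rcases h12.eq_or_lt with e | e
  · rw [e]
  · exact (skw_pf_Bf_mono h e h2).le

theorem skw_pf_hw_lip {w₁ w₂ : ℝ} (h1 : p.ptop ≤ w₁) (h12 : w₁ ≤ w₂) (h2 : w₂ ≤ 1) :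
    |p.hw w₁ - p.hw w₂| ≤ (p.zof w₂ - p.zof w₁) / 2 := by
  have e := skw_pf_zof_diff (p := p) w₁ w₂
  have a := skw_pf_Af_anti_le h h1 h12
  have b := skw_pf_Bf_mono_le h h12 h2
  rw [skw_pf_hw_eq, skw_pf_hw_eq]
  refine (abs_max_sub_max_le_max _ _ _ _).trans (max_le ?_ ?_)
  · rw [abs_of_nonneg (sub_nonneg.2 a)]
    linarith
  · rw [abs_sub_comm, abs_of_nonneg (sub_nonneg.2 b)]
    linarith

theorem skw_pf_hlip {z z' : ℝ} (h1 : z ∈ Icc p.zs p.zmax) (h2 : z' ∈ Icc p.zs p.zmax) : |p.hpl z - p.hpl z'| ≤ |z - z'| / 2 := by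
  have m1 := skw_pf_wof_mem h h1
  have m2 := skw_pf_wof_mem h h2
  have e1 := skw_pf_zof_wof h h1
  have e2 := skw_pf_zof_wof h h2
  unfold SkwPF.hpl
  rcases le_total (p.wof z) (p.wof z') with hle | hle
  · have := skw_pf_hw_lip h m1.1 hle m2.2
    rw [e1, e2] at this
    refine this.trans ?_
    have := neg_abs_le (z - z')
    linarith
  · have := skw_pf_hw_lip h m2.1 hle m1.2
    rw [e1, e2] at this
    rw [abs_sub_comm]
    refine this.trans ?_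
    have := le_abs_self (z - z')
    linarith

theorem skw_pf_wof_zs : p.wof p.zs = p.ptop := by
  have := skw_pf_wof_zof h (w := p.ptop) ⟨le_rfl, h.pt1.le⟩
  rwa [skw_pf_zof_ptop] at this

theorem skw_pf_wof_zmax : p.wof p.zmax = 1 := skw_pf_wof_zof h (w := 1) ⟨h.pt1.le, le_rfl⟩

theorem skw_pf_hw_le_one {w : ℝ} (hw : w ∈ Icc p.ptop 1) : p.hw w ≤ 1 := by
  rw [skw_pf_hw_eq]
  refine max_le ?_ ?_
  · have := skw_pf_Af_anti_le h le_rfl hw.1
    rw [skw_pf_Af_ptop h] at this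
    exact this.trans h.E1
  · have := skw_pf_Bf_mono_le h hw.2 le_rfl
    rwa [skw_pf_Bf_one h] at this

theorem skw_pf_htop : p.hpl p.zmax = 1 := by
  unfold SkwPF.hpl
  rw [skw_pf_wof_zmax h]
  refine le_antisymm (skw_pf_hw_le_one h ⟨h.pt1.le, le_rfl⟩) ?_
  rw [skw_pf_hw_eq, skw_pf_Bf_one h]
  exact le_max_right _ _

/-- `G 𝔥³ = ℓ U⁴ max(A,B)³/(A³+B³)` -/
theorem skw_pf_Gh {z : ℝ} (hz : z ∈ Icc p.zs p.zmax) :
    p.ell * p.U ^ 4 / 2 ≤ p.G z * p.hpl z ^ 3 ∧ p.G z * p.hpl z ^ 3 ≤ p.ell * p.U ^ 4 := by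
  have m := skw_pf_wof_mem h hz
  unfold SkwPF.G SkwPF.hpl
  rw [skw_pf_dz_eq h m, skw_pf_hw_eq]
  obtain ⟨a, ha⟩ : ∃ a, a = p.Af (p.wof z) := ⟨_, rfl⟩
  obtain ⟨b, hb⟩ : ∃ b, b = p.Bf (p.wof z) := ⟨_, rfl⟩
  have a0 : 0 < a := by rw [ha]; exact skw_pf_Af_pos h m.1
  have b0 : 0 < b := by rw [hb]; exact skw_pf_Bf_pos h m.2
  rw [← ha, ← hb]
  have hU := h.U0
  have hl : 0 < p.ell := by linarith [h.l1]
  have S0 : 0 < a ^ 3 + b ^ 3 := by positivity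
  have e : p.ell / ((a ^ 3 + b ^ 3) / p.U ^ 4) * max a b ^ 3 = p.ell * p.U ^ 4 * (max a b ^ 3 / (a ^ 3 + b ^ 3)) := by
    field_simp
  rw [e]
  have lo : 1 / 2 ≤ max a b ^ 3 / (a ^ 3 + b ^ 3) := by
    rw [le_div_iff₀ S0]
    have h1 := pow_le_pow_left₀ a0.le (le_max_left a b) 3
    have h2 := pow_le_pow_left₀ b0.le (le_max_right a b) 3
    linarith
  have hi : max a b ^ 3 / (a ^ 3 + b ^ 3) ≤ 1 := by
    rw [div_le_one S0]
    rcases le_total a b with hab | hab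
    · rw [max_eq_right hab]
      have := pow_pos a0 3
      linarith
    · rw [max_eq_left hab]
      have := pow_pos b0 3
      linarith
  have c0 : 0 < p.ell * p.U ^ 4 := by positivity
  constructor
  · have := mul_le_mul_of_nonneg_left lo c0.le
    linarith
  · have := mul_le_mul_of_nonneg_left hi c0.le
    linarith

theorem skw_pf_up {z : ℝ} (hz : z ∈ Icc p.zs p.zmax) : p.U ^ 4 ≤ p.hpl z ^ 2 * ((∫ s in z..p.zmax, p.G s) + p.U ^ 4) := by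
  have m := skw_pf_wof_mem h hz
  have hzm : p.zmax ∈ Icc p.zs p.zmax := ⟨hz.1.trans hz.2, le_rfl⟩
  rw [skw_pf_mass_eq h hz hzm, skw_pf_wof_zmax h]
  have b0 := skw_pf_Bf_pos h m.2
  have e := skw_pf_Bf_sq h m.2
  have h1 : p.Bf (p.wof z) ^ 2 ≤ p.hpl z ^ 2 := pow_le_pow_left₀ b0.le (le_max_right _ _) 2
  have h2 : 1 - p.wof z + p.dp ≤ p.ell * (1 - p.wof z) + p.U ^ 4 := by
    have : (1 - p.wof z) ≤ p.ell * (1 - p.wof z) := le_mul_of_one_le_left (by linarith [m.2]) h.l1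
    unfold SkwPF.dp
    linarith
  calc p.U ^ 4 = p.Bf (p.wof z) ^ 2 * (1 - p.wof z + p.dp) := e.symm
    _ ≤ p.hpl z ^ 2 * (p.ell * (1 - p.wof z) + p.U ^ 4) := mul_le_mul h1 h2 (skw_pf_b_pos h m.2).le (by positivity)

theorem skw_pf_dn {z : ℝ} (hz : z ∈ Icc p.zs p.zmax) : p.U ^ 4 ≤ p.hpl z ^ 2 * ((∫ s in p.zs..z, p.G s) + p.U ^ 4 / p.E ^ 2) := by
  have m := skw_pf_wof_mem h hz
  have hzm : p.zs ∈ Icc p.zs p.zmax := ⟨le_rfl, hz.1.trans hz.2⟩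
  rw [skw_pf_mass_eq h hzm hz, skw_pf_wof_zs h]
  have a0 := skw_pf_Af_pos h m.1
  have e := skw_pf_Af_sq h m.1
  have h1 : p.Af (p.wof z) ^ 2 ≤ p.hpl z ^ 2 := pow_le_pow_left₀ a0.le (le_max_left _ _) 2
  have h2 : p.wof z - p.ptop + p.dm ≤ p.ell * (p.wof z - p.ptop) + p.U ^ 4 / p.E ^ 2 := by
    have : (p.wof z - p.ptop) ≤ p.ell * (p.wof z - p.ptop) := le_mul_of_one_le_left (by linarith [m.1]) h.l1
    unfold SkwPF.dm
    linarith
  calc p.U ^ 4 = p.Af (p.wof z) ^ 2 * (p.wof z - p.ptop + p.dm) := e.symm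
    _ ≤ p.hpl z ^ 2 * (p.ell * (p.wof z - p.ptop) + p.U ^ 4 / p.E ^ 2) := mul_le_mul h1 h2 (skw_pf_a_pos h m.1).le (by positivity)

end mass

section quant

variable {p : SkwPF} (h : p.Ok)
include h

/-- `B(p_top)² ≤ U⁴/(1 - p_top)` -/
theorem skw_pf_Bf_ptop_sq : p.Bf p.ptop ^ 2 * (1 - p.ptop) ≤ p.U ^ 4 := by
  have e := skw_pf_Bf_sq h h.pt1.le
  have := skw_pf_dp_pos h
  have b2 : 0 ≤ p.Bf p.ptop ^ 2 := by positivity
  nlinarith

/-- `B(p_top) ≤ K` as soon as `U⁴ ≤ K² (1 - p_top)` -/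
theorem skw_pf_Bf_ptop_le {K : ℝ} (hK : 0 ≤ K) (hU : p.U ^ 4 ≤ K ^ 2 * (1 - p.ptop)) : p.Bf p.ptop ≤ K := by
  have b0 := skw_pf_Bf_pos h h.pt1.le
  have d0 : 0 < 1 - p.ptop := by linarith [h.pt1]
  have h1 : p.Bf p.ptop ^ 2 * (1 - p.ptop) ≤ K ^ 2 * (1 - p.ptop) := (skw_pf_Bf_ptop_sq h).trans hU
  have h2 : p.Bf p.ptop ^ 2 ≤ K ^ 2 := le_of_mul_le_mul_right h1 d0
  exact (pow_le_pow_iff_left₀ b0.le hK (by norm_num)).1 h2

theorem skw_pf_len_hi : p.zmax ≤ p.zs + 4 := by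
  unfold SkwPF.zmax
  rw [skw_pf_zof_eq, skw_pf_Bf_one h, skw_pf_Af_ptop h]
  have := skw_pf_Bf_pos h h.pt1.le
  have := skw_pf_Af_pos h h.pt1.le
  have := h.E1
  linarith

theorem skw_pf_len_lo (hB : p.Bf p.ptop ≤ 1 / 2) : p.zs + 1 ≤ p.zmax := by
  unfold SkwPF.zmax
  rw [skw_pf_zof_eq, skw_pf_Bf_one h]
  have := skw_pf_Af_anti_le h le_rfl h.pt1.le
  linarith

/-- the antiderivative of `A² + B²` -/
theorem skw_pf_prim {w : ℝ} (hw : w ∈ Icc p.ptop 1) :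
    HasDerivAt (fun w => p.U ^ 4 * (Real.log (w - p.ptop + p.dm) - Real.log (1 - w + p.dp))) (p.Af w ^ 2 + p.Bf w ^ 2) w := by
  have ha := skw_pf_a_pos h hw.1
  have hb := skw_pf_b_pos h hw.2
  have db : HasDerivAt (fun w : ℝ => 1 - w + p.dp) (-1) w := by
    simpa using ((hasDerivAt_id w).const_sub 1).add_const p.dp
  have da : HasDerivAt (fun w : ℝ => w - p.ptop + p.dm) 1 w := by
    simpa using ((hasDerivAt_id w).sub_const p.ptop).add_const p.dm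
  have key := ((da.log ha.ne').sub (db.log hb.ne')).const_mul (p.U ^ 4)
  refine key.congr_deriv ?_
  have e1 := skw_pf_Af_sq h hw.1
  have e2 := skw_pf_Bf_sq h hw.2
  rw [← eq_div_iff ha.ne'] at e1
  rw [← eq_div_iff hb.ne'] at e2
  rw [e1, e2]
  field_simp
  ring

/-- the squared budget in the coordinate `w` -/
theorem skw_pf_bud_w (hU1 : p.U ≤ 1) : ∫ w in p.ptop..1, p.ell * p.hw w ^ 2 ≤ 16 * (1 + Real.log (1 / p.U)) * p.U ^ 4 := by
  have hU := h.U0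
  have hsub : uIcc p.ptop 1 = Icc p.ptop 1 := uIcc_of_le h.pt1.le
  have cAB : ContinuousOn (fun w => p.Af w ^ 2 + p.Bf w ^ 2) (Icc p.ptop 1) := ((skw_pf_Af_cont h).pow 2).add ((skw_pf_Bf_cont h).pow 2)
  have iAB : IntervalIntegrable (fun w => p.Af w ^ 2 + p.Bf w ^ 2) volume p.ptop 1 := by
    apply ContinuousOn.intervalIntegrable
    rwa [hsub]
  have ftc := intervalIntegral.integral_eq_sub_of_hasDerivAt (a := p.ptop) (b := 1)
    (f := fun w => p.U ^ 4 * (Real.log (w - p.ptop + p.dm) - Real.log (1 - w + p.dp))) (f' := fun w => p.Af w ^ 2 + p.Bf w ^ 2)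
    (fun w hw => skw_pf_prim h (by rwa [hsub] at hw)) iAB
  have ihw : IntervalIntegrable (fun w => p.ell * p.hw w ^ 2) volume p.ptop 1 := by
    apply ContinuousOn.intervalIntegrable
    rw [hsub]
    exact continuousOn_const.mul ((skw_pf_hw_cont h).pow 2)
  have mono : ∫ w in p.ptop..1, p.ell * p.hw w ^ 2 ≤ ∫ w in p.ptop..1, 2 * (p.Af w ^ 2 + p.Bf w ^ 2) := by
    refine intervalIntegral.integral_mono_on h.pt1.le ihw (iAB.const_mul 2) fun w hw => ?_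
    have a0 := skw_pf_Af_pos h hw.1
    have b0 := skw_pf_Bf_pos h hw.2
    have h1 : p.hw w ^ 2 ≤ p.Af w ^ 2 + p.Bf w ^ 2 := by
      rw [skw_pf_hw_eq]
      rcases le_total (p.Af w) (p.Bf w) with hab | hab
      · rw [max_eq_right hab]
        have := pow_pos a0 2
        linarith
      · rw [max_eq_left hab]
        have := pow_pos b0 2
        linarith
    have h0 : 0 ≤ p.hw w ^ 2 := by positivity
    have := h.l2
    nlinarith
  have e2 : ∫ w in p.ptop..1, 2 * (p.Af w ^ 2 + p.Bf w ^ 2) = 2 * ∫ w in p.ptop..1, (p.Af w ^ 2 + p.Bf w ^ 2) :=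
    intervalIntegral.integral_const_mul _ _
  rw [e2, ftc] at mono
  refine mono.trans ?_
  simp only [sub_self, zero_add]
  -- the logarithms
  have dp0 := skw_pf_dp_pos h
  have dm0 := skw_pf_dm_pos h
  have dle := skw_pf_dp_le_dm h
  have d0 : 0 < 1 - p.ptop := by linarith [h.pt1]
  have d1 : 1 - p.ptop ≤ 1 := by linarith [h.pt0]
  have ldp : Real.log p.dp = -(4 * Real.log (1 / p.U)) := by
    unfold SkwPF.dp
    rw [Real.log_pow, one_div, Real.log_inv]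
    push_cast
    ring
  have dp1 : p.dp ≤ 1 := by
    unfold SkwPF.dp
    exact pow_le_one₀ hU.le hU1
  have l2 : Real.log 2 ≤ 1 := by
    have := Real.log_two_lt_d9
    linarith
  have L1 : Real.log (1 - p.ptop + p.dp) ≤ Real.log 2 := Real.log_le_log (by linarith) (by linarith)
  have L2 : Real.log (1 - p.ptop + p.dm) - Real.log p.dm ≤ Real.log 2 - Real.log p.dp := by
    rw [← Real.log_div (by linarith : (1 - p.ptop + p.dm) ≠ 0) dm0.ne', ← Real.log_div (by norm_num) dp0.ne']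
    refine Real.log_le_log (by positivity) ?_
    rw [div_le_div_iff₀ dm0 dp0]
    nlinarith
  have hlog0 : 0 ≤ Real.log (1 / p.U) := Real.log_nonneg (by rw [le_div_iff₀ hU]; linarith)
  have U4 : 0 < p.U ^ 4 := by positivity
  have tot : (Real.log (1 - p.ptop + p.dm) - Real.log p.dp) - (Real.log p.dm - Real.log (1 - p.ptop + p.dp)) ≤ 8 * (1 + Real.log (1 / p.U)) := by
    rw [ldp] at L2 ⊢
    linarith
  have := mul_le_mul_of_nonneg_left tot U4.le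
  linarith

theorem skw_pf_bud (hU1 : p.U ≤ 1) : ∫ z in p.zs..p.zmax, p.G z * p.hpl z ^ 2 ≤ 16 * (1 + Real.log (1 / p.U)) * p.U ^ 4 := by
  have m1 : p.ptop ∈ Icc p.ptop 1 := ⟨le_rfl, h.pt1.le⟩
  have m2 : (1 : ℝ) ∈ Icc p.ptop 1 := ⟨h.pt1.le, le_rfl⟩
  have key := skw_pf_cov h (fun z => p.G z * p.hpl z ^ 2) ((skw_pf_G_cont h).mul ((skw_pf_hpl_cont h).pow 2)) m1 m2
  rw [skw_pf_zof_ptop] at key
  have e : p.zof 1 = p.zmax := rfl
  rw [e] at key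
  rw [key]
  have hsub : uIcc p.ptop 1 = Icc p.ptop 1 := uIcc_of_le h.pt1.le
  rw [intervalIntegral.integral_congr (g := fun w => p.ell * p.hw w ^ 2) (fun w hw => by
    rw [hsub] at hw
    show p.G (p.zof w) * p.hpl (p.zof w) ^ 2 * p.dz w = p.ell * p.hw w ^ 2
    rw [skw_pf_G_zof h hw, skw_pf_hpl_zof h hw]
    have := (skw_pf_dz_pos h hw).ne'
    field_simp)]
  exact skw_pf_bud_w h hU1

end quant

/-- **Leaf PLF** -/
theorem skw_leaf_pf : SkwLeafPF := by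
  intro ptop M0 hp0 hp1 hM0
  have d0 : 0 < 1 - ptop := by linarith
  have hq : 0 < (M0 + 4) / (1 - ptop) := by positivity
  refine ⟨16 + (M0 + 4) / (1 - ptop), by linarith, ?_⟩
  intro p hpt hl1 hl2 hU0 hUC hE0 hE1 hUE
  obtain ⟨Cp, hCp⟩ : ∃ Cp, Cp = 16 + (M0 + 4) / (1 - ptop) := ⟨_, rfl⟩
  rw [← hCp] at hUC ⊢
  have hCp16 : 16 ≤ Cp := by rw [hCp]; linarith
  have h : p.Ok := ⟨hU0, hE0, hE1, by rw [hpt]; exact hp0, by rw [hpt]; exact hp1, hl1, hl2⟩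
  have hCp0 : 0 < Cp := by linarith
  have hU1 : p.U ≤ 1 := hUC.trans (by rw [div_le_one hCp0]; linarith)
  -- `Cp (1 - ptop) ≥ M0 + 4`
  have hCd : M0 + 4 ≤ Cp * (1 - ptop) := by
    rw [hCp, add_mul, div_mul_cancel₀ _ d0.ne']
    nlinarith
  have hUCp : p.U * Cp ≤ 1 := by rwa [le_div_iff₀ hCp0] at hUC
  have U4 : p.U ^ 4 ≤ p.U := by
    calc p.U ^ 4 = p.U * p.U ^ 3 := by ring
      _ ≤ p.U * 1 := mul_le_mul_of_nonneg_left (pow_le_one₀ hU0.le hU1) hU0.le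
      _ = p.U := mul_one _
  -- `B(p_top) ≤ 1/2`
  have hB : p.Bf p.ptop ≤ 1 / 2 := by
    refine skw_pf_Bf_ptop_le h (by norm_num) ?_
    rw [hpt]
    have h1 : p.U * (M0 + 4) ≤ 1 - ptop := by
      calc p.U * (M0 + 4) ≤ p.U * (Cp * (1 - ptop)) := mul_le_mul_of_nonneg_left hCd hU0.le
        _ = (p.U * Cp) * (1 - ptop) := by ring
        _ ≤ 1 * (1 - ptop) := mul_le_mul_of_nonneg_right hUCp d0.le
        _ = 1 - ptop := one_mul _
    nlinarith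
  -- `B(p_top) ≤ Cp E`
  have hBE : p.Bf p.ptop ≤ Cp * p.E := by
    refine skw_pf_Bf_ptop_le h (by positivity) ?_
    rw [hpt]
    have e3 : p.E ^ 3 ≤ p.E ^ 2 := by
      calc p.E ^ 3 = p.E ^ 2 * p.E := by ring
        _ ≤ p.E ^ 2 * 1 := mul_le_mul_of_nonneg_left hE1 (by positivity)
        _ = p.E ^ 2 := mul_one _
    have E2 : 0 ≤ p.E ^ 2 := by positivity
    calc p.U ^ 4 ≤ M0 * p.E ^ 3 := hUE
      _ ≤ M0 * p.E ^ 2 := mul_le_mul_of_nonneg_left e3 (by linarith)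
      _ ≤ (Cp * (1 - ptop)) * p.E ^ 2 := mul_le_mul_of_nonneg_right (by linarith) E2
      _ ≤ (Cp * (Cp * (1 - ptop))) * p.E ^ 2 := by
          refine mul_le_mul_of_nonneg_right ?_ E2
          exact le_mul_of_one_le_left (by positivity) (by linarith)
      _ = (Cp * p.E) ^ 2 * (1 - ptop) := by ring
  have hlog0 : 0 ≤ Real.log (1 / p.U) := Real.log_nonneg (by rw [le_div_iff₀ hU0]; linarith)
  refine
    { zof_ptop := skw_pf_zof_ptop
      zof_mono := skw_pf_zof_strictMono h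
      zof_deriv := fun w hw => skw_pf_zof_deriv h hw
      wof_zof := fun w hw => skw_pf_wof_zof h hw
      zof_wof := fun z hz => skw_pf_zof_wof h hz
      wof_mem := fun z hz => skw_pf_wof_mem h hz
      wof_cont := skw_pf_wof_cont h
      G_pos := fun z hz => skw_pf_G_pos h hz
      G_cont := skw_pf_G_cont h
      mass_eq := fun z₁ h1 z₂ h2 => skw_pf_mass_eq h h1 h2
      hlip := fun z h1 z' h2 => skw_pf_hlip h h1 h2
      hjoin_lo := ?_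
      hjoin_hi := ?_
      hup := fun z hz => skw_pf_hw_le_one h (skw_pf_wof_mem h hz)
      htop := skw_pf_htop h
      Gh_lo := fun z hz => (skw_pf_Gh h hz).1
      Gh_hi := fun z hz => (skw_pf_Gh h hz).2
      len_lo := skw_pf_len_lo h hB
      len_hi := skw_pf_len_hi h
      bud := ?_
      up := fun z hz => skw_pf_up h hz
      dn := fun z hz => skw_pf_dn h hz }
  · unfold SkwPF.hpl
    rw [skw_pf_wof_zs h, skw_pf_hw_eq, skw_pf_Af_ptop h]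
    exact le_max_left _ _
  · unfold SkwPF.hpl
    rw [skw_pf_wof_zs h, skw_pf_hw_eq, skw_pf_Af_ptop h]
    exact max_le (le_mul_of_one_le_left hE0.le (by linarith)) hBE
  · refine (skw_pf_bud h hU1).trans ?_
    have : 0 ≤ (1 + Real.log (1 / p.U)) * p.U ^ 4 := by positivity
    nlinarith

end Claimed.Agent.R286
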