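import Claimed.Agent.R286.W.InstLlA
import Claimed.Agent.R286.W.InstG
import Claimed.Agent.R286.W.InstV
import Claimed.Agent.R286.W.PF

/-!
# Row 286, folder W, file InstLlC : (D3), the field slope in the coordinate `z`      (contract helper246; PROVED by helper83, no open goal here; prefix `skw_llc_`)
See the docstring of `SkwLlD3` in W/InstLl.lean.   `SkwLlcCtx` = the conclusions of IN-G, IN-E, PLF, IN-V, LL-EB, LL-XI for one direct point (reusable by InstLlB).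
* plateau (`skw_llc_plat`): `h_*` constant (`K`, `q` by LL-XI, `b` by `8 v_b ≤ p_top`: `skw_llc_b_const`), `H_lo`, `H_lin` nondecreasing,
  EXACT identity `H_e(w₂) - H_e(w₁) = λ_1 (z(w₂) - z(w₁))/2` (`skw_llc_HePl_sub`);
* active side (`skw_llc_act`): (P4) with `K(v(z)) = z/ℓ²`, `v(z) ≥ cv r(z)`; ramp: `H_e(v(z)) = ramp(z) H_e(p_top)`, `H_e(p_top) ≥ -λ_1 E_b`;
* `c0 = c4 cv²/8`; `λ_1 = λ λ^η ≤ λ c4 (cv r_m)²/8` for `N ≥ N0` (`skw_llc_small`), `r_m = min(ξ_*/2, 1)`; split at `ξ_* - E_b`.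
-/

set_option autoImplicit false

namespace Claimed.Agent.R286

open Set MeasureTheory Filter Topology

theorem skw_llc_x_pos {p : LlPt} {F : LlFix} (hp : p.Ok F) : 0 < p.x := by
  unfold LlPt.x
  have : (0 : ℝ) < p.N := by
    have := hp.N2
    positivity
  exact Real.rpow_pos_of_pos this _

theorem skw_llc_lam_pos {p : LlPt} {F : LlFix} (hp : p.Ok F) : 0 < p.lam :=
  lt_of_lt_of_le (Real.rpow_pos_of_pos (skw_llc_x_pos hp) _) hp.lam_lo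

theorem skw_llc_ell2 {p : LlPt} {F : LlFix} (hp : p.Ok F) : p.ell ≤ 2 := by
  refine hp.ell2.trans ?_
  calc (2 : ℝ) ^ (1 / 6 : ℝ) ≤ (2 : ℝ) ^ (1 : ℝ) := Real.rpow_le_rpow_of_exponent_le (by norm_num) (by norm_num)
    _ = 2 := Real.rpow_one 2

/-- powers of the strength are small for large `N` -/
theorem skw_llc_small (F : LlFix) (hpS : 0 < F.pS) (e δ : ℝ) (he : 0 < e) (hδ : 0 < δ) :
    ∃ N0 : ℕ, ∀ p : LlPt, p.Ok F → N0 ≤ p.N → p.lam ^ e ≤ δ := by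
  have hy : 0 < 1 / 6 * F.pS * e := by positivity
  have h1 : Tendsto (fun n : ℕ => (n : ℝ) ^ (-(1 / 6 * F.pS * e))) atTop (𝓝 0) :=
    (tendsto_rpow_neg_atTop hy).comp tendsto_natCast_atTop_atTop
  have h2 : ∀ᶠ n : ℕ in atTop, (n : ℝ) ^ (-(1 / 6 * F.pS * e)) ≤ δ := h1.eventually_le_const hδ
  obtain ⟨N0, hN0⟩ := eventually_atTop.1 h2
  refine ⟨N0, fun p hp hN => ?_⟩
  have hl := skw_llc_lam_pos hp
  have hN0' : (0 : ℝ) ≤ p.N := Nat.cast_nonneg _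
  calc p.lam ^ e ≤ (p.x ^ F.pS) ^ e := Real.rpow_le_rpow hl.le hp.lam_hi he.le
    _ = (p.N : ℝ) ^ (-(1 / 6 * F.pS * e)) := by
        unfold LlPt.x
        rw [← Real.rpow_mul hN0', ← Real.rpow_mul hN0']
        congr 1
        ring
    _ ≤ δ := hN0 p.N hN

/-- the matrix clock is constant above `2 v_b` -/
theorem skw_llc_b_const (𝔹 : LlBase) {F : LlFix} (hF : F.Ok) {p : LlPt} (hp : p.Ok F) {v v' : ℝ} (hv : 2 * F.vb ≤ v)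
    (hv' : 2 * F.vb ≤ v') : p.b F 𝔹 v = p.b F 𝔹 v' := by
  have hvb := hF.vb0
  have hx := skw_llc_x_pos hp
  have hG : ∀ u, 2 * F.vb ≤ u → p.G F u = F.vb ^ 2 * F.G1 2 := by
    intro u hu
    unfold LlPt.G
    rw [if_neg (by linarith), hF.G1_const (u / F.vb) (by rw [le_div_iff₀ hvb]; linarith)]
  have hD : ∀ u, 2 * F.vb ≤ u → p.dySum F u = 0 := by
    intro u hu
    unfold LlPt.dySum
    refine finsum_eq_zero_of_forall_eq_zero ?_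
    intro k
    split_ifs with hk
    · have hk1 : 0 < (2 : ℝ)⁻¹ ^ k := by positivity
      have : F.phi (u / (2 : ℝ)⁻¹ ^ k) = 0 := by
        refine hF.phi_supp _ ?_
        intro hmem
        have h4 := hmem.2
        rw [div_le_iff₀ hk1] at h4
        have := hk.2
        linarith
      rw [this, mul_zero]
    · rfl
  unfold LlPt.b
  rw [hG v hv, hG v' hv', hD v hv, hD v' hv']

theorem skw_llc_Hlo_mono {F : LlFix} {p : LlPt} (hp : p.Ok F) {v v' : ℝ} (hv : 0 < v) (hvv : v ≤ v') :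
    p.Hlo F v ≤ p.Hlo F v' := by
  have hx := skw_llc_x_pos hp
  have hl := skw_llc_lam_pos hp
  have hell : 0 < p.ell := by linarith [hp.ell1]
  have hU : 0 ≤ p.U F := by
    unfold LlPt.U
    exact le_min zero_le_one (mul_nonneg hx.le (Real.rpow_nonneg hl.le _))
  have hl1 : 0 ≤ p.lam1 F := Real.rpow_nonneg hl.le _
  unfold LlPt.Hlo
  refine mul_le_mul_of_nonneg_left ?_ (mul_nonneg hl1 (pow_nonneg hU 3))
  refine Real.log_le_log (div_pos (lt_min hv hell) hx) ?_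
  exact div_le_div_of_nonneg_right (min_le_min_right _ hvv) hx.le

theorem skw_llc_Hlin_mono {F : LlFix} {p : LlPt} (hp : p.Ok F) {v v' : ℝ} (hvv : v ≤ v') :
    p.Hlin F v ≤ p.Hlin F v' := by
  have hx := skw_llc_x_pos hp
  unfold LlPt.Hlin
  refine mul_le_mul_of_nonneg_left ?_ (pow_nonneg hx.le 3)
  exact max_le_max_left _ (sub_le_sub_right (min_le_min_right _ hvv) _)

/-- `t^(-1/2) = 1/√t` -/
theorem skw_llc_rpow {t : ℝ} (ht : 0 < t) : t ^ (-(1 / 2) : ℝ) = 1 / Real.sqrt t := by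
  rw [Real.rpow_neg ht.le, Real.sqrt_eq_rpow]
  exact (one_div _).symm

/-- the context of one direct point: conclusions of the leaves IN-G, PLF, IN-V, LL-EB, LL-XI -/
structure SkwLlcCtx (𝔹 : LlBase) (F : LlFix) (At : ℝ → ℝ) (cA : ℝ) (p : LlPt) (i : SkwIn) (Cp cv : ℝ) : Prop where
  hp : p.Ok F
  fix : F.Ok
  sm : p.sm = false
  iell : i.ell = p.ell
  ilam : i.lam = p.lam
  iU : i.U = p.U F
  iE : i.E = p.Eb F 𝔹
  U0 : 0 < p.U F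
  Ut : p.Ut F = p.U F
  Ups : F.Ups (p.U F) = 1
  E0 : 0 < p.Eb F 𝔹
  L0 : 0 < 𝔹.xiS F.T
  pt0 : 0 < 𝔹.pTop F.T
  pt1 : 𝔹.pTop F.T < 1
  mono : StrictMonoOn (skwInA (skwLlProf 𝔹 F At cA) i) (Icc 0 (𝔹.xiS F.T))
  top : skwInA (skwLlProf 𝔹 F At cA) i (𝔹.xiS F.T) = 𝔹.pTop F.T
  pf : SkwPFConcl Cp (i.pf (skwLlProf 𝔹 F At cA))
  v : SkwInVConcl cv (skwLlProf 𝔹 F At cA) i
  xi : ∀ z ∈ Icc 0 (i.pf (skwLlProf 𝔹 F At cA)).zmax,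
      p.xi F 𝔹 (skwInV (skwLlProf 𝔹 F At cA) i z) = min z (𝔹.xiS F.T) ∧
      p.K F 𝔹 (skwInV (skwLlProf 𝔹 F At cA) i z) = (p.ell ^ 2)⁻¹ * min z (𝔹.xiS F.T) ∧
      p.q F 𝔹 (skwInV (skwLlProf 𝔹 F At cA) i z) = p.GamN F 𝔹 (min z (𝔹.xiS F.T))
  vb8 : 8 * F.vb ≤ 𝔹.pTop F.T

section ctx

variable {𝔹 : LlBase} {F : LlFix} {At : ℝ → ℝ} {cA : ℝ} {p : LlPt} {i : SkwIn} {Cp cv : ℝ}

/-- EXACT identity on the plateau: `H_e(w₂) - H_e(w₁) = λ_1 (z(w₂) - z(w₁)) / 2` -/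
theorem skw_llc_HePl_sub (X : SkwLlcCtx 𝔹 F At cA p i Cp cv) {w₁ w₂ : ℝ} (h1 : w₁ ∈ Icc (𝔹.pTop F.T) 1)
    (h2 : w₂ ∈ Icc (𝔹.pTop F.T) 1) :
    p.HePl F 𝔹 w₂ - p.HePl F 𝔹 w₁
      = p.lam1 F / 2 * ((i.pf (skwLlProf 𝔹 F At cA)).zof w₂ - (i.pf (skwLlProf 𝔹 F At cA)).zof w₁) := by
  have hu : 0 < p.U F ^ 4 := pow_pos X.U0 4
  have hd : 0 < p.U F ^ 4 / p.Eb F 𝔹 ^ 2 := div_pos hu (pow_pos X.E0 2)
  have a1 : 0 < 1 - w₁ + p.U F ^ 4 := by linarith [h1.2]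
  have a2 : 0 < 1 - w₂ + p.U F ^ 4 := by linarith [h2.2]
  have b1 : 0 < w₁ - 𝔹.pTop F.T + p.U F ^ 4 / p.Eb F 𝔹 ^ 2 := by linarith [h1.1]
  have b2 : 0 < w₂ - 𝔹.pTop F.T + p.U F ^ 4 / p.Eb F 𝔹 ^ 2 := by linarith [h2.1]
  have e1 : (i.pf (skwLlProf 𝔹 F At cA)).U = p.U F := X.iU
  have e2 : (i.pf (skwLlProf 𝔹 F At cA)).E = p.Eb F 𝔹 := X.iE
  have e3 : (i.pf (skwLlProf 𝔹 F At cA)).ptop = 𝔹.pTop F.T := rfl
  unfold LlPt.HePl LlPt.dPl LlPt.dMi SkwPF.zof SkwPF.dp SkwPF.dm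
  rw [X.Ut, X.Ups, e1, e2, e3, skw_llc_rpow a1, skw_llc_rpow a2, skw_llc_rpow b1, skw_llc_rpow b2]
  ring

/-- the value at the join is `≥ -λ_1 E_b` -/
theorem skw_llc_HePl_top (X : SkwLlcCtx 𝔹 F At cA p i Cp cv) : -(p.lam1 F * p.Eb F 𝔹) ≤ p.HePl F 𝔹 (𝔹.pTop F.T) := by
  have hu : 0 < p.U F ^ 4 := pow_pos X.U0 4
  have hd : 0 < p.U F ^ 4 / p.Eb F 𝔹 ^ 2 := div_pos hu (pow_pos X.E0 2)
  have a1 : 0 < 1 - 𝔹.pTop F.T + p.U F ^ 4 := by linarith [X.pt1]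
  have hl1 : 0 ≤ p.lam1 F := Real.rpow_nonneg (skw_llc_lam_pos X.hp).le _
  have hs : Real.sqrt (p.U F ^ 4 / p.Eb F 𝔹 ^ 2) = p.U F ^ 2 / p.Eb F 𝔹 := by
    rw [show p.U F ^ 4 / p.Eb F 𝔹 ^ 2 = (p.U F ^ 2 / p.Eb F 𝔹) ^ 2 by rw [div_pow]; ring]
    exact Real.sqrt_sq (div_nonneg (sq_nonneg _) X.E0.le)
  unfold LlPt.HePl LlPt.dPl LlPt.dMi
  rw [X.Ut, X.Ups, sub_self, zero_add, skw_llc_rpow a1, skw_llc_rpow hd, hs]
  have hU2 : p.U F ^ 2 ≠ 0 := (pow_pos X.U0 2).ne'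
  have e1 : p.U F ^ 2 * (p.Eb F 𝔹 / p.U F ^ 2) = p.Eb F 𝔹 := mul_div_cancel₀ _ hU2
  have e : p.lam1 F * 1 * p.U F ^ 2 * (1 / Real.sqrt (1 - 𝔹.pTop F.T + p.U F ^ 4) - 1 / (p.U F ^ 2 / p.Eb F 𝔹))
      = p.lam1 F * p.U F ^ 2 * (1 / Real.sqrt (1 - 𝔹.pTop F.T + p.U F ^ 4)) - p.lam1 F * p.Eb F 𝔹 := by
    rw [one_div_div]
    calc _ = p.lam1 F * p.U F ^ 2 * (1 / Real.sqrt (1 - 𝔹.pTop F.T + p.U F ^ 4))
          - p.lam1 F * (p.U F ^ 2 * (p.Eb F 𝔹 / p.U F ^ 2)) := by ring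
      _ = _ := by rw [e1]
  rw [e]
  have : 0 ≤ p.lam1 F * p.U F ^ 2 * (1 / Real.sqrt (1 - 𝔹.pTop F.T + p.U F ^ 4)) := by positivity
  linarith

theorem skw_llc_ell0 (X : SkwLlcCtx 𝔹 F At cA p i Cp cv) : p.ell ≠ 0 := by
  have := X.hp.ell1
  intro h
  linarith

theorem skw_llc_L_le (X : SkwLlcCtx 𝔹 F At cA p i Cp cv) : 𝔹.xiS F.T ≤ (i.pf (skwLlProf 𝔹 F At cA)).zmax := by
  have h := X.pf.len_lo
  have e : (i.pf (skwLlProf 𝔹 F At cA)).zs = 𝔹.xiS F.T := rfl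
  rw [e] at h
  linarith

theorem skw_llc_V_act (X : SkwLlcCtx 𝔹 F At cA p i Cp cv) {z : ℝ} (hz : z ≤ 𝔹.xiS F.T) :
    skwInV (skwLlProf 𝔹 F At cA) i z / p.ell = skwInA (skwLlProf 𝔹 F At cA) i z := by
  have hz' : z ≤ (skwLlProf 𝔹 F At cA).zs := hz
  rw [skwInV_eqns_cite, if_pos hz', X.iell, mul_div_cancel_left₀ _ (skw_llc_ell0 X)]

theorem skw_llc_V_plat (X : SkwLlcCtx 𝔹 F At cA p i Cp cv) {z : ℝ}
    (hz : z ∈ Icc (𝔹.xiS F.T) (i.pf (skwLlProf 𝔹 F At cA)).zmax) :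
    skwInV (skwLlProf 𝔹 F At cA) i z / p.ell = (i.pf (skwLlProf 𝔹 F At cA)).wof z := by
  rcases eq_or_lt_of_le hz.1 with e | e
  · rw [← e, skw_llc_V_act X le_rfl, X.top]
    have h := X.pf.wof_zof (𝔹.pTop F.T) ⟨le_rfl, X.pt1.le⟩
    have h2 : (i.pf (skwLlProf 𝔹 F At cA)).zof (𝔹.pTop F.T) = 𝔹.xiS F.T := X.pf.zof_ptop
    rw [h2] at h
    exact h.symm
  · have hz' : ¬ z ≤ (skwLlProf 𝔹 F At cA).zs := not_le.2 e
    rw [skwInV_eqns_cite, if_neg hz', X.iell, mul_div_cancel_left₀ _ (skw_llc_ell0 X)]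

/-- `H_e` on the active side, in the coordinate `z` -/
theorem skw_llc_He_act (X : SkwLlcCtx 𝔹 F At cA p i Cp cv) {z : ℝ} (hz : z ∈ Icc 0 (𝔹.xiS F.T)) :
    p.He F 𝔹 (skwInV (skwLlProf 𝔹 F At cA) i z)
      = max 0 ((z - (𝔹.xiS F.T - p.Eb F 𝔹)) / p.Eb F 𝔹) * p.HePl F 𝔹 (𝔹.pTop F.T) := by
  have hzm : z ∈ Icc 0 (i.pf (skwLlProf 𝔹 F At cA)).zmax := ⟨hz.1, hz.2.trans (skw_llc_L_le X)⟩
  unfold LlPt.He
  rw [skw_llc_V_act X hz.2]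
  rcases eq_or_lt_of_le hz.2 with e | e
  · rw [e, X.top, if_pos le_rfl]
    have : (𝔹.xiS F.T - (𝔹.xiS F.T - p.Eb F 𝔹)) / p.Eb F 𝔹 = 1 := by
      rw [sub_sub_cancel]
      exact div_self X.E0.ne'
    rw [this, max_eq_right zero_le_one, one_mul]
  · have h := X.mono hz ⟨X.L0.le, le_rfl⟩ e
    rw [X.top] at h
    rw [if_neg (not_le.2 h), (X.xi z hzm).1, min_eq_left hz.2]

/-- `H_e` on the plateau, in the coordinate `z` -/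
theorem skw_llc_He_plat (X : SkwLlcCtx 𝔹 F At cA p i Cp cv) {z : ℝ}
    (hz : z ∈ Icc (𝔹.xiS F.T) (i.pf (skwLlProf 𝔹 F At cA)).zmax) :
    p.He F 𝔹 (skwInV (skwLlProf 𝔹 F At cA) i z) = p.HePl F 𝔹 ((i.pf (skwLlProf 𝔹 F At cA)).wof z) := by
  have hm : 𝔹.pTop F.T ≤ (i.pf (skwLlProf 𝔹 F At cA)).wof z := (X.pf.wof_mem z hz).1
  unfold LlPt.He
  rw [skw_llc_V_plat X hz, if_pos hm]

theorem skw_llc_h (𝔹 : LlBase) (F : LlFix) (p : LlPt) {v : ℝ} (hv : p.x ≤ v) :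
    p.h F 𝔹 v = p.hS F 𝔹 v + p.Hlo F v + p.chiL * p.Hlin F v + p.chiE * p.He F 𝔹 v := by
  unfold LlPt.h
  rw [if_neg (not_lt.2 hv)]

theorem skw_llc_V_mono (X : SkwLlcCtx 𝔹 F At cA p i Cp cv) {z z' : ℝ}
    (hz : z ∈ Icc 0 (i.pf (skwLlProf 𝔹 F At cA)).zmax) (hz' : z' ∈ Icc 0 (i.pf (skwLlProf 𝔹 F At cA)).zmax) (h : z ≤ z') :
    skwInV (skwLlProf 𝔹 F At cA) i z ≤ skwInV (skwLlProf 𝔹 F At cA) i z' :=
  X.v.mono.monotoneOn hz hz' h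

theorem skw_llc_V_L (X : SkwLlcCtx 𝔹 F At cA p i Cp cv) :
    skwInV (skwLlProf 𝔹 F At cA) i (𝔹.xiS F.T) = p.ell * 𝔹.pTop F.T := by
  have h := X.v.vs
  rw [X.iell] at h
  exact h

/-- **(D3) on the plateau** -/
theorem skw_llc_plat (X : SkwLlcCtx 𝔹 F At cA p i Cp cv) {z₁ z₂ : ℝ}
    (h1 : z₁ ∈ Icc (𝔹.xiS F.T) (i.pf (skwLlProf 𝔹 F At cA)).zmax)
    (h2 : z₂ ∈ Icc (𝔹.xiS F.T) (i.pf (skwLlProf 𝔹 F At cA)).zmax) (h12 : z₁ ≤ z₂)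
    (hx : p.x ≤ skwInV (skwLlProf 𝔹 F At cA) i z₁) :
    p.chiE * p.lam1 F / 2 * (z₂ - z₁)
      ≤ p.h F 𝔹 (skwInV (skwLlProf 𝔹 F At cA) i z₂) - p.h F 𝔹 (skwInV (skwLlProf 𝔹 F At cA) i z₁) := by
  have h1' : z₁ ∈ Icc 0 (i.pf (skwLlProf 𝔹 F At cA)).zmax := ⟨X.L0.le.trans h1.1, h1.2⟩
  have h2' : z₂ ∈ Icc 0 (i.pf (skwLlProf 𝔹 F At cA)).zmax := ⟨X.L0.le.trans h2.1, h2.2⟩
  have hL' : 𝔹.xiS F.T ∈ Icc 0 (i.pf (skwLlProf 𝔹 F At cA)).zmax := ⟨X.L0.le, skw_llc_L_le X⟩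
  have m := skw_llc_V_mono X h1' h2' h12
  have hxp := skw_llc_x_pos X.hp
  have hvb := X.fix.vb0
  have big : ∀ z ∈ Icc (𝔹.xiS F.T) (i.pf (skwLlProf 𝔹 F At cA)).zmax, 2 * F.vb ≤ skwInV (skwLlProf 𝔹 F At cA) i z := by
    intro z hz
    have a1 := skw_llc_V_mono X hL' ⟨X.L0.le.trans hz.1, hz.2⟩ hz.1
    rw [skw_llc_V_L X] at a1
    have a2 : 𝔹.pTop F.T ≤ p.ell * 𝔹.pTop F.T := le_mul_of_one_le_left X.pt0.le X.hp.ell1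
    linarith [X.vb8]
  have ehS : p.hS F 𝔹 (skwInV (skwLlProf 𝔹 F At cA) i z₂) = p.hS F 𝔹 (skwInV (skwLlProf 𝔹 F At cA) i z₁) := by
    unfold LlPt.hS
    rw [(X.xi z₁ h1').2.1, (X.xi z₂ h2').2.1, (X.xi z₁ h1').2.2, (X.xi z₂ h2').2.2, min_eq_right h1.1, min_eq_right h2.1,
      skw_llc_b_const 𝔹 X.fix X.hp (big z₂ h2) (big z₁ h1)]
  have eHe : p.He F 𝔹 (skwInV (skwLlProf 𝔹 F At cA) i z₂) - p.He F 𝔹 (skwInV (skwLlProf 𝔹 F At cA) i z₁)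
      = p.lam1 F / 2 * (z₂ - z₁) := by
    rw [skw_llc_He_plat X h1, skw_llc_He_plat X h2, skw_llc_HePl_sub X (X.pf.wof_mem z₁ h1) (X.pf.wof_mem z₂ h2),
      X.pf.zof_wof z₁ h1, X.pf.zof_wof z₂ h2]
  have a1 := skw_llc_Hlo_mono X.hp (hxp.trans_le hx) m
  have a2 := mul_le_mul_of_nonneg_left (skw_llc_Hlin_mono X.hp m) X.hp.chiL.1
  rw [skw_llc_h 𝔹 F p hx, skw_llc_h 𝔹 F p (hx.trans m), ehS]
  have e3 : p.chiE * p.lam1 F / 2 * (z₂ - z₁) = p.chiE * (p.He F 𝔹 (skwInV (skwLlProf 𝔹 F At cA) i z₂)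
      - p.He F 𝔹 (skwInV (skwLlProf 𝔹 F At cA) i z₁)) := by
    rw [eHe]; ring
  rw [e3]
  linarith

/-- increment of `h_*` on the active side, from (P4) -/
theorem skw_llc_hS_act (X : SkwLlcCtx 𝔹 F At cA p i Cp cv) (hcv : 0 ≤ cv) {c4 : ℝ} (hc4 : 0 < c4)
    (hP4 : ∀ v ∈ Ioo 0 p.a, ∀ v' ∈ Ioo 0 p.a, v ≤ v' →
      c4 * p.lam * (v ^ 2 + p.U F ^ 2) * (p.K F 𝔹 v' - p.K F 𝔹 v) ≤ p.hS F 𝔹 v' - p.hS F 𝔹 v)
    {z z' : ℝ} (hz : z ∈ Icc 0 (𝔹.xiS F.T)) (hz' : z' ∈ Icc 0 (𝔹.xiS F.T)) (hzz : z ≤ z')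
    (hx : p.x ≤ skwInV (skwLlProf 𝔹 F At cA) i z) :
    c4 * p.lam * (cv * skwR z) ^ 2 / 4 * (z' - z)
      ≤ p.hS F 𝔹 (skwInV (skwLlProf 𝔹 F At cA) i z') - p.hS F 𝔹 (skwInV (skwLlProf 𝔹 F At cA) i z) := by
  have hLm := skw_llc_L_le X
  have hzm : z ∈ Icc 0 (i.pf (skwLlProf 𝔹 F At cA)).zmax := ⟨hz.1, hz.2.trans hLm⟩
  have hzm' : z' ∈ Icc 0 (i.pf (skwLlProf 𝔹 F At cA)).zmax := ⟨hz'.1, hz'.2.trans hLm⟩
  have hL' : 𝔹.xiS F.T ∈ Icc 0 (i.pf (skwLlProf 𝔹 F At cA)).zmax := ⟨X.L0.le, hLm⟩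
  have hxp := skw_llc_x_pos X.hp
  have hl := skw_llc_lam_pos X.hp
  have hell1 := X.hp.ell1
  have hell2 := skw_llc_ell2 X.hp
  have m := skw_llc_V_mono X hzm hzm' hzz
  have m' := skw_llc_V_mono X hzm' hL' hz'.2
  rw [skw_llc_V_L X] at m'
  have hlt : p.ell * 𝔹.pTop F.T < p.ell := by
    have := X.pt1
    nlinarith
  have ha : p.a = p.ell := by simp [LlPt.a, X.sm]
  have h := hP4 _ (by rw [ha]; exact ⟨hxp.trans_le hx, by linarith⟩) _ (by rw [ha]; exact ⟨by linarith, by linarith⟩) m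
  rw [(X.xi z hzm).2.1, (X.xi z' hzm').2.1, min_eq_left hz.2, min_eq_left hz'.2] at h
  refine le_trans ?_ h
  have hlow := X.v.lower z hzm
  have hr0 : 0 ≤ skwR z := le_min hz.1 zero_le_one
  have hsq : (cv * skwR z) ^ 2 ≤ skwInV (skwLlProf 𝔹 F At cA) i z ^ 2 + p.U F ^ 2 := by
    have := pow_le_pow_left₀ (mul_nonneg hcv hr0) hlow 2
    have := sq_nonneg (p.U F)
    linarith
  have hinv : 1 / 4 ≤ (p.ell ^ 2)⁻¹ := by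
    rw [← one_div]
    exact one_div_le_one_div_of_le (by positivity) (by nlinarith)
  have e : (p.ell ^ 2)⁻¹ * z' - (p.ell ^ 2)⁻¹ * z = (p.ell ^ 2)⁻¹ * (z' - z) := by ring
  rw [e]
  have hd : 0 ≤ z' - z := sub_nonneg.2 hzz
  calc c4 * p.lam * (cv * skwR z) ^ 2 / 4 * (z' - z)
      = c4 * p.lam * (cv * skwR z) ^ 2 * (1 / 4 * (z' - z)) := by ring
    _ ≤ c4 * p.lam * (skwInV (skwLlProf 𝔹 F At cA) i z ^ 2 + p.U F ^ 2) * ((p.ell ^ 2)⁻¹ * (z' - z)) := by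
        refine mul_le_mul (mul_le_mul_of_nonneg_left hsq (by positivity)) (mul_le_mul_of_nonneg_right hinv hd)
          (by positivity) ?_
        have := sq_nonneg (skwInV (skwLlProf 𝔹 F At cA) i z)
        positivity

/-- increment of `χ_e H_e` on the active side: `≥ -λ_1 (z' - z)`, and `= 0` before the ramp -/
theorem skw_llc_He_incr (X : SkwLlcCtx 𝔹 F At cA p i Cp cv) {z z' : ℝ} (hz : z ∈ Icc 0 (𝔹.xiS F.T))
    (hz' : z' ∈ Icc 0 (𝔹.xiS F.T)) (hzz : z ≤ z') :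
    -(p.lam1 F * (z' - z)) ≤ p.chiE * p.He F 𝔹 (skwInV (skwLlProf 𝔹 F At cA) i z')
        - p.chiE * p.He F 𝔹 (skwInV (skwLlProf 𝔹 F At cA) i z) ∧
    (z' ≤ 𝔹.xiS F.T - p.Eb F 𝔹 → p.chiE * p.He F 𝔹 (skwInV (skwLlProf 𝔹 F At cA) i z')
        - p.chiE * p.He F 𝔹 (skwInV (skwLlProf 𝔹 F At cA) i z) = 0) := by
  have hE := X.E0
  have hl1 : 0 ≤ p.lam1 F := Real.rpow_nonneg (skw_llc_lam_pos X.hp).le _
  have hd : 0 ≤ z' - z := sub_nonneg.2 hzz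
  rw [skw_llc_He_act X hz, skw_llc_He_act X hz']
  obtain ⟨H, hH⟩ : ∃ H, H = p.HePl F 𝔹 (𝔹.pTop F.T) := ⟨_, rfl⟩
  have hHlo : -(p.lam1 F * p.Eb F 𝔹) ≤ H := hH ▸ skw_llc_HePl_top X
  rw [← hH]
  obtain ⟨ρ, hρ⟩ : ∃ ρ, ρ = max 0 ((z - (𝔹.xiS F.T - p.Eb F 𝔹)) / p.Eb F 𝔹) := ⟨_, rfl⟩
  obtain ⟨ρ', hρ'⟩ : ∃ ρ', ρ' = max 0 ((z' - (𝔹.xiS F.T - p.Eb F 𝔹)) / p.Eb F 𝔹) := ⟨_, rfl⟩
  rw [← hρ, ← hρ']
  have d0 : ρ ≤ ρ' := by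
    rw [hρ, hρ']
    exact max_le_max_left _ (div_le_div_of_nonneg_right (by linarith) hE.le)
  have d1 : ρ' - ρ ≤ (z' - z) / p.Eb F 𝔹 := by
    have e : (z' - (𝔹.xiS F.T - p.Eb F 𝔹)) / p.Eb F 𝔹 = (z - (𝔹.xiS F.T - p.Eb F 𝔹)) / p.Eb F 𝔹 + (z' - z) / p.Eb F 𝔹 := by
      rw [← add_div]; congr 1; ring
    have q0 : 0 ≤ (z' - z) / p.Eb F 𝔹 := div_nonneg hd hE.le
    have : ρ' ≤ ρ + (z' - z) / p.Eb F 𝔹 := by
      rw [hρ', hρ, e]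
      refine max_le ?_ ?_
      · exact add_nonneg (le_max_left _ _) q0
      · have := le_max_right 0 ((z - (𝔹.xiS F.T - p.Eb F 𝔹)) / p.Eb F 𝔹)
        linarith
    linarith
  constructor
  · have e1 : p.chiE * (ρ' * H) - p.chiE * (ρ * H) = p.chiE * ((ρ' - ρ) * H) := by ring
    rw [e1]
    have a1 : -(p.lam1 F * (z' - z)) ≤ (ρ' - ρ) * H := by
      have b1 : (ρ' - ρ) * -(p.lam1 F * p.Eb F 𝔹) ≤ (ρ' - ρ) * H := mul_le_mul_of_nonneg_left hHlo (sub_nonneg.2 d0)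
      have b2 : (ρ' - ρ) * (p.lam1 F * p.Eb F 𝔹) ≤ (z' - z) / p.Eb F 𝔹 * (p.lam1 F * p.Eb F 𝔹) :=
        mul_le_mul_of_nonneg_right d1 (mul_nonneg hl1 hE.le)
      have b3 : (z' - z) / p.Eb F 𝔹 * (p.lam1 F * p.Eb F 𝔹) = p.lam1 F * (z' - z) := by
        field_simp
      linarith
    have hY : 0 ≤ p.lam1 F * (z' - z) := mul_nonneg hl1 hd
    have c0 := X.hp.chiE.1
    have c1 := X.hp.chiE.2
    have a2 : p.chiE * -(p.lam1 F * (z' - z)) ≤ p.chiE * ((ρ' - ρ) * H) := mul_le_mul_of_nonneg_left a1 c0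
    have a3 : p.chiE * (p.lam1 F * (z' - z)) ≤ 1 * (p.lam1 F * (z' - z)) := mul_le_mul_of_nonneg_right c1 hY
    linarith
  · intro hle
    have r1 : ρ' = 0 := by
      rw [hρ']
      exact max_eq_left (div_nonpos_of_nonpos_of_nonneg (by linarith) hE.le)
    have r0 : ρ = 0 := by
      rw [hρ]
      exact max_eq_left (div_nonpos_of_nonpos_of_nonneg (by linarith) hE.le)
    rw [r0, r1]
    ring

/-- **(D3) on the active side**, one piece: either before the ramp, or with the loss `λ_1` -/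
theorem skw_llc_act (X : SkwLlcCtx 𝔹 F At cA p i Cp cv) (hcv : 0 ≤ cv) {c4 : ℝ} (hc4 : 0 < c4)
    (hP4 : ∀ v ∈ Ioo 0 p.a, ∀ v' ∈ Ioo 0 p.a, v ≤ v' →
      c4 * p.lam * (v ^ 2 + p.U F ^ 2) * (p.K F 𝔹 v' - p.K F 𝔹 v) ≤ p.hS F 𝔹 v' - p.hS F 𝔹 v)
    {z z' : ℝ} (hz : z ∈ Icc 0 (𝔹.xiS F.T)) (hz' : z' ∈ Icc 0 (𝔹.xiS F.T)) (hzz : z ≤ z')
    (hx : p.x ≤ skwInV (skwLlProf 𝔹 F At cA) i z) :
    (c4 * p.lam * (cv * skwR z) ^ 2 / 4 * (z' - z) - p.lam1 F * (z' - z)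
      ≤ p.h F 𝔹 (skwInV (skwLlProf 𝔹 F At cA) i z') - p.h F 𝔹 (skwInV (skwLlProf 𝔹 F At cA) i z)) ∧
    (z' ≤ 𝔹.xiS F.T - p.Eb F 𝔹 → c4 * p.lam * (cv * skwR z) ^ 2 / 4 * (z' - z)
      ≤ p.h F 𝔹 (skwInV (skwLlProf 𝔹 F At cA) i z') - p.h F 𝔹 (skwInV (skwLlProf 𝔹 F At cA) i z)) := by
  have hLm := skw_llc_L_le X
  have hzm : z ∈ Icc 0 (i.pf (skwLlProf 𝔹 F At cA)).zmax := ⟨hz.1, hz.2.trans hLm⟩
  have hzm' : z' ∈ Icc 0 (i.pf (skwLlProf 𝔹 F At cA)).zmax := ⟨hz'.1, hz'.2.trans hLm⟩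
  have hxp := skw_llc_x_pos X.hp
  have m := skw_llc_V_mono X hzm hzm' hzz
  have a0 := skw_llc_hS_act X hcv hc4 hP4 hz hz' hzz hx
  have a1 := skw_llc_Hlo_mono X.hp (hxp.trans_le hx) m
  have a2 := mul_le_mul_of_nonneg_left (skw_llc_Hlin_mono X.hp m) X.hp.chiL.1
  obtain ⟨a3, a4⟩ := skw_llc_He_incr X hz hz' hzz
  rw [skw_llc_h 𝔹 F p hx, skw_llc_h 𝔹 F p (hx.trans m)]
  constructor
  · linarith
  · intro hle
    have := a4 hle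
    linarith

end ctx

theorem skw_llc_U_pos {p : LlPt} {F : LlFix} (hp : p.Ok F) : 0 < p.U F := by
  unfold LlPt.U
  exact lt_min one_pos (mul_pos (skw_llc_x_pos hp) (Real.rpow_pos_of_pos (skw_llc_lam_pos hp) _))

/-- TEX[LL:lem:statistics-widths] (D3), LL 08 l.100-112 and l.990 -/
theorem skw_ll_d3 : SkwLlD3 := by
  intro 𝔹 F At cA Lq r hr h hP4
  have hπ := h.prof
  obtain ⟨L, hL⟩ : ∃ L, L = 𝔹.xiS F.T := ⟨_, rfl⟩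
  have hz00 : 0 < F.z0 := hπ.z00
  have hz0s : 2 * F.z0 ≤ L := hL ▸ hπ.z0s
  have hL0 : 0 < L := by linarith
  obtain ⟨M0, lam0, hM0, hlam0, _hlam01, hG⟩ := skw_leaf_inG _ r hr hπ
  have hE1 : 0 < min 1 (min ((L - F.z0) / 2) (L / 4)) := lt_min one_pos (lt_min (by linarith) (by linarith))
  obtain ⟨UE, hUE0, _hUE1, hE⟩ := skw_leaf_inE _ r hr hπ M0 hM0 _ hE1
  obtain ⟨Cp, hCp, hPF⟩ := skw_leaf_pf _ M0 hπ.pt0 hπ.pt1 hM0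
  obtain ⟨cv, hcv0, _hcv1, hV⟩ := skw_leaf_inV _ r hr hπ M0 Cp hM0 hCp
  obtain ⟨UB, hUB0, _hUB1, hEb⟩ := skw_leaf_llEb 𝔹 F At cA Lq r hr h
  obtain ⟨c4, _C4, _v4, hc4, _hv4, N4, hP4'⟩ := hP4
  obtain ⟨rm, hrm⟩ : ∃ rm, rm = min (L / 2) 1 := ⟨_, rfl⟩
  have hrm0 : 0 < rm := by rw [hrm]; exact lt_min (by linarith) one_pos
  have hδ : 0 < c4 * (cv * rm) ^ 2 / 8 := by positivity
  obtain ⟨N1, hN1⟩ := skw_llc_small F h.fix.pS0 1 lam0 one_pos hlam0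
  obtain ⟨N2, hN2⟩ := skw_llc_small F h.fix.pS0 F.eta _ h.fix.eta0 hδ
  have hCp0 : 0 < Cp := by linarith
  refine ⟨c4 * cv ^ 2 / 8, min UE (min UB (1 / Cp)), max N4 (max N1 N2), by positivity,
    lt_min hUE0 (lt_min hUB0 (by positivity)), ?_⟩
  intro p hp hN hsm hU i hiell hilam hiU hiE
  have hNa : N4 ≤ p.N := (le_max_left _ _).trans hN
  have hNb : N1 ≤ p.N := ((le_max_left _ _).trans (le_max_right _ _)).trans hN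
  have hNc : N2 ≤ p.N := ((le_max_right _ _).trans (le_max_right _ _)).trans hN
  have hUa : p.U F ≤ UE := hU.trans (min_le_left _ _)
  have hUb : p.U F ≤ UB := hU.trans ((min_le_right _ _).trans (min_le_left _ _))
  have hUc : p.U F ≤ 1 / Cp := hU.trans ((min_le_right _ _).trans (min_le_right _ _))
  have hUp := skw_llc_U_pos hp
  have hl := skw_llc_lam_pos hp
  have hell1 : 1 ≤ i.ell := hiell ▸ hp.ell1
  have hell2 : i.ell ≤ 2 := hiell ▸ skw_llc_ell2 hp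
  have hlam1 : i.lam ≤ lam0 := by
    have := hN1 p hp hNb
    rw [Real.rpow_one] at this
    rw [hilam]; exact this
  obtain ⟨g1, g2, g3, g4, g5, g6, g7, g8⟩ := hG i hell1 hell2 (hilam ▸ hl.le) hlam1
  obtain ⟨hUt, hUps, hE0, hEL, hEeq⟩ := hEb p hUp hUb
  obtain ⟨e1, _e2, e3⟩ := hE i hell1 hell2 (fun z hz => (g1 z hz).2) g3 (hiU ▸ hUp) (hiU ▸ hUa) (hiE ▸ hE0) (hiE ▸ hEL)
    (by rw [hiU, hiE]; exact hEeq)
  rw [hiE] at e1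
  have hEa : p.Eb F 𝔹 ≤ 1 := e1.trans (min_le_left _ _)
  have hEb2 : p.Eb F 𝔹 ≤ (L - F.z0) / 2 := e1.trans ((min_le_right _ _).trans (min_le_left _ _))
  have hEc : p.Eb F 𝔹 ≤ L / 4 := e1.trans ((min_le_right _ _).trans (min_le_right _ _))
  have hUE3 : i.U ^ 4 ≤ M0 * i.E ^ 3 := e3 (by
    rw [hiE]
    have : (skwLlProf 𝔹 F At cA).zs - (skwLlProf 𝔹 F At cA).z0 = L - F.z0 := by rw [hL]; rfl
    rw [this]
    linarith)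
  have iU0 : 0 < i.U := hiU ▸ hUp
  have iUc : i.U ≤ 1 / Cp := hiU ▸ hUc
  have iE0 : 0 < i.E := hiE ▸ hE0
  have iEa : i.E ≤ 1 := hiE ▸ hEa
  have hpf : SkwPFConcl Cp (i.pf (skwLlProf 𝔹 F At cA)) :=
    hPF (i.pf (skwLlProf 𝔹 F At cA)) rfl hell1 hell2 iU0 iUc iE0 iEa hUE3
  have hv := hV i hell1 hell2 g1 g2 g4 g5 g6 g7 g8 hpf
  have hxi := skw_leaf_llXi 𝔹 F At cA Lq r hr h p i Cp hsm hp.ell1 hiell hilam hl.le g6 g8 hpf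
  have X : SkwLlcCtx 𝔹 F At cA p i Cp cv :=
    { hp := hp, fix := h.fix, sm := hsm, iell := hiell, ilam := hilam, iU := hiU, iE := hiE, U0 := hUp, Ut := hUt, Ups := hUps
      E0 := hE0, L0 := hL ▸ hL0, pt0 := hπ.pt0, pt1 := hπ.pt1, mono := g6, top := g8, pf := hpf, v := hv, xi := hxi, vb8 := h.vb8 }
  have hP := (hP4' p hp hNa).1
  have hlam1' : p.lam1 F ≤ p.lam * (c4 * (cv * rm) ^ 2 / 8) := by
    unfold LlPt.lam1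
    rw [Real.rpow_add hl, Real.rpow_one]
    exact mul_le_mul_of_nonneg_left (hN2 p hp hNc) hl.le
  intro z₁ hz₁ z₂ hz₂ h12 hx
  rw [← hL]
  -- one piece of the active side
  have key : ∀ z ∈ Icc 0 L, ∀ z' ∈ Icc 0 L, z ≤ z' → p.x ≤ skwInV (skwLlProf 𝔹 F At cA) i z →
      (z' ≤ L - p.Eb F 𝔹 ∨ L - p.Eb F 𝔹 ≤ z) →
      c4 * cv ^ 2 / 8 * p.lam * skwR z ^ 2 * (z' - z)
        ≤ p.h F 𝔹 (skwInV (skwLlProf 𝔹 F At cA) i z') - p.h F 𝔹 (skwInV (skwLlProf 𝔹 F At cA) i z) := by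
    intro z hz z' hz' hzz hxz hcase
    obtain ⟨k1, k2⟩ := skw_llc_act X hcv0.le hc4 hP (hL ▸ hz) (hL ▸ hz') hzz hxz
    have hd : 0 ≤ z' - z := sub_nonneg.2 hzz
    have hr0 : 0 ≤ skwR z := le_min hz.1 zero_le_one
    have hbase : 0 ≤ c4 * cv ^ 2 / 8 * p.lam * skwR z ^ 2 * (z' - z) := by positivity
    rcases hcase with hc | hc
    · have := k2 (hL ▸ hc)
      have e : c4 * p.lam * (cv * skwR z) ^ 2 / 4 * (z' - z) = 2 * (c4 * cv ^ 2 / 8 * p.lam * skwR z ^ 2 * (z' - z)) := by ring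
      rw [e] at this
      linarith
    · have hrz : rm ≤ skwR z := by
        rw [hrm]
        exact min_le_min_right _ (by linarith)
      have q1 : (cv * rm) ^ 2 ≤ (cv * skwR z) ^ 2 :=
        pow_le_pow_left₀ (by positivity) (mul_le_mul_of_nonneg_left hrz hcv0.le) 2
      have q2 : p.lam1 F ≤ p.lam * (c4 * (cv * skwR z) ^ 2 / 8) := by
        refine hlam1'.trans (mul_le_mul_of_nonneg_left ?_ hl.le)
        have := mul_le_mul_of_nonneg_left q1 hc4.le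
        linarith
      have q3 : p.lam1 F * (z' - z) ≤ p.lam * (c4 * (cv * skwR z) ^ 2 / 8) * (z' - z) := mul_le_mul_of_nonneg_right q2 hd
      have e : c4 * p.lam * (cv * skwR z) ^ 2 / 4 * (z' - z) - p.lam * (c4 * (cv * skwR z) ^ 2 / 8) * (z' - z)
          = c4 * cv ^ 2 / 8 * p.lam * skwR z ^ 2 * (z' - z) := by ring
      linarith
  constructor
  · intro hz₂L
    have a1 : z₁ ∈ Icc 0 L := ⟨hz₁.1, h12.trans hz₂L⟩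
    have a2 : z₂ ∈ Icc 0 L := ⟨hz₂.1, hz₂L⟩
    rcases le_total z₂ (L - p.Eb F 𝔹) with c1 | c1
    · exact key z₁ a1 z₂ a2 h12 hx (Or.inl c1)
    · rcases le_total (L - p.Eb F 𝔹) z₁ with c2 | c2
      · exact key z₁ a1 z₂ a2 h12 hx (Or.inr c2)
      · -- split at the beginning of the ramp
        have am : L - p.Eb F 𝔹 ∈ Icc 0 L := ⟨by linarith, by linarith⟩
        have hLm := skw_llc_L_le X
        rw [← hL] at hLm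
        have hxm : p.x ≤ skwInV (skwLlProf 𝔹 F At cA) i (L - p.Eb F 𝔹) :=
          hx.trans (skw_llc_V_mono X hz₁ ⟨am.1, am.2.trans hLm⟩ c2)
        have k1 := key z₁ a1 _ am c2 hx (Or.inl le_rfl)
        have k2 := key _ am z₂ a2 c1 hxm (Or.inr le_rfl)
        have hr : skwR z₁ ≤ skwR (L - p.Eb F 𝔹) := min_le_min_right _ c2
        have hr0 : 0 ≤ skwR z₁ := le_min a1.1 zero_le_one
        have hr2 : skwR z₁ ^ 2 ≤ skwR (L - p.Eb F 𝔹) ^ 2 := pow_le_pow_left₀ hr0 hr 2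
        have hd : 0 ≤ z₂ - (L - p.Eb F 𝔹) := sub_nonneg.2 c1
        have k3 : c4 * cv ^ 2 / 8 * p.lam * skwR z₁ ^ 2 * (z₂ - (L - p.Eb F 𝔹))
            ≤ c4 * cv ^ 2 / 8 * p.lam * skwR (L - p.Eb F 𝔹) ^ 2 * (z₂ - (L - p.Eb F 𝔹)) :=
          mul_le_mul_of_nonneg_right (mul_le_mul_of_nonneg_left hr2 (by positivity)) hd
        have e : c4 * cv ^ 2 / 8 * p.lam * skwR z₁ ^ 2 * (z₂ - z₁)
            = c4 * cv ^ 2 / 8 * p.lam * skwR z₁ ^ 2 * (z₂ - (L - p.Eb F 𝔹))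
              + c4 * cv ^ 2 / 8 * p.lam * skwR z₁ ^ 2 * (L - p.Eb F 𝔹 - z₁) := by ring
        rw [e]
        linarith
  · intro hLz₁
    exact skw_llc_plat X ⟨hL ▸ hLz₁, hz₁.2⟩ ⟨hL ▸ (hLz₁.trans h12), hz₂.2⟩ h12 hx

end Claimed.Agent.R286
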