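import Claimed.Agent.R286.W.InstLlB
import Claimed.Agent.R286.W.InstLlC
import Claimed.Agent.R286.LL.PathsSwC

/-!
# Row 286 (S0533), folder W, file InstL03 : THE INSTANCE `skw_l03` of the ask `SkwL03` of unit W      (OWNER helper83; prefix `skw_l03_` / `skwExt` / `skwTay`)

`SkwL03 𝔹 F At cA Lq r` (W/InstLl.lean) is PROVED from Lemma paths:base-profile (`LlBaseProfile 𝔹 T`), `F.Ok`, (P2) (`LlRef 𝔹 F c C v0`) and the two smallness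
conditions on the cut-offs `z_0 ≤ zb`, `8 v_b ≤ p_top`.      ORDER OF THE CONSTANTS: `T`, `r`  ⟹  `zb`, `cA`, `At`;  then any `F`;  `Lq = max 1 (1/c)`.
* Part 1: `C^r` extension to the whole line of a tower of one sided derivatives on a compact interval `[0,L]` (Taylor polynomials of order `r + 1` outside).
* Part 2: the fields of `SkwProf.Ok`.
* Part 3: the response (cites `lsw_gamBasic` of helper281, LL/PathsSwC.lean) and the instance.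
-/

set_option autoImplicit false

namespace Claimed.Agent.R286

open Set MeasureTheory Filter Topology

/-! ### 1. extension of a tower -/

/-- Taylor polynomial of order `r` with the coefficients `c j / j!` -/
noncomputable def skwTay (c : ℕ → ℝ) (r : ℕ) (y : ℝ) : ℝ := ∑ j ∈ Finset.range (r + 1), c j * y ^ j / (j.factorial : ℝ)

/-- the extension of `a k` from `[0,L]`: Taylor polynomials of order `r` on both sides -/
noncomputable def skwExt (L : ℝ) (a : ℕ → ℝ → ℝ) (r k : ℕ) (ξ : ℝ) : ℝ :=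
  if ξ ≤ 0 then skwTay (fun j => a (k + j) 0) r ξ
  else if ξ ≤ L then a k ξ else skwTay (fun j => a (k + j) L) r (ξ - L)

theorem skwTay_eqns_cite (c : ℕ → ℝ) (r : ℕ) (y : ℝ) :
    skwTay c r y = ∑ j ∈ Finset.range (r + 1), c j * y ^ j / (j.factorial : ℝ) := rfl
theorem skwExt_eqns_cite (L : ℝ) (a : ℕ → ℝ → ℝ) (r k : ℕ) (ξ : ℝ) :
    skwExt L a r k ξ = if ξ ≤ 0 then skwTay (fun j => a (k + j) 0) r ξ
      else if ξ ≤ L then a k ξ else skwTay (fun j => a (k + j) L) r (ξ - L) := rfl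

theorem skw_l03_tay_zero (c : ℕ → ℝ) (r : ℕ) : skwTay c r 0 = c 0 := by
  unfold skwTay
  rw [Finset.sum_range_succ']
  simp

theorem skw_l03_tay_deriv (c : ℕ → ℝ) (r : ℕ) (y : ℝ) :
    HasDerivAt (skwTay c (r + 1)) (skwTay (fun j => c (j + 1)) r y) y := by
  have h1 : skwTay c (r + 1) = fun y => ∑ j ∈ Finset.range (r + 1), c (j + 1) * y ^ (j + 1) / ((j + 1).factorial : ℝ) + c 0 := by
    funext y
    unfold skwTay
    rw [Finset.sum_range_succ']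
    simp
  rw [h1]
  unfold skwTay
  have h2 : ∀ j ∈ Finset.range (r + 1), HasDerivAt (fun y : ℝ => c (j + 1) * y ^ (j + 1) / ((j + 1).factorial : ℝ))
      (c (j + 1) * y ^ j / (j.factorial : ℝ)) y := by
    intro j _
    have h3 := ((hasDerivAt_pow (j + 1) y).const_mul (c (j + 1))).div_const ((j + 1).factorial : ℝ)
    have h4 : c (j + 1) * (((j + 1 : ℕ) : ℝ) * y ^ (j + 1 - 1)) / ((j + 1).factorial : ℝ) = c (j + 1) * y ^ j / (j.factorial : ℝ) := by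
      rw [Nat.factorial_succ]
      have hj : (j.factorial : ℝ) ≠ 0 := by positivity
      have hj1 : ((j : ℝ) + 1) ≠ 0 := by positivity
      push_cast
      field_simp
    rw [h4] at h3
    exact h3
  exact (HasDerivAt.fun_sum h2).add_const _

theorem skw_l03_ext_mid {L : ℝ} (a : ℕ → ℝ → ℝ) (r k : ℕ) {ξ : ℝ} (h0 : 0 ≤ ξ) (h1 : ξ ≤ L) : skwExt L a r k ξ = a k ξ := by
  unfold skwExt
  rcases h0.eq_or_lt with h | h
  · rw [if_pos h.ge, ← h, skw_l03_tay_zero]; rfl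
  · rw [if_neg (not_le.2 h), if_pos h1]

theorem skw_l03_ext_left {L : ℝ} (a : ℕ → ℝ → ℝ) (r k : ℕ) {ξ : ℝ} (h0 : ξ ≤ 0) :
    skwExt L a r k ξ = skwTay (fun j => a (k + j) 0) r ξ := by
  unfold skwExt
  rw [if_pos h0]

theorem skw_l03_ext_right {L : ℝ} (hL : 0 < L) (a : ℕ → ℝ → ℝ) (r k : ℕ) {ξ : ℝ} (h0 : L ≤ ξ) :
    skwExt L a r k ξ = skwTay (fun j => a (k + j) L) r (ξ - L) := by
  rcases h0.eq_or_lt with h | h
  · rw [skw_l03_ext_mid a r k (hL.le.trans h0) h.ge, ← h, sub_self, skw_l03_tay_zero]; rfl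
  · unfold skwExt
    rw [if_neg (not_le.2 (hL.trans h)), if_neg (not_le.2 h)]

theorem skw_l03_shift (a : ℕ → ℝ → ℝ) (k : ℕ) (z : ℝ) : (fun j => a (k + (j + 1)) z) = fun j => a (k + 1 + j) z := by
  funext j
  congr 1
  omega

/-- the extension of order `r + 1` of `a k` has the derivative: extension of order `r` of `a (k+1)` -/
theorem skw_l03_ext_deriv {L : ℝ} (hL : 0 < L) (a : ℕ → ℝ → ℝ)
    (ht : ∀ k, ∀ ξ ∈ Icc 0 L, HasDerivWithinAt (a k) (a (k + 1) ξ) (Icc 0 L) ξ) (r k : ℕ) (ξ : ℝ) :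
    HasDerivAt (skwExt L a (r + 1) k) (skwExt L a r (k + 1) ξ) ξ := by
  -- the three pieces
  have hl : ∀ ξ, ξ ≤ 0 → HasDerivWithinAt (skwExt L a (r + 1) k) (skwExt L a r (k + 1) ξ) (Iic 0) ξ := by
    intro ξ hξ
    rw [skw_l03_ext_left a r (k + 1) hξ, ← skw_l03_shift]
    exact ((skw_l03_tay_deriv (fun j => a (k + j) 0) r ξ).hasDerivWithinAt).congr
      (fun y hy => skw_l03_ext_left a (r + 1) k hy) (skw_l03_ext_left a (r + 1) k hξ)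
  have hm : ∀ ξ ∈ Icc 0 L, HasDerivWithinAt (skwExt L a (r + 1) k) (skwExt L a r (k + 1) ξ) (Icc 0 L) ξ := by
    intro ξ hξ
    rw [skw_l03_ext_mid a r (k + 1) hξ.1 hξ.2]
    exact (ht k ξ hξ).congr (fun y hy => skw_l03_ext_mid a (r + 1) k hy.1 hy.2) (skw_l03_ext_mid a (r + 1) k hξ.1 hξ.2)
  have hr : ∀ ξ, L ≤ ξ → HasDerivWithinAt (skwExt L a (r + 1) k) (skwExt L a r (k + 1) ξ) (Ici L) ξ := by
    intro ξ hξ
    rw [skw_l03_ext_right hL a r (k + 1) hξ, ← skw_l03_shift]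
    have h1 : HasDerivAt (fun y => skwTay (fun j => a (k + j) L) (r + 1) (y - L))
        (skwTay (fun j => a (k + (j + 1)) L) r (ξ - L)) ξ := by
      have h := (skw_l03_tay_deriv (fun j => a (k + j) L) r (ξ - L)).comp ξ ((hasDerivAt_id ξ).sub_const L)
      rw [mul_one] at h
      exact h
    exact (h1.hasDerivWithinAt).congr
      (fun y hy => skw_l03_ext_right hL a (r + 1) k hy) (skw_l03_ext_right hL a (r + 1) k hξ)
  rcases lt_trichotomy ξ 0 with h | h | h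
  · exact (hl ξ h.le).hasDerivAt (Iic_mem_nhds h)
  · subst h
    have h1 := hl 0 le_rfl
    have h2 : HasDerivWithinAt (skwExt L a (r + 1) k) (skwExt L a r (k + 1) 0) (Ici 0) 0 :=
      (hm 0 ⟨le_rfl, hL.le⟩).mono_of_mem_nhdsWithin (Icc_mem_nhdsGE hL)
    have h3 := h1.union h2
    rwa [Iic_union_Ici, hasDerivWithinAt_univ] at h3
  · rcases lt_trichotomy ξ L with h' | h' | h'
    · exact (hm ξ ⟨h.le, h'.le⟩).hasDerivAt (Icc_mem_nhds h h')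
    · subst h'
      have h1 : HasDerivWithinAt (skwExt ξ a (r + 1) k) (skwExt ξ a r (k + 1) ξ) (Iic ξ) ξ :=
        (hm ξ ⟨hL.le, le_rfl⟩).mono_of_mem_nhdsWithin (Icc_mem_nhdsLE hL)
      have h3 := h1.union (hr ξ le_rfl)
      rwa [Iic_union_Ici, hasDerivWithinAt_univ] at h3
    · exact (hr ξ h'.le).hasDerivAt (Ici_mem_nhds h')

/-- the extension of order `r + 1` is of class `C^r` -/
theorem skw_l03_ext_contDiff {L : ℝ} (hL : 0 < L) (a : ℕ → ℝ → ℝ)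
    (ht : ∀ k, ∀ ξ ∈ Icc 0 L, HasDerivWithinAt (a k) (a (k + 1) ξ) (Icc 0 L) ξ) (r : ℕ) :
    ∀ k, ContDiff ℝ r (skwExt L a (r + 1) k) := by
  induction r with
  | zero =>
    intro k
    rw [Nat.cast_zero, contDiff_zero]
    exact continuous_iff_continuousAt.2 fun ξ => (skw_l03_ext_deriv hL a ht 0 k ξ).continuousAt
  | succ r ih =>
    intro k
    have hd : deriv (skwExt L a (r + 1 + 1) k) = skwExt L a (r + 1) (k + 1) :=
      funext fun ξ => (skw_l03_ext_deriv hL a ht (r + 1) k ξ).deriv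
    rw [Nat.cast_succ, contDiff_succ_iff_deriv]
    refine ⟨fun ξ => (skw_l03_ext_deriv hL a ht (r + 1) k ξ).differentiableAt, fun h => ?_, ?_⟩
    · exact absurd h (by exact_mod_cast WithTop.coe_ne_top)
    · rw [hd]; exact ih (k + 1)

/-! ### 2. the profile -/

/-- what Part 2 extracts from Lemma paths:base-profile: the representative, its density near `0`, all fields which do not involve `F` -/
structure SkwL03Rep (𝔹 : LlBase) (T : ℝ) (r : ℕ) (zb cA : ℝ) (At : ℝ → ℝ) : Prop where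
  zb0 : 0 < zb
  zbs : 2 * zb ≤ 𝔹.xiS T
  cA0 : 0 < cA
  sm : ContDiff ℝ r At
  act : ∀ ξ ∈ Ico 0 (𝔹.xiS T), 𝔹.A0 T ξ = At ξ
  At0 : At 0 = 0
  Atz : At (𝔹.xiS T) = 𝔹.pTop T
  dAt : ∀ ξ ∈ Icc 0 (𝔹.xiS T), 0 ≤ deriv At ξ
  dAt0 : ∀ ξ ∈ Icc 0 (2 * zb), cA ≤ deriv At ξ
  smono : StrictMonoOn At (Icc 0 (𝔹.xiS T))

theorem skw_l03_rep (𝔹 : LlBase) (T : ℝ) (hb : LlBaseProfile 𝔹 T) (r : ℕ) :
    ∃ (zb cA : ℝ) (At : ℝ → ℝ), SkwL03Rep 𝔹 T r zb cA At := by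
  obtain ⟨a, ha0, haL, ha1, hder⟩ := hb.tower
  have hL := hb.xi_pos
  set L : ℝ := 𝔹.xiS T with hLdef
  have hT : 0 < T := lt_of_lt_of_le hL hb.xi_le
  have hpos : 0 < a 1 0 := by rw [ha1]; exact div_pos hb.kap_pos hT
  -- density near zero
  have hc1 : ContinuousWithinAt (a 1) (Icc 0 L) 0 := (hder 1 0 ⟨le_rfl, hL.le⟩).continuousWithinAt
  have hev : ∀ᶠ ξ in 𝓝[Icc 0 L] 0, a 1 0 / 2 < a 1 ξ := hc1.eventually (Ioi_mem_nhds (by linarith))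
  rw [eventually_nhdsWithin_iff, Metric.eventually_nhds_iff] at hev
  obtain ⟨δ, hδ, H⟩ := hev
  set zb : ℝ := min (δ / 4) (L / 2) with hzb
  have hzb0 : 0 < zb := lt_min (by linarith) (by linarith)
  have hzb1 : 2 * zb ≤ L := by have := min_le_right (δ / 4) (L / 2); linarith
  have hzb2 : 2 * zb < δ := by have := min_le_left (δ / 4) (L / 2); linarith
  -- the representative
  have hE : ∀ ξ ∈ Icc 0 L, skwExt L a (r + 1) 0 ξ = a 0 ξ := fun ξ hξ => skw_l03_ext_mid a (r + 1) 0 hξ.1 hξ.2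
  have hD : ∀ ξ ∈ Icc 0 L, deriv (skwExt L a (r + 1) 0) ξ = a 1 ξ := by
    intro ξ hξ
    rw [(skw_l03_ext_deriv hL a hder r 0 ξ).deriv]
    exact skw_l03_ext_mid a r (0 + 1) hξ.1 hξ.2
  have hsm : StrictMonoOn (a 0) (Icc 0 L) := by
    intro ξ hξ ξ' hξ' h
    have h1 : ξ < L := lt_of_lt_of_le h hξ'.2
    rw [← ha0 ξ ⟨hξ.1, h1⟩]
    rcases hξ'.2.eq_or_lt with h2 | h2
    · rw [h2, haL]; exact hb.lt_top ξ h1
    · rw [← ha0 ξ' ⟨hξ'.1, h2⟩]; exact hb.strict hξ hξ' h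
  refine ⟨zb, a 1 0 / 2, skwExt L a (r + 1) 0, ⟨hzb0, hzb1, by linarith, skw_l03_ext_contDiff hL a hder r 0, ?_, ?_, ?_, ?_, ?_, ?_⟩⟩
  · intro ξ hξ
    rw [hE ξ ⟨hξ.1, hξ.2.le⟩]; exact ha0 ξ hξ
  · rw [hE 0 ⟨le_rfl, hL.le⟩, ← ha0 0 ⟨le_rfl, hL⟩]; exact hb.zero 0 le_rfl
  · rw [hE L ⟨hL.le, le_rfl⟩]; exact haL
  · intro ξ hξ
    rw [hD ξ hξ, ← (hder 0 ξ hξ).derivWithin (uniqueDiffOn_Icc hL ξ hξ)]
    exact hsm.monotoneOn.derivWithin_nonneg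
  · intro ξ hξ
    have hξ' : ξ ∈ Icc 0 L := ⟨hξ.1, hξ.2.trans hzb1⟩
    rw [hD ξ hξ']
    exact (H (y := ξ) (by rw [Real.dist_eq, sub_zero, abs_of_nonneg hξ.1]; linarith [hξ.2]) hξ').le
  · intro ξ hξ ξ' hξ' h
    rw [hE ξ hξ, hE ξ' hξ']; exact hsm hξ hξ' h

/-- the fields of `SkwProf.Ok` -/
theorem skw_l03_prof {𝔹 : LlBase} {T : ℝ} (hb : LlBaseProfile 𝔹 T) {r : ℕ} {zb cA : ℝ} {At : ℝ → ℝ} (R : SkwL03Rep 𝔹 T r zb cA At)
    {F : LlFix} (hF : F.Ok) (hT : F.T = T) (hz : F.z0 ≤ zb) : (skwLlProf 𝔹 F At cA).Ok r := by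
  subst hT
  exact
    { z00 := hF.z00
      z0s := by show 2 * F.z0 ≤ 𝔹.xiS F.T; linarith [R.zbs]
      pt0 := hb.pTop_mem.1
      pt1 := hb.pTop_mem.2
      cA0 := R.cA0
      At_sm := R.sm
      P_sm := hF.P_sm.of_le (by exact_mod_cast le_top)
      At0 := R.At0
      Atz := R.Atz
      dAt := R.dAt
      dAt0 := fun ξ hξ => R.dAt0 ξ ⟨hξ.1, hξ.2.trans (by show 2 * F.z0 ≤ 2 * zb; linarith)⟩
      smono := R.smono
      P0 := hF.P_lin 0 ⟨le_rfl, by linarith [hF.z00]⟩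
      P_zero := hF.P_zero }

/-! ### 3. the response and the instance -/

theorem skw_l03_gam (𝔹 : LlBase) (F : LlFix) {c C v0 : ℝ} (hc : 0 < c) (href : LlRef 𝔹 F c C v0) :
    LlUnif F fun p => p.sm = false →
      (∀ ξ ∈ Icc 0 (𝔹.xiS F.T), ∀ ξ' ∈ Icc 0 (𝔹.xiS F.T), |p.GamN F 𝔹 ξ - p.GamN F 𝔹 ξ'| ≤ max 1 (1 / c) * |ξ - ξ'|) ∧
      p.GamN F 𝔹 0 = 0 ∧ ∀ ξ ∈ Icc 0 (𝔹.xiS F.T), 0 ≤ p.GamN F 𝔹 ξ ∧ p.GamN F 𝔹 ξ ≤ 1 := by
  obtain ⟨N1, H1⟩ := lsw_gamBasic 𝔹 F hc href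
  obtain ⟨N2, H2⟩ := href
  refine ⟨max N1 N2, fun p hp hN _ => ?_⟩
  obtain ⟨-, hrg, hlip⟩ := H1 p hp ((le_max_left _ _).trans hN)
  have R := H2 p hp ((le_max_right _ _).trans hN)
  refine ⟨fun ξ hξ ξ' hξ' => (hlip ξ hξ.1 ξ' hξ'.1).trans (mul_le_mul_of_nonneg_right (le_max_right _ _) (abs_nonneg _)), ?_,
    fun ξ hξ => hrg ξ hξ.1⟩
  have h := R.gam_zero
  unfold LlPt.Gam at h
  rwa [mul_zero] at h

/-- **THE INSTANCE of `SkwL03`** (ask of unit W to LL Section 3).  Constants: `T`, `r` ⟹ `zb`, `cA`, `At`; then ANY admissible `F` with `z_0 ≤ zb`, `8 v_b ≤ p_top`;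
`Lq = max 1 (1/c)` with the constant `c` of (P2). -/
theorem skw_l03 (𝔹 : LlBase) (T : ℝ) (hb : LlBaseProfile 𝔹 T) (r : ℕ) :
    ∃ (zb cA : ℝ) (At : ℝ → ℝ), 0 < zb ∧ 0 < cA ∧ ∀ F : LlFix, F.Ok → F.T = T → F.z0 ≤ zb → 8 * F.vb ≤ 𝔹.pTop T →
      ∀ c C v0 : ℝ, 0 < c → LlRef 𝔹 F c C v0 → SkwL03 𝔹 F At cA (max 1 (1 / c)) r := by
  obtain ⟨zb, cA, At, R⟩ := skw_l03_rep 𝔹 T hb r
  refine ⟨zb, cA, At, R.zb0, R.cA0, fun F hF hT hz hv c C v0 hc href => ?_⟩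
  have hprof := skw_l03_prof hb R hF hT hz
  subst hT
  exact
    { fix := hF
      prof := hprof
      A0_act := R.act
      A0_top := hb.top
      vb8 := hv
      Lq1 := le_max_left _ _
      Gam := skw_l03_gam 𝔹 F hc href }

/-- **Unit W for the direct paths, closed on the contracts of LL Section 3**: `skw_ll_d3` (slope (D3) in `z`) and `skw_ll_direct` (helper237) at the instance,
with ONE representative `At` (order `r = n + 2 > 1 + K/eps`). -/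
theorem skw_l03_direct (𝔹 : LlBase) (T : ℝ) (hb : LlBaseProfile 𝔹 T) (eps : ℝ) (K : ℕ) (C1v Klo : ℝ) (he : 0 < eps) (hK : 12 ≤ K)
    (h1 : 1 ≤ C1v) (h2 : 1 ≤ Klo) :
    ∃ (zb cA : ℝ) (At : ℝ → ℝ), 0 < zb ∧ 0 < cA ∧ ∀ F : LlFix, F.Ok → F.T = T → F.z0 ≤ zb → 8 * F.vb ≤ 𝔹.pTop T →
      ∀ c0 C0 v0 : ℝ, 0 < c0 → LlRef 𝔹 F c0 C0 v0 →
      (LlP4 𝔹 F → ∃ (c3 U1 : ℝ) (N0 : ℕ), 0 < c3 ∧ 0 < U1 ∧ ∀ p : LlPt, p.Ok F → N0 ≤ p.N → p.sm = false → p.U F ≤ U1 →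
        ∀ i : SkwIn, i.ell = p.ell → i.lam = p.lam → i.U = p.U F → i.E = p.Eb F 𝔹 →
        ∀ z₁ ∈ Icc 0 (i.pf (skwLlProf 𝔹 F At cA)).zmax, ∀ z₂ ∈ Icc 0 (i.pf (skwLlProf 𝔹 F At cA)).zmax, z₁ ≤ z₂ →
          p.x ≤ skwInV (skwLlProf 𝔹 F At cA) i z₁ →
          (z₂ ≤ 𝔹.xiS F.T → c3 * p.lam * skwR z₁ ^ 2 * (z₂ - z₁)
              ≤ p.h F 𝔹 (skwInV (skwLlProf 𝔹 F At cA) i z₂) - p.h F 𝔹 (skwInV (skwLlProf 𝔹 F At cA) i z₁)) ∧
          (𝔹.xiS F.T ≤ z₁ → p.chiE * p.lam1 F / 2 * (z₂ - z₁)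
              ≤ p.h F 𝔹 (skwInV (skwLlProf 𝔹 F At cA) i z₂) - p.h F 𝔹 (skwInV (skwLlProf 𝔹 F At cA) i z₁))) ∧
      ∃ (A C cv : ℝ) (c : SkwC) (N0 : ℕ), 1 ≤ A ∧ 1 ≤ C ∧ 0 < cv ∧ c.Ok ∧ c.zs = 𝔹.xiS F.T ∧
        ∀ p : LlPt, p.Ok F → N0 ≤ p.N → p.sm = false → p.U F ≤ 1 / C → ∀ (Sv : ℝ → ℝ) (Z zlo : ℝ),
          SkwLlDev 𝔹 F (skwLlProf 𝔹 F At cA) p (skwLlIn 𝔹 F p Sv Z eps K A zlo) C1v Klo →
          SkwHyp c (skwInD (skwLlProf 𝔹 F At cA) (skwLlIn 𝔹 F p Sv Z eps K A zlo)) ∧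
          SkwPlat c (skwInD (skwLlProf 𝔹 F At cA) (skwLlIn 𝔹 F p Sv Z eps K A zlo)) ∧
          SkwInVConcl cv (skwLlProf 𝔹 F At cA) (skwLlIn 𝔹 F p Sv Z eps K A zlo) ∧
          SkwConcl C (skwInD (skwLlProf 𝔹 F At cA) (skwLlIn 𝔹 F p Sv Z eps K A zlo))
            (skwInD (skwLlProf 𝔹 F At cA) (skwLlIn 𝔹 F p Sv Z eps K A zlo)).zmax
            (skwInD (skwLlProf 𝔹 F At cA) (skwLlIn 𝔹 F p Sv Z eps K A zlo)).zmax c.zs
            (skwH c (skwInD (skwLlProf 𝔹 F At cA) (skwLlIn 𝔹 F p Sv Z eps K A zlo))) := by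
  -- the order of the representative
  obtain ⟨n, hn⟩ := exists_nat_gt ((K : ℝ) / eps)
  have hr2 : 2 ≤ n + 2 := by omega
  have hKr : (K : ℝ) < eps * (((n + 2 : ℕ) : ℝ) - 1) := by
    rw [div_lt_iff₀ he] at hn
    push_cast
    nlinarith
  obtain ⟨zb, cA, At, hzb, hcA, H⟩ := skw_l03 𝔹 T hb (n + 2)
  refine ⟨zb, cA, At, hzb, hcA, fun F hF hT hz hv c0 C0 v0 hc0 href => ?_⟩
  have hI := H F hF hT hz hv c0 C0 v0 hc0 href
  exact ⟨fun h4 => skw_ll_d3 𝔹 F At cA _ (n + 2) hr2 hI h4, skw_ll_direct 𝔹 F eps K C1v Klo he hK h1 h2 (n + 2) hr2 hKr At cA _ hI⟩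

end Claimed.Agent.R286
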