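import Claimed.Agent.R286.W.Leaves
import Claimed.Agent.R286.St.Adj

/-!
# Row 286, folder W, file Adj : Leaf ADJ (LL 08 l.138-154)      (helper188)      link of `SkwLeafAdj` to `st_adj_main` (R286/St/Adj.lean)
-/

set_option autoImplicit false

namespace Claimed.Agent.R286

open Set MeasureTheory

theorem skw_leaf_adj : SkwLeafAdj := by
  intro n κ hκ
  obtain ⟨C, hC, H⟩ := st_adj_main n κ hκ
  refine ⟨max C 1, le_max_right _ _, ?_⟩
  intro G α β M l a l₁ a' l₂ hG h0 hM hl h1 h2 h3 h4 h5 h6 h7 h8 h9 s hs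
  have hκ0 : 0 < κ := by linarith
  have hl1 : 0 < l₁ := lt_of_lt_of_le (by positivity) h1
  have hl2 : 0 < l₂ := lt_of_lt_of_le (by positivity) h3
  have key := H G α β M l hG h0 hM a (a + l₁) a' (a' + l₂) h5 (by linarith) h6 h7 (by linarith) h8 (by linarith) (by linarith)
    (by linarith) (by linarith) h9 s hs
  have e : a' + l₂ - a' = l₂ := by ring
  rw [e] at key
  have hI : 0 ≤ ∫ t in a'..(a' + l₂), G t :=
    intervalIntegral.integral_nonneg (by linarith) fun t ht => h0 t ⟨h7.trans ht.1, ht.2.trans h8⟩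
  have hM0 : 0 ≤ M := (abs_nonneg _).trans (hM a ⟨h5, by linarith⟩)
  have hX : 0 ≤ (∫ t in a'..(a' + l₂), G t) / l₂ + M * l ^ n := by positivity
  exact key.trans (mul_le_mul_of_nonneg_right (le_max_left _ _) hX)

end Claimed.Agent.R286
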