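import Mathlib

/-!
# Row 286 (S0533), folder W, file Defs : the deterministic width construction (LL Lemma 8.2)     (helper37; prefix `skw`)

PURE REAL ANALYSIS: no probability, no SK.  Everything lives in the coordinate `z` of LL sec. 8.2 (`dv = G dz`).
* `SkwC`  : structural constants (fixed before `N → ∞`);   `SkwD` : the data of one instance.
* `skwH0` : intrinsic width `H_0`,  `skwHf` : deviation cone `H_f`,  `SkwD.Hx` : extra 1-Lipschitz width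
  (direct path: the two endpoint functions `skwE1`, `skwE2`; low-region size path: a ramp beyond the working interval).
* `skwH`  : the width `𝔥` (active: `max H_0 H_f Hx`, plateau: `hpl`),  `skwE` : the envelope `e = min(r, Z² 𝔥)`.
* `SkwConcl` : what the users (Prop 8.1, Lemmas 8.3-8.8, sec. 9) may use.
The low-region variant of the paper is the SAME construction with `(U, Z) := (Y, 1)`, `G = 1`, no plateau.
-/

set_option autoImplicit false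

namespace Claimed.Agent.R286

open Set MeasureTheory

/-- structural constants -/
structure SkwC where
  /-- the active endpoint `z_* = ξ_*` -/
  zs : ℝ
  /-- bound of `G` on the active interval -/
  M0 : ℝ
  /-- Lipschitz constant of `q ∘ v` in `z` -/
  Lq : ℝ
  /-- `|f| ≤ Cf r` -/
  Cf : ℝ
  /-- the constant of (D1) -/
  C1 : ℝ
  /-- the constants of the plateau -/
  Cp : ℝ
  /-- the constant of the adjacent-interval comparison at comparability `κ` -/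
  Cadj : ℝ → ℝ

/-- the data of one instance, in the coordinate `z` -/
structure SkwD where
  x : ℝ
  U : ℝ
  Z : ℝ
  /-- the geometric slack `b_ε` -/
  b : ℝ
  /-- the artificial constant `x^K` -/
  tiny : ℝ
  /-- the slope of the cones -/
  A : ℝ
  /-- `E_b` -/
  E : ℝ
  /-- lower end of the cuts that are treated (`≍ Y`, or macroscopic in the relaxed regime) -/
  zlo : ℝ
  zmax : ℝ
  G : ℝ → ℝ
  S : ℝ → ℝ
  q : ℝ → ℝ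
  /-- the explicit plateau width -/
  hpl : ℝ → ℝ
  /-- extra width on the active interval -/
  Hx : ℝ → ℝ

/-- `r(z) = min(z,1)` -/
noncomputable def skwR (z : ℝ) : ℝ := min z 1

/-- `f = S - q` -/
def skwF (d : SkwD) (z : ℝ) : ℝ := d.S z - d.q z

/-- the logarithmic loss -/
noncomputable def skwL (d : SkwD) : ℝ := 1 + Real.log (1 / d.tiny)

/-- active density reflected evenly at the upper active endpoint -/
noncomputable def skwGr (c : SkwC) (d : SkwD) (s : ℝ) : ℝ := d.G (if s ≤ c.zs then s else 2 * c.zs - s)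

/-- `Φ_z(l) = l² ∫_{z-l}^{z+l} (G_refl + x^K)` -/
noncomputable def skwPhi (c : SkwC) (d : SkwD) (z l : ℝ) : ℝ :=
  l ^ 2 * ∫ s in (z - l)..(z + l), (skwGr c d s + d.tiny)

/-- the intrinsic width `H_0(z) = min(b r(z), l_0(z))`, `Φ_z(l_0) = U⁶ / r³` -/
noncomputable def skwH0 (c : SkwC) (d : SkwD) (z : ℝ) : ℝ :=
  sSup {l : ℝ | 0 ≤ l ∧ l ≤ d.b * skwR z ∧ skwPhi c d z l ≤ d.U ^ 6 / skwR z ^ 3}

/-- height of the source `s` -/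
noncomputable def skwSrc (d : SkwD) (s : ℝ) : ℝ := min (d.b * skwR s) (|skwF d s| / d.Z ^ 2)

/-- the cone envelope `H_f` -/
noncomputable def skwHf (c : SkwC) (d : SkwD) (z : ℝ) : ℝ :=
  sSup ((fun s : ℝ => max 0 (skwSrc d s - d.A * |s - z|)) '' Icc 0 c.zs)

/-- first endpoint function `(E/2 - d_*)_+` -/
noncomputable def skwE1 (c : SkwC) (d : SkwD) (z : ℝ) : ℝ := max 0 (d.E / 2 - (c.zs - z))

/-- second endpoint function `[2 min(E,b) - (d_* - E)_+]_+` -/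
noncomputable def skwE2 (c : SkwC) (d : SkwD) (z : ℝ) : ℝ :=
  max 0 (2 * min d.E d.b - max 0 (c.zs - z - d.E))

/-- the active width -/
noncomputable def skwHact (c : SkwC) (d : SkwD) (z : ℝ) : ℝ := max (max (skwH0 c d z) (skwHf c d z)) (d.Hx z)

/-- the width `𝔥` -/
noncomputable def skwH (c : SkwC) (d : SkwD) (z : ℝ) : ℝ := if z ≤ c.zs then skwHact c d z else d.hpl z

/-- the envelope `e = min(r, Z² 𝔥)` belonging to a width `hh` -/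
noncomputable def skwE (d : SkwD) (hh : ℝ → ℝ) (z : ℝ) : ℝ := min (skwR z) (d.Z ^ 2 * hh z)

/-- sanity of the structural constants -/
structure SkwC.Ok (c : SkwC) : Prop where
  zs : 0 < c.zs
  M0 : 1 ≤ c.M0
  Lq : 1 ≤ c.Lq
  Cf : 1 ≤ c.Cf
  C1 : 1 ≤ c.C1
  Cp : 1 ≤ c.Cp
  Cadj : ∀ κ : ℝ, 1 ≤ c.Cadj κ

/-- the adjacent-interval comparison (LL l.138-154) as a property of `G` on `[0, zs]` -/
def SkwAdj (c : SkwC) (d : SkwD) : Prop :=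
  ∀ κ l a l₁ a' l₂ : ℝ, 1 ≤ κ → 0 < l → l ≤ κ * d.b → l / κ ≤ l₁ → l₁ ≤ κ * l → l / κ ≤ l₂ → l₂ ≤ κ * l →
    0 ≤ a → a + l₁ ≤ c.zs → 0 ≤ a' → a' + l₂ ≤ c.zs → |a - a'| ≤ κ * l →
    ∀ s ∈ Icc a (a + l₁), d.G s ≤ c.Cadj κ * ((∫ t in a'..(a' + l₂), d.G t) / l₂ + d.tiny)

/-- common hypotheses -/
structure SkwHyp (c : SkwC) (d : SkwD) : Prop where
  x0 : 0 < d.x
  xU : d.x ≤ d.U
  U1 : d.U ≤ 1
  Z1 : 1 ≤ d.Z
  b0 : 0 < d.b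
  b1 : d.b ≤ 1 / 8
  t0 : 0 < d.tiny
  t1 : d.tiny ≤ d.x ^ 12
  A1 : 1 ≤ d.A
  zlo0 : 0 < d.zlo
  zlo1 : d.zlo ≤ c.zs / 4
  zmax : c.zs ≤ d.zmax
  G0 : ∀ z ∈ Icc 0 d.zmax, 0 ≤ d.G z
  GM : ∀ z ∈ Icc 0 c.zs, d.G z ≤ c.M0
  Gc : ContinuousOn d.G (Icc 0 c.zs)
  Gi : IntervalIntegrable d.G volume 0 d.zmax
  adj : SkwAdj c d
  Smono : MonotoneOn d.S (Icc 0 d.zmax)
  S0 : ∀ z ∈ Icc 0 d.zmax, 0 ≤ d.S z
  S1 : ∀ z ∈ Icc 0 d.zmax, d.S z ≤ 1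
  qlip : ∀ z ∈ Icc 0 d.zmax, ∀ z' ∈ Icc 0 d.zmax, |d.q z - d.q z'| ≤ c.Lq * |z - z'|
  q0 : ∀ z ∈ Icc 0 d.zmax, 0 ≤ d.q z
  q1 : ∀ z ∈ Icc 0 d.zmax, d.q z ≤ 1
  fr : ∀ z ∈ Icc (d.zlo / 4) d.zmax, |skwF d z| ≤ c.Cf * skwR z
  /-- (D1) on the bands `[ρ, 2ρ]` -/
  D1 : ∀ ρ ∈ Icc (d.zlo / 4) d.zmax,
    ∫ z in ρ..(min (2 * ρ) d.zmax), skwF d z ^ 2 * d.G z ≤ c.C1 * (d.U * d.Z) ^ 4 / skwR ρ
  Hx0 : ∀ z ∈ Icc 0 c.zs, 0 ≤ d.Hx z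
  Hxlip : ∀ z ∈ Icc 0 c.zs, ∀ z' ∈ Icc 0 c.zs, |d.Hx z - d.Hx z'| ≤ |z - z'|
  Hxr : ∀ z ∈ Icc 0 c.zs, d.Hx z ≤ 2 * skwR z

/-- hypotheses on the plateau `[zs, zmax]` and on the last active interval of length `E` (direct paths) -/
structure SkwPlat (c : SkwC) (d : SkwD) : Prop where
  E0 : 0 < d.E
  E1 : d.E ≤ c.zs / 4
  E2 : d.E ≤ 1
  massE_lo : d.U ^ 4 / d.E ^ 2 ≤ ∫ z in (c.zs - d.E)..c.zs, d.G z
  massE_hi : ∫ z in (c.zs - d.E)..c.zs, d.G z ≤ 2 * d.U ^ 4 / d.E ^ 2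
  Hx : ∀ z, d.Hx z = max (skwE1 c d z) (skwE2 c d z)
  qconst : ∀ z ∈ Icc c.zs d.zmax, d.q z = d.q c.zs
  /-- macroscopic version of (D1) -/
  D1mac : ∫ z in (c.zs / 2)..d.zmax, skwF d z ^ 2 * d.G z ≤ c.C1 * (d.U * d.Z) ^ 4
  hlip : ∀ z ∈ Icc c.zs d.zmax, ∀ z' ∈ Icc c.zs d.zmax, |d.hpl z - d.hpl z'| ≤ |z - z'|
  hjoin_lo : d.E ≤ d.hpl c.zs
  hjoin_hi : d.hpl c.zs ≤ c.Cp * d.E
  hup : ∀ z ∈ Icc c.zs d.zmax, d.hpl z ≤ c.Cp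
  Gh_lo : ∀ z ∈ Ioc c.zs d.zmax, d.U ^ 4 / c.Cp ≤ d.G z * d.hpl z ^ 3
  Gh_hi : ∀ z ∈ Ioc c.zs d.zmax, d.G z * d.hpl z ^ 3 ≤ c.Cp * d.U ^ 4
  strip : ∀ z ∈ Icc (d.zmax - 1 / c.Cp) d.zmax, 1 / c.Cp ≤ d.hpl z
  len_lo : c.zs + 2 / c.Cp ≤ d.zmax
  len_hi : d.zmax ≤ c.Cp
  bud : ∫ z in c.zs..d.zmax, d.G z * d.hpl z ^ 2 ≤ c.Cp * skwL d * d.U ^ 4
  up : ∀ z ∈ Icc c.zs d.zmax, d.U ^ 4 / c.Cp ≤ d.hpl z ^ 2 * ((∫ s in z..d.zmax, d.G s) + d.U ^ 4)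
  dn : ∀ z ∈ Icc c.zs d.zmax, d.U ^ 4 / c.Cp ≤ d.hpl z ^ 2 * ((∫ s in c.zs..z, d.G s) + d.U ^ 4 / d.E ^ 2)
  mass : 1 / c.Cp ≤ ∫ z in c.zs..d.zmax, d.G z
  mass_hi : ∫ z in c.zs..d.zmax, d.G z ≤ c.Cp

/-- a window `[a, a+l]` for the cut `z` and the width `w = hh z` : (D4) -/
structure SkwWin (C : ℝ) (d : SkwD) (z w a l : ℝ) : Prop where
  len_lo : w / C ≤ l
  len_hi : l ≤ w
  near : |a - z| ≤ C * w
  sup : ∀ s ∈ Ioo a (a + l), d.G s ≤ C * ((∫ t in a..(a + l), d.G t) / l)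
  big : d.U ^ 6 / (C * skwR z ^ 3) ≤ (∫ t in a..(a + l), d.G t) / l * w ^ 3

/-- **the conclusions of Lemma 8.2**, for cuts in `[zlo, zhi]`, buffers in `[zlo/2, zbuf]`; `zj` = a prescribed tile boundary (the join) -/
structure SkwConcl (C : ℝ) (d : SkwD) (zhi zbuf zj : ℝ) (hh : ℝ → ℝ) : Prop where
  /-- (i) quasi-Lipschitz -/
  qlip : ∀ z ∈ Icc (d.zlo / 2) zbuf, ∀ z' ∈ Icc (d.zlo / 2) zbuf, hh z' ≤ C * (hh z + |z - z'|)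
  meas : AEStronglyMeasurable hh (volume.restrict (Icc (d.zlo / 2) zbuf))
  lower : ∀ z ∈ Icc (d.zlo / 2) zbuf, min (d.b * skwR z) (d.U ^ 2 / skwR z) / C ≤ hh z
  upper : ∀ z ∈ Icc (d.zlo / 2) zbuf, hh z ≤ C * skwR z
  dev : ∀ z ∈ Icc (d.zlo / 2) zbuf, |skwF d z| ≤ C * skwE d hh z / d.b
  budget : ∀ ρ ∈ Icc d.zlo zhi, ∫ z in ρ..(min (2 * ρ) zhi), d.G z * hh z ^ 2 ≤ C * skwL d * d.U ^ 4 / skwR ρ
  /-- (ii) windows at the nontrivial cuts -/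
  win : ∀ z ∈ Icc d.zlo zbuf, d.Z ^ 2 * hh z < d.b * skwR z / C →
    (∃ a l, d.zlo / 2 ≤ a ∧ a + l ≤ z ∧ SkwWin C d z (hh z) a l) ∧
    (∃ a l, z ≤ a ∧ a + l ≤ zbuf ∧ SkwWin C d z (hh z) a l) ∧ z + 1 / C ≤ zbuf
  /-- (iii) tiles -/
  tiles : ∃ (n : ℕ) (t : ℕ → ℝ), t 0 = d.zlo ∧ t n = zhi ∧ (∀ i < n, t i < t (i + 1)) ∧
    (zj ∈ Icc d.zlo zhi → ∃ k ≤ n, t k = zj) ∧
    ∀ i < n,
      (∀ z ∈ Icc (t i) (t (i + 1)), hh z / C ≤ t (i + 1) - t i ∧ t (i + 1) - t i ≤ C * hh z) ∧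
      (∀ z ∈ Ioo (t i) (t (i + 1)),
        d.G z ≤ C / d.b * ((∫ s in (t i)..(t (i + 1)), d.G s) / (t (i + 1) - t i) + d.tiny)) ∧
      (∀ z ∈ Icc (d.zlo / 2) zbuf, ∀ z' ∈ Icc (d.zlo / 2) zbuf, z ≤ z' →
        t i - (t (i + 1) - t i) ≤ z → z' ≤ t (i + 1) + (t (i + 1) - t i) →
        d.S z' - d.S z ≤ C / d.b * min (skwR (t i)) (d.Z ^ 2 * (t (i + 1) - t i)))

end Claimed.Agent.R286
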