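import Claimed.Agent.R286.W.Plat

/-!
# Row 286, folder W, file EndB : leaf ENDB of the width construction (LL Lemma 8.2, "The plateau and its active edge", second half)
(helper221; prefix `skw_eb_`)

Squared budget of the two endpoint functions: `∫_0^zs G Hx² ≤ C U⁴`.
-/

set_option autoImplicit false

namespace Claimed.Agent.R286

open Set MeasureTheory

section endb

variable {c : SkwC} {d : SkwD}

theorem skw_eb_Hx_cont (p : SkwPlat c d) : Continuous d.Hx := by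
  have e : d.Hx = fun z => max (skwE1 c d z) (skwE2 c d z) := funext p.Hx
  rw [e]
  unfold skwE1 skwE2
  fun_prop

theorem skw_eb_int (_hc : c.Ok) (h : SkwHyp c d) (p : SkwPlat c d) {α β : ℝ} (hα : α ∈ Icc 0 c.zs)
    (hβ : β ∈ Icc 0 c.zs) : IntervalIntegrable (fun z => d.G z * d.Hx z ^ 2) volume α β := by
  refine ContinuousOn.intervalIntegrable ?_
  have h1 : ContinuousOn (fun z => d.G z * d.Hx z ^ 2) (Icc 0 c.zs) :=
    h.Gc.mul ((skw_eb_Hx_cont p).continuousOn.pow 2)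
  exact h1.mono (uIcc_subset_Icc hα hβ)

/-- `0 ≤ Hx ≤ 2 E` on the active interval -/
theorem skw_eb_Hx_le (_h : SkwHyp c d) (p : SkwPlat c d) {z : ℝ} (hz : z ≤ c.zs) : d.Hx z ≤ 2 * d.E := by
  have hE0 := p.E0
  rw [p.Hx z]
  unfold skwE1 skwE2
  have h1 : min d.E d.b ≤ d.E := min_le_left _ _
  have h2 : (0 : ℝ) ≤ max 0 (c.zs - z - d.E) := le_max_left _ _
  refine max_le (max_le (by linarith) (by linarith)) (max_le (by linarith) (by linarith))

theorem skw_eb_Hx_nonneg (p : SkwPlat c d) (z : ℝ) : 0 ≤ d.Hx z := by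
  rw [p.Hx z]
  exact le_trans (le_max_left _ _) (le_max_left _ _)

/-- `Hx ≤ 2 min(E,b)` at distance `≥ E` of the endpoint -/
theorem skw_eb_Hx_le_mid (h : SkwHyp c d) (p : SkwPlat c d) {z : ℝ} (hz : z ≤ c.zs - d.E) :
    d.Hx z ≤ 2 * min d.E d.b := by
  have hE0 := p.E0
  have hmu : 0 < min d.E d.b := lt_min p.E0 h.b0
  rw [p.Hx z]
  unfold skwE1 skwE2
  have h2 : (0 : ℝ) ≤ max 0 (c.zs - z - d.E) := le_max_left _ _
  refine max_le (max_le (by linarith) (by linarith)) (max_le (by linarith) (by linarith))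

/-- `Hx = 0` at distance `≥ E + 2 min(E,b)` of the endpoint -/
theorem skw_eb_Hx_zero (h : SkwHyp c d) (p : SkwPlat c d) {z : ℝ} (hz : z ≤ c.zs - d.E - 2 * min d.E d.b) :
    d.Hx z = 0 := by
  have hE0 := p.E0
  have hmu : 0 < min d.E d.b := lt_min p.E0 h.b0
  refine le_antisymm ?_ (skw_eb_Hx_nonneg p z)
  rw [p.Hx z]
  unfold skwE1 skwE2
  have h2 : c.zs - z - d.E ≤ max 0 (c.zs - z - d.E) := le_max_right _ _
  refine max_le (max_le le_rfl (by linarith)) (max_le le_rfl (by linarith))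

/-- the last active interval of length `E` -/
theorem skw_eb_I3 (hc : c.Ok) (h : SkwHyp c d) (p : SkwPlat c d) :
    ∫ z in (c.zs - d.E)..c.zs, d.G z * d.Hx z ^ 2 ≤ 8 * d.U ^ 4 := by
  have hzs := hc.zs
  have hE0 := p.E0
  have hE1 := p.E1
  have ha : c.zs - d.E ∈ Icc 0 c.zs := ⟨by linarith, by linarith⟩
  have hb : c.zs ∈ Icc 0 c.zs := ⟨hzs.le, le_rfl⟩
  have ha' : c.zs - d.E ∈ Icc 0 d.zmax := ⟨ha.1, le_trans ha.2 h.zmax⟩
  have hb' : c.zs ∈ Icc 0 d.zmax := ⟨hzs.le, h.zmax⟩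
  calc ∫ z in (c.zs - d.E)..c.zs, d.G z * d.Hx z ^ 2
      ≤ ∫ z in (c.zs - d.E)..c.zs, (2 * d.E) ^ 2 * d.G z := by
        refine intervalIntegral.integral_mono_on (by linarith) (skw_eb_int hc h p ha hb)
          ((skw_pl_G_int h ha' hb').const_mul _) ?_
        intro z hz
        have hG := h.G0 z ⟨by linarith [hz.1], by linarith [hz.2, h.zmax]⟩
        have h1 : d.Hx z ^ 2 ≤ (2 * d.E) ^ 2 := pow_le_pow_left₀ (skw_eb_Hx_nonneg p z) (skw_eb_Hx_le h p hz.2) 2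
        calc d.G z * d.Hx z ^ 2 ≤ d.G z * (2 * d.E) ^ 2 := mul_le_mul_of_nonneg_left h1 hG
          _ = (2 * d.E) ^ 2 * d.G z := by ring
    _ = (2 * d.E) ^ 2 * ∫ z in (c.zs - d.E)..c.zs, d.G z := by rw [intervalIntegral.integral_const_mul]
    _ ≤ (2 * d.E) ^ 2 * (2 * d.U ^ 4 / d.E ^ 2) := mul_le_mul_of_nonneg_left p.massE_hi (by positivity)
    _ = 8 * d.U ^ 4 := by field_simp; ring

/-- the additional layer of length `2 min(E,b)` -/
theorem skw_eb_I2 (hc : c.Ok) (h : SkwHyp c d) (p : SkwPlat c d) :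
    ∫ z in (c.zs - d.E - 2 * min d.E d.b)..(c.zs - d.E), d.G z * d.Hx z ^ 2 ≤ 24 * c.Cadj 2 * d.U ^ 4 := by
  have hzs := hc.zs
  have hE0 := p.E0
  have hE1 := p.E1
  have hE2 := p.E2
  have hU := skw_pl_Upos h
  set μ : ℝ := min d.E d.b with hμ
  have hmu : 0 < μ := lt_min p.E0 h.b0
  have hmuE : μ ≤ d.E := min_le_left _ _
  have hmub : μ ≤ d.b := min_le_right _ _
  have hmu1 : μ ≤ 1 := le_trans hmuE hE2
  have hCa : 1 ≤ c.Cadj 2 := hc.Cadj 2
  have ha : c.zs - d.E - 2 * μ ∈ Icc 0 c.zs := ⟨by linarith, by linarith⟩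
  have hb : c.zs - d.E ∈ Icc 0 c.zs := ⟨by linarith, by linarith⟩
  have ha' : c.zs - d.E - 2 * μ ∈ Icc 0 d.zmax := ⟨ha.1, le_trans ha.2 h.zmax⟩
  have hb' : c.zs - d.E ∈ Icc 0 d.zmax := ⟨hb.1, le_trans hb.2 h.zmax⟩
  set m' : ℝ := ∫ t in (c.zs - d.E)..(c.zs - d.E + μ), d.G t with hm'
  have hm'0 : 0 ≤ m' := skw_pl_mass_nonneg h hb.1 (by linarith) (by linarith [h.zmax])
  have hm'1 : m' ≤ 2 * d.U ^ 4 / d.E ^ 2 :=
    le_trans (skw_pl_mass_mono h hb.1 le_rfl (by linarith) (by linarith) h.zmax) p.massE_hi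
  -- the adjacent-interval comparison
  have hadj : ∀ s ∈ Icc (c.zs - d.E - 2 * μ) (c.zs - d.E), d.G s ≤ c.Cadj 2 * (m' / μ + d.tiny) := by
    have := h.adj 2 μ (c.zs - d.E - 2 * μ) (2 * μ) (c.zs - d.E) μ (by norm_num) hmu (by linarith) (by linarith)
      le_rfl (by linarith) (by linarith) ha.1 (by linarith) hb.1 (by linarith)
      (by
        rw [abs_le]
        constructor <;> linarith)
    intro s hs
    have e : c.zs - d.E - 2 * μ + 2 * μ = c.zs - d.E := by ring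
    rw [e] at this
    exact this s hs
  calc ∫ z in (c.zs - d.E - 2 * μ)..(c.zs - d.E), d.G z * d.Hx z ^ 2
      ≤ ∫ _z in (c.zs - d.E - 2 * μ)..(c.zs - d.E), c.Cadj 2 * (m' / μ + d.tiny) * (2 * μ) ^ 2 := by
        refine intervalIntegral.integral_mono_on (by linarith) (skw_eb_int hc h p ha hb)
          intervalIntegrable_const ?_
        intro z hz
        have hG := h.G0 z ⟨by linarith [hz.1, ha.1], by linarith [hz.2, hb'.2]⟩
        have h1 : d.Hx z ^ 2 ≤ (2 * μ) ^ 2 :=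
          pow_le_pow_left₀ (skw_eb_Hx_nonneg p z) (skw_eb_Hx_le_mid h p hz.2) 2
        calc d.G z * d.Hx z ^ 2 ≤ d.G z * (2 * μ) ^ 2 := mul_le_mul_of_nonneg_left h1 hG
          _ ≤ c.Cadj 2 * (m' / μ + d.tiny) * (2 * μ) ^ 2 :=
              mul_le_mul_of_nonneg_right (hadj z hz) (by positivity)
    _ = 8 * c.Cadj 2 * (μ ^ 2 * m' + μ ^ 3 * d.tiny) := by
        rw [intervalIntegral.integral_const, smul_eq_mul]
        field_simp
        ring
    _ ≤ 8 * c.Cadj 2 * (2 * d.U ^ 4 + d.U ^ 4) := by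
        refine mul_le_mul_of_nonneg_left ?_ (by positivity)
        have h1 : μ ^ 2 * m' ≤ 2 * d.U ^ 4 := by
          calc μ ^ 2 * m' ≤ d.E ^ 2 * m' :=
                mul_le_mul_of_nonneg_right (pow_le_pow_left₀ hmu.le hmuE 2) hm'0
            _ ≤ d.E ^ 2 * (2 * d.U ^ 4 / d.E ^ 2) := mul_le_mul_of_nonneg_left hm'1 (by positivity)
            _ = 2 * d.U ^ 4 := by field_simp
        have h2 : μ ^ 3 * d.tiny ≤ d.U ^ 4 := by
          calc μ ^ 3 * d.tiny ≤ 1 * d.tiny :=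
                mul_le_mul_of_nonneg_right (pow_le_one₀ hmu.le hmu1) h.t0.le
            _ = d.tiny := one_mul _
            _ ≤ d.U ^ 4 := skw_pl_tiny_le4 h
        linarith
    _ = 24 * c.Cadj 2 * d.U ^ 4 := by ring

/-- nothing below -/
theorem skw_eb_I1 (h : SkwHyp c d) (p : SkwPlat c d) :
    ∫ z in (0 : ℝ)..(c.zs - d.E - 2 * min d.E d.b), d.G z * d.Hx z ^ 2 = 0 := by
  have hle : (0 : ℝ) ≤ c.zs - d.E - 2 * min d.E d.b := by
    have h1 : min d.E d.b ≤ d.E := min_le_left _ _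
    have := p.E1
    have := p.E0
    linarith
  have : ∀ z ∈ uIcc (0 : ℝ) (c.zs - d.E - 2 * min d.E d.b), d.G z * d.Hx z ^ 2 = (fun _ => (0 : ℝ)) z := by
    intro z hz
    rw [uIcc_of_le hle] at hz
    rw [skw_eb_Hx_zero h p hz.2]
    simp
  rw [intervalIntegral.integral_congr this]
  simp

/-- **Leaf ENDB**. -/
theorem skw_leaf_endb : SkwLeafEndB := by
  intro c hc
  have hCa : 1 ≤ c.Cadj 2 := hc.Cadj 2
  refine ⟨8 + 24 * c.Cadj 2, by linarith, ?_⟩
  intro d h p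
  have hzs := hc.zs
  have hE0 := p.E0
  have hE1 := p.E1
  have hmu : 0 < min d.E d.b := lt_min p.E0 h.b0
  have hmuE : min d.E d.b ≤ d.E := min_le_left _ _
  have h0 : (0 : ℝ) ∈ Icc 0 c.zs := ⟨le_rfl, hzs.le⟩
  have ha : c.zs - d.E - 2 * min d.E d.b ∈ Icc 0 c.zs := ⟨by linarith, by linarith⟩
  have hb : c.zs - d.E ∈ Icc 0 c.zs := ⟨by linarith, by linarith⟩
  have hz : c.zs ∈ Icc 0 c.zs := ⟨hzs.le, le_rfl⟩
  have e1 := intervalIntegral.integral_add_adjacent_intervals (skw_eb_int hc h p h0 ha) (skw_eb_int hc h p ha hb)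
  have e2 := intervalIntegral.integral_add_adjacent_intervals (skw_eb_int hc h p h0 hb) (skw_eb_int hc h p hb hz)
  rw [← e2, ← e1, skw_eb_I1 h p]
  have i2 := skw_eb_I2 hc h p
  have i3 := skw_eb_I3 hc h p
  linarith

end endb

end Claimed.Agent.R286
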