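import Claimed.Agent.R286.W.Plat

/-!
# Row 286, folder W, file Join : leaf JOIN of the width construction (LL Lemma 8.2, "Matching the two coordinates at the join")
(helper221; prefix `skw_jn_`)

* `skw_jn_src` : the sources of the cone obey `src s ≤ CJ (E + (zs - s))`.
* `skw_jn_H0`  : `H_0 z ≤ 2 (E + (zs - z))` (directly from the definition of `skwH0`; leaf H0 is not used).
* `skw_leaf_join : SkwLeafJoin`.
-/

set_option autoImplicit false

namespace Claimed.Agent.R286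

open Set MeasureTheory

section join

variable {c : SkwC} {d : SkwD}

theorem skw_jn_R_le_one (z : ℝ) : skwR z ≤ 1 := min_le_right _ _

theorem skw_jn_R_le (z : ℝ) : skwR z ≤ z := min_le_left _ _

theorem skw_jn_src_le_b (h : SkwHyp c d) (s : ℝ) : skwSrc d s ≤ d.b :=
  le_trans (skw_pl_src_le_b d s) (by
    calc d.b * skwR s ≤ d.b * 1 := mul_le_mul_of_nonneg_left (skw_jn_R_le_one s) h.b0.le
      _ = d.b := mul_one _)

/-- positive deviation: either small, or an edge source -/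
theorem skw_jn_pos (hc : c.Ok) (h : SkwHyp c d) (p : SkwPlat c d) {CJ : ℝ} (hCJ : 1 ≤ CJ) (hL : 2 * c.Lq ≤ CJ)
    (hK : 4 * c.Cp * c.C1 * c.M0 ≤ CJ) {s : ℝ} (hs : s ∈ Icc 0 c.zs) (hf : 0 ≤ skwF d s) :
    skwSrc d s ≤ CJ * (d.E + (c.zs - s)) := by
  have hE0 := p.E0
  have hd : 0 ≤ c.zs - s := by linarith [hs.2]
  have hCJ0 : 0 ≤ CJ := le_trans zero_le_one hCJ
  by_cases h1 : skwF d s ≤ 2 * c.Lq * (c.zs - s)
  · have h2 := skw_pl_src_le_absf h s
    rw [abs_of_nonneg hf] at h2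
    calc skwSrc d s ≤ 2 * c.Lq * (c.zs - s) := le_trans h2 h1
      _ ≤ CJ * (c.zs - s) := mul_le_mul_of_nonneg_right hL hd
      _ ≤ CJ * (d.E + (c.zs - s)) := mul_le_mul_of_nonneg_left (by linarith) hCJ0
  · rw [not_le] at h1
    have h2 := skw_pl_edge_sq hc h p hs h1.le
    have h3 := skw_pl_U4_le hc h p
    have hCp := skw_pl_Cp_pos hc
    have hC1 : 0 < c.C1 := lt_of_lt_of_le one_pos hc.C1
    have hM0 : 0 < c.M0 := lt_of_lt_of_le one_pos hc.M0
    have h4 : d.E ^ 3 ≤ d.E ^ 2 := pow_le_pow_of_le_one hE0.le p.E2 (by norm_num)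
    have h5 : skwF d s ^ 2 ≤ 4 * c.Cp * c.C1 * c.M0 * d.Z ^ 4 * d.E ^ 2 := by
      have hZ4 : 0 ≤ d.Z ^ 4 := by positivity
      calc skwF d s ^ 2 ≤ 4 * c.Cp * c.C1 * (d.U ^ 4 * d.Z ^ 4) := h2
        _ ≤ 4 * c.Cp * c.C1 * ((c.M0 * d.E ^ 2) * d.Z ^ 4) := by
            refine mul_le_mul_of_nonneg_left (mul_le_mul_of_nonneg_right ?_ hZ4) (by positivity)
            exact le_trans h3 (mul_le_mul_of_nonneg_left h4 hM0.le)
        _ = _ := by ring
    calc skwSrc d s ≤ |skwF d s| / d.Z ^ 2 := skw_pl_src_le_f d s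
      _ ≤ CJ * d.E := skw_pl_div_of_sq h hE0.le hK hCJ h5
      _ ≤ CJ * (d.E + (c.zs - s)) := mul_le_mul_of_nonneg_left (by linarith) hCJ0

/-- negative deviation `≤ -2 Lq δ`, `δ = E + (zs - s) < b`: it persists on `[s - δ, s]`, whose mass is comparable to the last-`E` mass -/
theorem skw_jn_neg_sq (hc : c.Ok) (h : SkwHyp c d) (p : SkwPlat c d) (hb : d.b ≤ c.zs / 4)
    (hUa : c.Cadj 1 * d.U ≤ 1) {s : ℝ} (hs : s ∈ Icc 0 c.zs) (hδ : d.E + (c.zs - s) < d.b)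
    (hf : skwF d s ≤ -(2 * c.Lq * (d.E + (c.zs - s)))) :
    skwF d s ^ 2 ≤ 2 * c.Cadj 1 * (4 * c.C1) * d.Z ^ 4 * d.E ^ 2 := by
  have hzs := hc.zs
  have hE0 := p.E0
  have hU := skw_pl_Upos h
  have hLq : 0 < c.Lq := lt_of_lt_of_le one_pos hc.Lq
  have hCa : 1 ≤ c.Cadj 1 := hc.Cadj 1
  have hCa0 : 0 < c.Cadj 1 := lt_of_lt_of_le one_pos hCa
  have hd : 0 ≤ c.zs - s := by linarith [hs.2]
  set δ : ℝ := d.E + (c.zs - s) with hδdef
  have hδ0 : 0 < δ := by linarith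
  have hEδ : d.E ≤ δ := by linarith
  have hδ8 : δ ≤ 1 / 8 := le_trans hδ.le h.b1
  have hsδ : c.zs / 2 ≤ s - δ := by linarith
  have hsmem : s ∈ Icc 0 d.zmax := ⟨hs.1, le_trans hs.2 h.zmax⟩
  set m : ℝ := ∫ t in (s - δ)..s, d.G t with hm
  -- persistence
  have hper : skwF d s ^ 2 / 4 * m ≤ ∫ t in (c.zs / 2)..d.zmax, skwF d t ^ 2 * d.G t := by
    refine skw_pl_persist hc h (by linarith) hsδ (by linarith) hsmem.2 le_rfl ?_
    intro t ht
    have htmem : t ∈ Icc 0 d.zmax := ⟨by linarith [ht.1], by linarith [ht.2, hsmem.2]⟩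
    have hS := h.Smono htmem hsmem ht.2
    have hq := h.qlip s hsmem t htmem
    have hq' : d.q s - d.q t ≤ c.Lq * δ := by
      have h1 : |s - t| ≤ δ := by
        rw [abs_of_nonneg (by linarith [ht.2])]
        linarith [ht.1]
      calc d.q s - d.q t ≤ |d.q s - d.q t| := le_abs_self _
        _ ≤ c.Lq * |s - t| := hq
        _ ≤ c.Lq * δ := mul_le_mul_of_nonneg_left h1 hLq.le
    have hft : skwF d t ≤ skwF d s / 2 := by
      have e1 : skwF d t = d.S t - d.q t := rfl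
      have e2 : skwF d s = d.S s - d.q s := rfl
      rw [e1]
      rw [e2] at hf ⊢
      linarith
    have hneg : skwF d s / 2 ≤ 0 := by
      have : 0 ≤ 2 * c.Lq * δ := by positivity
      linarith
    calc skwF d s ^ 2 / 4 = (skwF d s / 2) ^ 2 := by ring
      _ ≤ skwF d t ^ 2 := skw_pl_sq_anti hft hneg
  have h1 : skwF d s ^ 2 * m ≤ 4 * c.C1 * (d.U ^ 4 * d.Z ^ 4) := by
    have := le_trans hper (skw_pl_D1mac p)
    linarith
  -- adjacent intervals
  have hadj : ∀ t ∈ Icc (c.zs - δ) c.zs, d.G t ≤ c.Cadj 1 * (m / δ + d.tiny) := by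
    have := h.adj 1 δ (c.zs - δ) δ (s - δ) δ le_rfl hδ0 (by linarith) (by rw [div_one]) (by linarith)
      (by rw [div_one]) (by linarith) (by linarith) (by linarith) (by linarith) (by linarith [hs.2])
      (by
        rw [abs_le]
        constructor <;> linarith)
    intro t ht
    have e1 : c.zs - δ + δ = c.zs := by ring
    have e2 : s - δ + δ = s := by ring
    rw [e1, e2] at this
    exact this t ht
  have hmass : ∫ t in (c.zs - δ)..c.zs, d.G t ≤ c.Cadj 1 * (m + δ * d.tiny) := by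
    calc ∫ t in (c.zs - δ)..c.zs, d.G t ≤ ∫ _t in (c.zs - δ)..c.zs, c.Cadj 1 * (m / δ + d.tiny) := by
          refine intervalIntegral.integral_mono_on (by linarith)
            (skw_pl_G_int h ⟨by linarith, by linarith [h.zmax]⟩ ⟨hzs.le, h.zmax⟩) intervalIntegrable_const hadj
      _ = c.Cadj 1 * (m + δ * d.tiny) := by
          rw [intervalIntegral.integral_const, smul_eq_mul]
          field_simp
          ring
  have hlow : d.U ^ 4 / d.E ^ 2 ≤ c.Cadj 1 * (m + δ * d.tiny) :=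
    le_trans p.massE_lo (le_trans (skw_pl_mass_mono h (by linarith) (by linarith) (by linarith) le_rfl h.zmax) hmass)
  have htiny : c.Cadj 1 * d.tiny ≤ d.U ^ 4 := by
    calc c.Cadj 1 * d.tiny ≤ c.Cadj 1 * d.U ^ 12 := mul_le_mul_of_nonneg_left (skw_pl_tiny_le h) hCa0.le
      _ = (c.Cadj 1 * d.U) * d.U ^ 11 := by ring
      _ ≤ 1 * d.U ^ 11 := mul_le_mul_of_nonneg_right hUa (by positivity)
      _ = d.U ^ 11 := one_mul _
      _ ≤ d.U ^ 4 := pow_le_pow_of_le_one hU.le h.U1 (by norm_num)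
  have h3 : d.U ^ 4 / (2 * c.Cadj 1) ≤ d.E ^ 2 * m := by
    rw [div_le_iff₀ (by positivity)] at hlow ⊢
    have hE21 : d.E ^ 2 ≤ 1 := pow_le_one₀ hE0.le p.E2
    have hU4 : 0 ≤ d.U ^ 4 := by positivity
    have h4 : c.Cadj 1 * (δ * d.tiny) * d.E ^ 2 ≤ d.U ^ 4 / 8 := by
      have h5 : 0 ≤ c.Cadj 1 * d.tiny := mul_nonneg hCa0.le h.t0.le
      calc c.Cadj 1 * (δ * d.tiny) * d.E ^ 2 = (c.Cadj 1 * d.tiny) * (δ * d.E ^ 2) := by ring
        _ ≤ (c.Cadj 1 * d.tiny) * (1 / 8 * 1) := by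
            refine mul_le_mul_of_nonneg_left ?_ h5
            exact mul_le_mul hδ8 hE21 (by positivity) (by norm_num)
        _ ≤ d.U ^ 4 * (1 / 8 * 1) := mul_le_mul_of_nonneg_right htiny (by norm_num)
        _ = d.U ^ 4 / 8 := by ring
    have h6 : c.Cadj 1 * (m + δ * d.tiny) * d.E ^ 2 = c.Cadj 1 * m * d.E ^ 2 + c.Cadj 1 * (δ * d.tiny) * d.E ^ 2 := by
      ring
    rw [h6] at hlow
    nlinarith
  exact skw_pl_alg hU (by positivity) h1 h3

theorem skw_jn_src (hc : c.Ok) (h : SkwHyp c d) (p : SkwPlat c d) {CJ : ℝ} (hCJ : 1 ≤ CJ) (hL : 2 * c.Lq ≤ CJ)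
    (hK1 : 4 * c.Cp * c.C1 * c.M0 ≤ CJ) (hK2 : 2 * c.Cadj 1 * (4 * c.C1) ≤ CJ) (hb : d.b ≤ c.zs / 4)
    (hUa : c.Cadj 1 * d.U ≤ 1) {s : ℝ} (hs : s ∈ Icc 0 c.zs) : skwSrc d s ≤ CJ * (d.E + (c.zs - s)) := by
  have hE0 := p.E0
  have hd : 0 ≤ c.zs - s := by linarith [hs.2]
  have hCJ0 : 0 ≤ CJ := le_trans zero_le_one hCJ
  have hδ0 : 0 ≤ d.E + (c.zs - s) := by linarith
  by_cases hδ : d.b ≤ d.E + (c.zs - s)
  · calc skwSrc d s ≤ d.b := skw_jn_src_le_b h s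
      _ ≤ 1 * (d.E + (c.zs - s)) := by linarith
      _ ≤ CJ * (d.E + (c.zs - s)) := mul_le_mul_of_nonneg_right hCJ hδ0
  · rw [not_le] at hδ
    rcases le_total 0 (skwF d s) with hf | hf
    · exact skw_jn_pos hc h p hCJ hL hK1 hs hf
    · by_cases h1 : skwF d s ≤ -(2 * c.Lq * (d.E + (c.zs - s)))
      · have h2 := skw_jn_neg_sq hc h p hb hUa hs hδ h1
        calc skwSrc d s ≤ |skwF d s| / d.Z ^ 2 := skw_pl_src_le_f d s
          _ ≤ CJ * d.E := skw_pl_div_of_sq h hE0.le hK2 hCJ h2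
          _ ≤ CJ * (d.E + (c.zs - s)) := mul_le_mul_of_nonneg_left (by linarith) hCJ0
      · rw [not_le] at h1
        have h2 := skw_pl_src_le_absf h s
        rw [abs_of_nonpos hf] at h2
        calc skwSrc d s ≤ 2 * c.Lq * (d.E + (c.zs - s)) := by linarith
          _ ≤ CJ * (d.E + (c.zs - s)) := mul_le_mul_of_nonneg_right hL hδ0

/-- the reflected density is continuous on `[0, 2 zs]` -/
theorem skw_jn_Gr_cont (h : SkwHyp c d) : ContinuousOn (skwGr c d) (Icc 0 (2 * c.zs)) := by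
  have e : skwGr c d = d.G ∘ fun s => min s (2 * c.zs - s) := by
    funext s
    unfold skwGr
    simp only [Function.comp]
    by_cases hs : s ≤ c.zs
    · rw [if_pos hs, min_eq_left (by linarith)]
    · rw [if_neg hs, min_eq_right (by linarith [not_le.1 hs])]
  rw [e]
  refine h.Gc.comp (by fun_prop) ?_
  intro s hs
  refine ⟨le_min hs.1 (by linarith [hs.2]), ?_⟩
  by_cases h1 : s ≤ c.zs
  · exact le_trans (min_le_left _ _) h1
  · exact le_trans (min_le_right _ _) (by linarith [not_le.1 h1])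

theorem skw_jn_Gr_nonneg (_hc : c.Ok) (h : SkwHyp c d) {s : ℝ} (hs : s ∈ Icc 0 (2 * c.zs)) : 0 ≤ skwGr c d s := by
  unfold skwGr
  by_cases h1 : s ≤ c.zs
  · rw [if_pos h1]
    exact h.G0 s ⟨hs.1, le_trans h1 h.zmax⟩
  · rw [if_neg h1]
    exact h.G0 _ ⟨by linarith [hs.2], by linarith [not_le.1 h1, h.zmax]⟩

/-- a ball that contains the last active interval of length `E` -/
theorem skw_jn_Phi_lower (hc : c.Ok) (h : SkwHyp c d) (p : SkwPlat c d) {z l : ℝ} (h0 : 0 ≤ z - l)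
    (h1 : z - l ≤ c.zs - d.E) (h2 : c.zs ≤ z + l) (h3 : z + l ≤ 2 * c.zs) :
    l ^ 2 * (d.U ^ 4 / d.E ^ 2) ≤ skwPhi c d z l := by
  have hzs := hc.zs
  have hE0 := p.E0
  have hE1 := p.E1
  unfold skwPhi
  refine mul_le_mul_of_nonneg_left ?_ (sq_nonneg _)
  have hint : ∀ α β : ℝ, α ∈ Icc 0 (2 * c.zs) → β ∈ Icc 0 (2 * c.zs) →
      IntervalIntegrable (fun s => skwGr c d s + d.tiny) volume α β := by
    intro α β hα hβ
    refine ContinuousOn.intervalIntegrable ?_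
    exact ((skw_jn_Gr_cont h).add continuousOn_const).mono (uIcc_subset_Icc hα hβ)
  calc d.U ^ 4 / d.E ^ 2 ≤ ∫ s in (c.zs - d.E)..c.zs, d.G s := p.massE_lo
    _ ≤ ∫ s in (c.zs - d.E)..c.zs, (skwGr c d s + d.tiny) := by
        refine intervalIntegral.integral_mono_on (by linarith)
          (skw_pl_G_int h ⟨by linarith, by linarith [h.zmax]⟩ ⟨hzs.le, h.zmax⟩)
          (hint _ _ ⟨by linarith, by linarith⟩ ⟨hzs.le, by linarith⟩) ?_
        intro s hs
        have : skwGr c d s = d.G s := by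
          unfold skwGr
          rw [if_pos hs.2]
        rw [this]
        linarith [h.t0]
    _ ≤ ∫ s in (z - l)..(z + l), (skwGr c d s + d.tiny) := by
        refine intervalIntegral.integral_mono_interval h1 (by linarith) h2 ?_
          (hint _ _ ⟨h0, by linarith⟩ ⟨by linarith, h3⟩)
        refine (ae_restrict_iff' measurableSet_Ioc).2 (ae_of_all _ ?_)
        intro s hs
        have := skw_jn_Gr_nonneg hc h (s := s) ⟨by linarith [hs.1], by linarith [hs.2]⟩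
        show (0 : ℝ) ≤ skwGr c d s + d.tiny
        linarith [h.t0]

theorem skw_jn_H0 (hc : c.Ok) (h : SkwHyp c d) (p : SkwPlat c d)
    (hU : d.U ≤ 4 * (min (c.zs / 2) 1) ^ 3) {z : ℝ} (hz : z ∈ Icc (d.zlo / 4) c.zs) :
    skwH0 c d z ≤ 2 * (d.E + (c.zs - z)) := by
  have hzs := hc.zs
  have hE0 := p.E0
  have hU0 := skw_pl_Upos h
  have hd : 0 ≤ c.zs - z := by linarith [hz.2]
  have hz0 : 0 < z := lt_of_lt_of_le (by linarith [h.zlo0]) hz.1
  unfold skwH0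
  refine Real.sSup_le ?_ (by linarith)
  rintro l ⟨hl0, hl1, hl2⟩
  by_contra hcon
  rw [not_le] at hcon
  have hr0 : 0 < skwR z := lt_min hz0 one_pos
  have hlb : l ≤ d.b := le_trans hl1 (by
    calc d.b * skwR z ≤ d.b * 1 := mul_le_mul_of_nonneg_left (skw_jn_R_le_one z) h.b0.le
      _ = d.b := mul_one _)
  have hlz : l ≤ z / 8 := le_trans hl1 (by
    calc d.b * skwR z ≤ 1 / 8 * z := mul_le_mul h.b1 (skw_jn_R_le z) hr0.le (by norm_num)
      _ = z / 8 := by ring)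
  have hPhi := skw_jn_Phi_lower hc h p (z := z) (l := l) (by linarith) (by linarith) (by linarith) (by linarith)
  -- `4 U⁴ < Φ ≤ U⁶ / r³`
  have h4 : 4 * d.U ^ 4 < l ^ 2 * (d.U ^ 4 / d.E ^ 2) := by
    have h5 : (2 * d.E) ^ 2 < l ^ 2 := pow_lt_pow_left₀ (by linarith) (by positivity) (by norm_num)
    have h6 : 0 < d.U ^ 4 / d.E ^ 2 := by positivity
    calc 4 * d.U ^ 4 = (2 * d.E) ^ 2 * (d.U ^ 4 / d.E ^ 2) := by field_simp; ring
      _ < l ^ 2 * (d.U ^ 4 / d.E ^ 2) := mul_lt_mul_of_pos_right h5 h6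
  have h7 : 4 * d.U ^ 4 < d.U ^ 6 / skwR z ^ 3 := lt_of_lt_of_le h4 (le_trans hPhi hl2)
  rw [lt_div_iff₀ (by positivity)] at h7
  have h8 : 4 * skwR z ^ 3 < d.U ^ 2 := by
    have hU4 : 0 < d.U ^ 4 := by positivity
    have : 4 * skwR z ^ 3 * d.U ^ 4 < d.U ^ 2 * d.U ^ 4 := by
      calc 4 * skwR z ^ 3 * d.U ^ 4 = 4 * d.U ^ 4 * skwR z ^ 3 := by ring
        _ < d.U ^ 6 := h7
        _ = d.U ^ 2 * d.U ^ 4 := by ring
    exact lt_of_mul_lt_mul_right this hU4.le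
  have h9 : min (c.zs / 2) 1 ≤ skwR z := by
    refine le_min ?_ (min_le_right _ _)
    refine le_trans (min_le_left _ _) ?_
    linarith
  have h10 : (min (c.zs / 2) 1) ^ 3 ≤ skwR z ^ 3 :=
    pow_le_pow_left₀ (le_min (by linarith) zero_le_one) h9 3
  have h11 : d.U ^ 2 ≤ d.U := by
    calc d.U ^ 2 = d.U * d.U := by ring
      _ ≤ d.U * 1 := mul_le_mul_of_nonneg_left h.U1 hU0.le
      _ = d.U := mul_one _
  linarith

/-- **Leaf JOIN**. -/
theorem skw_leaf_join : SkwLeafJoin := by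
  intro c hc
  have hzs := hc.zs
  have hCp := skw_pl_Cp_pos hc
  have hC1 : 0 < c.C1 := lt_of_lt_of_le one_pos hc.C1
  have hM0 : 0 < c.M0 := lt_of_lt_of_le one_pos hc.M0
  have hLq : 0 < c.Lq := lt_of_lt_of_le one_pos hc.Lq
  have hCa0 : 0 < c.Cadj 1 := lt_of_lt_of_le one_pos (hc.Cadj 1)
  have hρ : 0 < min (c.zs / 2) 1 := lt_min (by linarith) one_pos
  set CJ : ℝ := 1 + 2 * c.Lq + 4 * c.Cp * c.C1 * c.M0 + 2 * c.Cadj 1 * (4 * c.C1) + 4 / c.zs + c.Cadj 1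
    + 1 / (4 * (min (c.zs / 2) 1) ^ 3) with hCJdef
  have p1 : 0 < 2 * c.Lq := by positivity
  have p2 : 0 < 4 * c.Cp * c.C1 * c.M0 := by positivity
  have p3 : 0 < 2 * c.Cadj 1 * (4 * c.C1) := by positivity
  have p4 : 0 < 4 / c.zs := by positivity
  have p5 : 0 < 1 / (4 * (min (c.zs / 2) 1) ^ 3) := by positivity
  have hCJ : 1 ≤ CJ := by
    rw [hCJdef]
    linarith
  have hCJ0 : 0 < CJ := lt_of_lt_of_le one_pos hCJ
  refine ⟨CJ, hCJ, ?_⟩
  intro d h p sm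
  have hb : d.b ≤ c.zs / 4 := by
    refine le_trans sm.b ?_
    rw [div_le_iff₀ hCJ0]
    have : 4 / c.zs ≤ CJ := by
      rw [hCJdef]
      linarith
    calc (1 : ℝ) = c.zs / 4 * (4 / c.zs) := by field_simp
      _ ≤ c.zs / 4 * CJ := mul_le_mul_of_nonneg_left this (by positivity)
  have hUa : c.Cadj 1 * d.U ≤ 1 := by
    have h1 : c.Cadj 1 ≤ CJ := by
      rw [hCJdef]
      linarith
    calc c.Cadj 1 * d.U ≤ CJ * (1 / CJ) := mul_le_mul h1 sm.U (skw_pl_Upos h).le hCJ0.le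
      _ = 1 := by field_simp
  have hU : d.U ≤ 4 * (min (c.zs / 2) 1) ^ 3 := by
    refine le_trans sm.U ?_
    rw [div_le_iff₀ hCJ0]
    have : 1 / (4 * (min (c.zs / 2) 1) ^ 3) ≤ CJ := by
      rw [hCJdef]
      linarith
    calc (1 : ℝ) = 4 * (min (c.zs / 2) 1) ^ 3 * (1 / (4 * (min (c.zs / 2) 1) ^ 3)) := by field_simp
      _ ≤ 4 * (min (c.zs / 2) 1) ^ 3 * CJ := mul_le_mul_of_nonneg_left this (by positivity)
  refine ⟨?_, ?_⟩
  · intro s hs
    refine skw_jn_src hc h p hCJ ?_ ?_ ?_ hb hUa hs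
    · rw [hCJdef]
      linarith
    · rw [hCJdef]
      linarith
    · rw [hCJdef]
      linarith
  · intro z hz
    exact skw_jn_H0 hc h p hU hz

end join

end Claimed.Agent.R286
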