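import Claimed.Agent.R286.W.Leaves

/-!
# Row 286, folder W, file Plat : leaf PLAT of the width construction (LL Lemma 8.2, "The plateau and its active edge", first half)
(helper221; prefix `skw_pl_`)

* kit (used by `W/EndB.lean`, `W/Join.lean` too): integrability of `G`, `f² G`; persistence `κ ∫ G ≤ ∫ f² G`.
* `skw_leaf_plat : SkwLeafPlat`.
-/

set_option autoImplicit false

namespace Claimed.Agent.R286

open Set MeasureTheory

section kit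

variable {c : SkwC} {d : SkwD}

theorem skw_pl_Upos (h : SkwHyp c d) : 0 < d.U := lt_of_lt_of_le h.x0 h.xU

theorem skw_pl_zmax_nonneg (hc : c.Ok) (h : SkwHyp c d) : 0 ≤ d.zmax := le_trans hc.zs.le h.zmax

theorem skw_pl_tiny_le (h : SkwHyp c d) : d.tiny ≤ d.U ^ 12 :=
  le_trans h.t1 (pow_le_pow_left₀ h.x0.le h.xU 12)

theorem skw_pl_tiny_le4 (h : SkwHyp c d) : d.tiny ≤ d.U ^ 4 :=
  le_trans (skw_pl_tiny_le h) (pow_le_pow_of_le_one (skw_pl_Upos h).le h.U1 (by norm_num))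

theorem skw_pl_f_abs_le_one (h : SkwHyp c d) {z : ℝ} (hz : z ∈ Icc 0 d.zmax) : |skwF d z| ≤ 1 := by
  unfold skwF
  have h1 := h.S0 z hz
  have h2 := h.S1 z hz
  have h3 := h.q0 z hz
  have h4 := h.q1 z hz
  rw [abs_le]
  constructor <;> linarith

theorem skw_pl_f_sq_le_one (h : SkwHyp c d) {z : ℝ} (hz : z ∈ Icc 0 d.zmax) : skwF d z ^ 2 ≤ 1 := by
  have h1 := skw_pl_f_abs_le_one h hz
  rw [← sq_abs]
  exact pow_le_one₀ (abs_nonneg _) h1

theorem skw_pl_G_int (h : SkwHyp c d) {α β : ℝ} (hα : α ∈ Icc 0 d.zmax) (hβ : β ∈ Icc 0 d.zmax) :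
    IntervalIntegrable d.G volume α β := by
  refine h.Gi.mono_set ?_
  have h0 : (0 : ℝ) ≤ d.zmax := le_trans hα.1 hα.2
  rw [uIcc_of_le h0]
  exact uIcc_subset_Icc hα hβ

theorem skw_pl_q_cont (hc : c.Ok) (h : SkwHyp c d) : ContinuousOn d.q (Icc 0 d.zmax) := by
  have hL : (0 : ℝ) ≤ c.Lq := le_trans zero_le_one hc.Lq
  have : LipschitzOnWith ⟨c.Lq, hL⟩ d.q (Icc 0 d.zmax) := by
    refine LipschitzOnWith.of_dist_le_mul ?_
    intro x hx y hy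
    rw [Real.dist_eq, Real.dist_eq]
    exact h.qlip x hx y hy
  exact this.continuousOn

theorem skw_pl_f_int (hc : c.Ok) (h : SkwHyp c d) : IntervalIntegrable (skwF d) volume 0 d.zmax := by
  have h0 := skw_pl_zmax_nonneg hc h
  have hS : IntervalIntegrable d.S volume 0 d.zmax := by
    refine MonotoneOn.intervalIntegrable ?_
    rw [uIcc_of_le h0]
    exact h.Smono
  have hq : IntervalIntegrable d.q volume 0 d.zmax := by
    refine ContinuousOn.intervalIntegrable ?_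
    rw [uIcc_of_le h0]
    exact skw_pl_q_cont hc h
  exact hS.sub hq

theorem skw_pl_fG_int0 (hc : c.Ok) (h : SkwHyp c d) :
    IntervalIntegrable (fun z => skwF d z ^ 2 * d.G z) volume 0 d.zmax := by
  have h0 := skw_pl_zmax_nonneg hc h
  refine h.Gi.mono_fun' ?_ ?_
  · have h1 := (skw_pl_f_int hc h).def'.aestronglyMeasurable
    have h2 := h.Gi.def'.aestronglyMeasurable
    exact (h1.pow 2).mul h2
  · rw [uIoc_of_le h0]
    refine (ae_restrict_iff' measurableSet_Ioc).2 (ae_of_all _ ?_)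
    intro z hz
    have hz' : z ∈ Icc 0 d.zmax := Ioc_subset_Icc_self hz
    have h1 := skw_pl_f_sq_le_one h hz'
    have h2 := h.G0 z hz'
    show ‖skwF d z ^ 2 * d.G z‖ ≤ d.G z
    rw [Real.norm_eq_abs, abs_of_nonneg (mul_nonneg (sq_nonneg _) h2)]
    calc skwF d z ^ 2 * d.G z ≤ 1 * d.G z := mul_le_mul_of_nonneg_right h1 h2
      _ = d.G z := one_mul _

theorem skw_pl_fG_int (hc : c.Ok) (h : SkwHyp c d) {α β : ℝ} (hα : α ∈ Icc 0 d.zmax) (hβ : β ∈ Icc 0 d.zmax) :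
    IntervalIntegrable (fun z => skwF d z ^ 2 * d.G z) volume α β := by
  refine (skw_pl_fG_int0 hc h).mono_set ?_
  have h0 : (0 : ℝ) ≤ d.zmax := le_trans hα.1 hα.2
  rw [uIcc_of_le h0]
  exact uIcc_subset_Icc hα hβ

/-- monotonicity of the mass in the interval -/
theorem skw_pl_mass_mono (h : SkwHyp c d) {α β α0 β0 : ℝ} (h0 : 0 ≤ α0) (h1 : α0 ≤ α) (h2 : α ≤ β)
    (h3 : β ≤ β0) (h4 : β0 ≤ d.zmax) : ∫ z in α..β, d.G z ≤ ∫ z in α0..β0, d.G z := by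
  refine intervalIntegral.integral_mono_interval h1 h2 h3 ?_
    (skw_pl_G_int h ⟨h0, by linarith⟩ ⟨by linarith, h4⟩)
  refine (ae_restrict_iff' measurableSet_Ioc).2 (ae_of_all _ ?_)
  intro z hz
  exact h.G0 z ⟨by linarith [hz.1], by linarith [hz.2]⟩

theorem skw_pl_mass_nonneg (h : SkwHyp c d) {α β : ℝ} (h0 : 0 ≤ α) (h2 : α ≤ β) (h4 : β ≤ d.zmax) :
    0 ≤ ∫ z in α..β, d.G z :=
  intervalIntegral.integral_nonneg h2 fun z hz => h.G0 z ⟨by linarith [hz.1], by linarith [hz.2]⟩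

/-- persistence: a lower bound of `f²` on `[α, β] ⊆ [α0, β0]` turns the budget into a bound of the mass. -/
theorem skw_pl_persist (hc : c.Ok) (h : SkwHyp c d) {α β α0 β0 κ : ℝ} (h0 : 0 ≤ α0) (h1 : α0 ≤ α) (h2 : α ≤ β)
    (h3 : β ≤ β0) (h4 : β0 ≤ d.zmax) (hk : ∀ z ∈ Icc α β, κ ≤ skwF d z ^ 2) :
    κ * ∫ z in α..β, d.G z ≤ ∫ z in α0..β0, skwF d z ^ 2 * d.G z := by
  have hα : α ∈ Icc 0 d.zmax := ⟨by linarith, by linarith⟩
  have hβ : β ∈ Icc 0 d.zmax := ⟨by linarith, by linarith⟩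
  calc κ * ∫ z in α..β, d.G z = ∫ z in α..β, κ * d.G z := by
        rw [intervalIntegral.integral_const_mul]
    _ ≤ ∫ z in α..β, skwF d z ^ 2 * d.G z := by
        refine intervalIntegral.integral_mono_on h2 ((skw_pl_G_int h hα hβ).const_mul κ)
          (skw_pl_fG_int hc h hα hβ) ?_
        intro z hz
        exact mul_le_mul_of_nonneg_right (hk z hz) (h.G0 z ⟨by linarith [hz.1], by linarith [hz.2]⟩)
    _ ≤ ∫ z in α0..β0, skwF d z ^ 2 * d.G z := by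
        refine intervalIntegral.integral_mono_interval h1 h2 h3 ?_
          (skw_pl_fG_int hc h ⟨h0, by linarith⟩ ⟨by linarith, h4⟩)
        refine (ae_restrict_iff' measurableSet_Ioc).2 (ae_of_all _ ?_)
        intro z hz
        exact mul_nonneg (sq_nonneg _) (h.G0 z ⟨by linarith [hz.1], by linarith [hz.2]⟩)

/-- the algebra behind every use of `up` / `dn`. -/
theorem skw_pl_alg {F w Mp U Z Cp K : ℝ} (hU : 0 < U) (hCp : 0 < Cp)
    (h1 : F ^ 2 * Mp ≤ K * (U ^ 4 * Z ^ 4)) (h3 : U ^ 4 / Cp ≤ w ^ 2 * Mp) :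
    F ^ 2 ≤ Cp * K * Z ^ 4 * w ^ 2 := by
  have hU4 : 0 < U ^ 4 := by positivity
  have h5 : F ^ 2 * (U ^ 4 / Cp) ≤ w ^ 2 * (K * (U ^ 4 * Z ^ 4)) :=
    calc F ^ 2 * (U ^ 4 / Cp) ≤ F ^ 2 * (w ^ 2 * Mp) := mul_le_mul_of_nonneg_left h3 (sq_nonneg _)
      _ = w ^ 2 * (F ^ 2 * Mp) := by ring
      _ ≤ w ^ 2 * (K * (U ^ 4 * Z ^ 4)) := mul_le_mul_of_nonneg_left h1 (sq_nonneg _)
  have h6 : 0 < U ^ 4 / Cp := by positivity
  refine le_of_mul_le_mul_right ?_ h6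
  calc F ^ 2 * (U ^ 4 / Cp) ≤ w ^ 2 * (K * (U ^ 4 * Z ^ 4)) := h5
    _ = Cp * K * Z ^ 4 * w ^ 2 * (U ^ 4 / Cp) := by field_simp

/-- from squares to absolute values -/
theorem skw_pl_abs_of_sq {F w Z K C : ℝ} (hw : 0 ≤ w) (hK : K ≤ C) (hC : 1 ≤ C)
    (h : F ^ 2 ≤ K * Z ^ 4 * w ^ 2) : |F| ≤ C * Z ^ 2 * w := by
  have hC0 : 0 ≤ C := le_trans zero_le_one hC
  refine abs_le_of_sq_le_sq ?_ (by positivity)
  have hCC : C ≤ C ^ 2 := by nlinarith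
  calc F ^ 2 ≤ K * Z ^ 4 * w ^ 2 := h
    _ = K * (Z ^ 4 * w ^ 2) := by ring
    _ ≤ C ^ 2 * (Z ^ 4 * w ^ 2) := mul_le_mul_of_nonneg_right (le_trans hK hCC) (by positivity)
    _ = (C * Z ^ 2 * w) ^ 2 := by ring

end kit

section plat

variable {c : SkwC} {d : SkwD}

theorem skw_pl_Cp_pos (hc : c.Ok) : 0 < c.Cp := lt_of_lt_of_le one_pos hc.Cp

theorem skw_pl_hpl_pos (hc : c.Ok) (h : SkwHyp c d) (p : SkwPlat c d) {z : ℝ} (hz : z ∈ Icc c.zs d.zmax) :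
    0 < d.hpl z := by
  rcases eq_or_lt_of_le hz.1 with h1 | h1
  · rw [← h1]
    exact lt_of_lt_of_le p.E0 p.hjoin_lo
  · have h2 := p.Gh_lo z ⟨h1, hz.2⟩
    have hU := skw_pl_Upos h
    have hCp := skw_pl_Cp_pos hc
    have h3 : 0 < d.G z * d.hpl z ^ 3 := lt_of_lt_of_le (by positivity) h2
    have hG := h.G0 z ⟨by linarith [hc.zs], hz.2⟩
    by_contra hneg
    rw [not_lt] at hneg
    have h4 : d.hpl z ^ 3 ≤ 0 := Odd.pow_nonpos (by decide) hneg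
    nlinarith [mul_nonneg hG (neg_nonneg.2 h4)]

theorem skw_pl_f_mono (hc : c.Ok) (h : SkwHyp c d) (p : SkwPlat c d) {z z' : ℝ} (hz : z ∈ Icc c.zs d.zmax)
    (hz' : z' ∈ Icc c.zs d.zmax) (hzz : z ≤ z') : skwF d z ≤ skwF d z' := by
  unfold skwF
  rw [p.qconst z hz, p.qconst z' hz']
  have := h.Smono ⟨by linarith [hc.zs, hz.1], hz.2⟩ ⟨by linarith [hc.zs, hz'.1], hz'.2⟩ hzz
  linarith

theorem skw_pl_D1mac (p : SkwPlat c d) :
    ∫ z in (c.zs / 2)..d.zmax, skwF d z ^ 2 * d.G z ≤ c.C1 * (d.U ^ 4 * d.Z ^ 4) := by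
  have e : (d.U * d.Z) ^ 4 = d.U ^ 4 * d.Z ^ 4 := by ring
  rw [← e]
  exact p.D1mac

theorem skw_pl_sq_anti {a b : ℝ} (h1 : a ≤ b) (h2 : b ≤ 0) : b ^ 2 ≤ a ^ 2 := by nlinarith

/-- positive deviation on the plateau persists to the upper end -/
theorem skw_pl_pos_case (hc : c.Ok) (h : SkwHyp c d) (p : SkwPlat c d) {z : ℝ} (hz : z ∈ Icc c.zs d.zmax)
    (hf : 0 ≤ skwF d z) : skwF d z ^ 2 ≤ c.Cp * (c.C1 + 1) * d.Z ^ 4 * d.hpl z ^ 2 := by
  have hzs := hc.zs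
  have hper : skwF d z ^ 2 * ∫ s in z..d.zmax, d.G s ≤ ∫ s in (c.zs / 2)..d.zmax, skwF d s ^ 2 * d.G s :=
    skw_pl_persist hc h (by linarith) (by linarith [hz.1]) hz.2 le_rfl le_rfl (fun s hs => by
      have := skw_pl_f_mono hc h p hz ⟨le_trans hz.1 hs.1, hs.2⟩ hs.1
      exact pow_le_pow_left₀ hf this 2)
  have h1 : skwF d z ^ 2 * ((∫ s in z..d.zmax, d.G s) + d.U ^ 4) ≤ (c.C1 + 1) * (d.U ^ 4 * d.Z ^ 4) := by
    have hD := skw_pl_D1mac p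
    have hf1 := skw_pl_f_sq_le_one h (z := z) ⟨by linarith [hz.1], hz.2⟩
    have hZ4 : 1 ≤ d.Z ^ 4 := one_le_pow₀ h.Z1
    have hU4 : 0 ≤ d.U ^ 4 := by positivity
    have h2 : skwF d z ^ 2 * d.U ^ 4 ≤ d.U ^ 4 * d.Z ^ 4 :=
      calc skwF d z ^ 2 * d.U ^ 4 ≤ 1 * d.U ^ 4 := mul_le_mul_of_nonneg_right hf1 hU4
        _ = d.U ^ 4 * 1 := by ring
        _ ≤ d.U ^ 4 * d.Z ^ 4 := mul_le_mul_of_nonneg_left hZ4 hU4
    rw [mul_add, add_mul, one_mul]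
    linarith
  exact skw_pl_alg (skw_pl_Upos h) (skw_pl_Cp_pos hc) h1 (p.up z hz)

/-- a deviation `≤ -2 Lq E` at (or after) the join persists on the last active interval of length `E` -/
theorem skw_pl_lastE (hc : c.Ok) (h : SkwHyp c d) (p : SkwPlat c d) {z : ℝ} (hz : z ∈ Icc c.zs d.zmax)
    (hf : skwF d z ≤ -(2 * c.Lq * d.E)) : skwF d z ^ 2 ≤ 4 * c.C1 * d.Z ^ 4 * d.E ^ 2 := by
  have hzs := hc.zs
  have hE0 := p.E0
  have hE1 := p.E1
  have hLq : 0 < c.Lq := lt_of_lt_of_le one_pos hc.Lq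
  have hzsmem : c.zs ∈ Icc 0 d.zmax := ⟨hzs.le, h.zmax⟩
  have hper : skwF d z ^ 2 / 4 * ∫ s in (c.zs - d.E)..c.zs, d.G s
      ≤ ∫ s in (c.zs / 2)..d.zmax, skwF d s ^ 2 * d.G s := by
    refine skw_pl_persist hc h (by linarith) (by linarith) (by linarith) h.zmax le_rfl ?_
    intro s hs
    have hsmem : s ∈ Icc 0 d.zmax := ⟨by linarith [hs.1], by linarith [hs.2, h.zmax]⟩
    have hS := h.Smono hsmem ⟨by linarith [hz.1], hz.2⟩ (le_trans hs.2 hz.1)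
    have hq := h.qlip c.zs hzsmem s hsmem
    have hq' : d.q c.zs - d.q s ≤ c.Lq * d.E := by
      have h1 : |c.zs - s| ≤ d.E := by
        rw [abs_of_nonneg (by linarith [hs.2])]
        linarith [hs.1]
      calc d.q c.zs - d.q s ≤ |d.q c.zs - d.q s| := le_abs_self _
        _ ≤ c.Lq * |c.zs - s| := hq
        _ ≤ c.Lq * d.E := mul_le_mul_of_nonneg_left h1 hLq.le
    have hfz : skwF d z = d.S z - d.q c.zs := by
      unfold skwF
      rw [p.qconst z hz]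
    have hfs : skwF d s ≤ skwF d z / 2 := by
      have : skwF d s = d.S s - d.q s := rfl
      rw [this]
      rw [hfz] at hf ⊢
      linarith
    have hneg : skwF d z / 2 ≤ 0 := by
      have : 0 ≤ 2 * c.Lq * d.E := by positivity
      linarith
    have := skw_pl_sq_anti hfs hneg
    calc skwF d z ^ 2 / 4 = (skwF d z / 2) ^ 2 := by ring
      _ ≤ skwF d s ^ 2 := this
  have h1 : skwF d z ^ 2 * (∫ s in (c.zs - d.E)..c.zs, d.G s) ≤ 4 * c.C1 * (d.U ^ 4 * d.Z ^ 4) := by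
    have hD := skw_pl_D1mac p
    have : skwF d z ^ 2 / 4 * (∫ s in (c.zs - d.E)..c.zs, d.G s) ≤ c.C1 * (d.U ^ 4 * d.Z ^ 4) := le_trans hper hD
    linarith
  have h3 : d.U ^ 4 / 1 ≤ d.E ^ 2 * ∫ s in (c.zs - d.E)..c.zs, d.G s := by
    have := p.massE_lo
    rw [div_le_iff₀ (by positivity)] at this
    rw [div_one]
    linarith
  have := skw_pl_alg (skw_pl_Upos h) one_pos h1 h3
  linarith

/-- negative deviation on the plateau persists to the lower end, and then on the last active interval -/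
theorem skw_pl_neg_case (hc : c.Ok) (h : SkwHyp c d) (p : SkwPlat c d) {z : ℝ} (hz : z ∈ Icc c.zs d.zmax)
    (hf : skwF d z ≤ 0) : skwF d z ^ 2 ≤ 8 * c.Cp * (c.C1 + c.Lq ^ 2) * d.Z ^ 4 * d.hpl z ^ 2 := by
  have hzs := hc.zs
  have hE0 := p.E0
  have hCp := skw_pl_Cp_pos hc
  have hU := skw_pl_Upos h
  have hC1 : 0 < c.C1 := lt_of_lt_of_le one_pos hc.C1
  have hLq : 0 < c.Lq := lt_of_lt_of_le one_pos hc.Lq
  have hZ4 : 1 ≤ d.Z ^ 4 := one_le_pow₀ h.Z1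
  have hw2 : 0 ≤ d.hpl z ^ 2 := sq_nonneg _
  have hdn := p.dn z hz
  by_cases hA : d.U ^ 4 / d.E ^ 2 ≤ ∫ s in c.zs..z, d.G s
  · -- enough mass on the plateau below `z`
    have hper : skwF d z ^ 2 * ∫ s in c.zs..z, d.G s ≤ ∫ s in (c.zs / 2)..d.zmax, skwF d s ^ 2 * d.G s :=
      skw_pl_persist hc h (by linarith) (by linarith) hz.1 hz.2 le_rfl (fun s hs => by
        have := skw_pl_f_mono hc h p ⟨hs.1, le_trans hs.2 hz.2⟩ hz hs.2
        exact skw_pl_sq_anti this hf)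
    have h1 : skwF d z ^ 2 * (2 * ∫ s in c.zs..z, d.G s) ≤ 2 * c.C1 * (d.U ^ 4 * d.Z ^ 4) := by
      have hD := skw_pl_D1mac p
      have := le_trans hper hD
      linarith
    have h3 : d.U ^ 4 / c.Cp ≤ d.hpl z ^ 2 * (2 * ∫ s in c.zs..z, d.G s) := by
      refine le_trans hdn (mul_le_mul_of_nonneg_left ?_ hw2)
      linarith
    have h4 := skw_pl_alg hU hCp h1 h3
    have h5 : c.Cp * (2 * c.C1) * d.Z ^ 4 * d.hpl z ^ 2 ≤ 8 * c.Cp * (c.C1 + c.Lq ^ 2) * d.Z ^ 4 * d.hpl z ^ 2 := by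
      have : c.Cp * (2 * c.C1) ≤ 8 * c.Cp * (c.C1 + c.Lq ^ 2) := by nlinarith [sq_nonneg c.Lq, mul_pos hCp hC1]
      have h6 : 0 ≤ d.Z ^ 4 * d.hpl z ^ 2 := by positivity
      calc c.Cp * (2 * c.C1) * d.Z ^ 4 * d.hpl z ^ 2 = c.Cp * (2 * c.C1) * (d.Z ^ 4 * d.hpl z ^ 2) := by ring
        _ ≤ 8 * c.Cp * (c.C1 + c.Lq ^ 2) * (d.Z ^ 4 * d.hpl z ^ 2) := mul_le_mul_of_nonneg_right this h6
        _ = _ := by ring
    exact le_trans h4 h5
  · rw [not_le] at hA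
    -- the width is at least `E / sqrt (2 Cp)`
    have hE2 : d.E ^ 2 ≤ 2 * c.Cp * d.hpl z ^ 2 := by
      have h1 : d.U ^ 4 / c.Cp ≤ d.hpl z ^ 2 * (2 * (d.U ^ 4 / d.E ^ 2)) := by
        refine le_trans hdn (mul_le_mul_of_nonneg_left ?_ hw2)
        linarith
      have hU4 : 0 < d.U ^ 4 := by positivity
      have hE2 : 0 < d.E ^ 2 := by positivity
      have h2 : d.U ^ 4 / c.Cp * (c.Cp * d.E ^ 2 / d.U ^ 4) ≤
          d.hpl z ^ 2 * (2 * (d.U ^ 4 / d.E ^ 2)) * (c.Cp * d.E ^ 2 / d.U ^ 4) :=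
        mul_le_mul_of_nonneg_right h1 (by positivity)
      have e1 : d.U ^ 4 / c.Cp * (c.Cp * d.E ^ 2 / d.U ^ 4) = d.E ^ 2 := by field_simp
      have e2 : d.hpl z ^ 2 * (2 * (d.U ^ 4 / d.E ^ 2)) * (c.Cp * d.E ^ 2 / d.U ^ 4) = 2 * c.Cp * d.hpl z ^ 2 := by
        field_simp
      rw [e1, e2] at h2
      exact h2
    have hkey : skwF d z ^ 2 ≤ 4 * (c.C1 + c.Lq ^ 2) * d.Z ^ 4 * d.E ^ 2 := by
      by_cases hB : skwF d z ≤ -(2 * c.Lq * d.E)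
      · have h1 := skw_pl_lastE hc h p hz hB
        have h2 : 4 * c.C1 * d.Z ^ 4 * d.E ^ 2 ≤ 4 * (c.C1 + c.Lq ^ 2) * d.Z ^ 4 * d.E ^ 2 := by
          have h6 : 0 ≤ d.Z ^ 4 * d.E ^ 2 := by positivity
          nlinarith [mul_nonneg (sq_nonneg c.Lq) h6]
        exact le_trans h1 h2
      · rw [not_le] at hB
        have h1 : skwF d z ^ 2 ≤ (2 * c.Lq * d.E) ^ 2 := by
          have : 0 ≤ 2 * c.Lq * d.E := by positivity
          nlinarith
        have h2 : (2 * c.Lq * d.E) ^ 2 ≤ 4 * (c.C1 + c.Lq ^ 2) * d.Z ^ 4 * d.E ^ 2 := by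
          have h6 : 0 ≤ d.E ^ 2 := by positivity
          have h7 : c.Lq ^ 2 ≤ (c.C1 + c.Lq ^ 2) * d.Z ^ 4 := by
            have : 0 ≤ c.C1 + c.Lq ^ 2 := by positivity
            nlinarith [mul_le_mul_of_nonneg_left hZ4 this]
          calc (2 * c.Lq * d.E) ^ 2 = 4 * (c.Lq ^ 2) * d.E ^ 2 := by ring
            _ ≤ 4 * ((c.C1 + c.Lq ^ 2) * d.Z ^ 4) * d.E ^ 2 := by
                refine mul_le_mul_of_nonneg_right ?_ h6
                linarith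
            _ = _ := by ring
        exact le_trans h1 h2
    calc skwF d z ^ 2 ≤ 4 * (c.C1 + c.Lq ^ 2) * d.Z ^ 4 * d.E ^ 2 := hkey
      _ ≤ 4 * (c.C1 + c.Lq ^ 2) * d.Z ^ 4 * (2 * c.Cp * d.hpl z ^ 2) :=
          mul_le_mul_of_nonneg_left hE2 (by positivity)
      _ = _ := by ring

/-- an active source whose positive deviation survives up to the join is of order `Y²` -/
theorem skw_pl_edge_sq (hc : c.Ok) (h : SkwHyp c d) (p : SkwPlat c d) {s : ℝ} (hs : s ∈ Icc 0 c.zs)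
    (hf : 2 * c.Lq * (c.zs - s) ≤ skwF d s) : skwF d s ^ 2 ≤ 4 * c.Cp * c.C1 * (d.U ^ 4 * d.Z ^ 4) := by
  have hzs := hc.zs
  have hCp := skw_pl_Cp_pos hc
  have hLq : 0 < c.Lq := lt_of_lt_of_le one_pos hc.Lq
  have hzsmem : c.zs ∈ Icc 0 d.zmax := ⟨hzs.le, h.zmax⟩
  have hsmem : s ∈ Icc 0 d.zmax := ⟨hs.1, le_trans hs.2 h.zmax⟩
  have hd : 0 ≤ c.zs - s := by linarith [hs.2]
  have hF0 : 0 ≤ skwF d s := le_trans (by positivity) hf
  have hper : skwF d s ^ 2 / 4 * ∫ t in c.zs..d.zmax, d.G t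
      ≤ ∫ t in (c.zs / 2)..d.zmax, skwF d t ^ 2 * d.G t := by
    refine skw_pl_persist hc h (by linarith) (by linarith) h.zmax le_rfl le_rfl ?_
    intro t ht
    have htmem : t ∈ Icc 0 d.zmax := ⟨by linarith [ht.1], ht.2⟩
    have hS := h.Smono hsmem htmem (le_trans hs.2 ht.1)
    have hq := h.qlip c.zs hzsmem s hsmem
    have hq' : d.q c.zs - d.q s ≤ c.Lq * (c.zs - s) := by
      calc d.q c.zs - d.q s ≤ |d.q c.zs - d.q s| := le_abs_self _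
        _ ≤ c.Lq * |c.zs - s| := hq
        _ = c.Lq * (c.zs - s) := by rw [abs_of_nonneg hd]
    have hft : skwF d t = d.S t - d.q c.zs := by
      unfold skwF
      rw [p.qconst t ht]
    have hfs : skwF d s / 2 ≤ skwF d t := by
      have e : skwF d s = d.S s - d.q s := rfl
      rw [hft]
      rw [e] at hf ⊢
      linarith
    calc skwF d s ^ 2 / 4 = (skwF d s / 2) ^ 2 := by ring
      _ ≤ skwF d t ^ 2 := pow_le_pow_left₀ (by linarith) hfs 2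
  have hD := skw_pl_D1mac p
  have hm := p.mass
  have h1 : skwF d s ^ 2 / 4 * (1 / c.Cp) ≤ c.C1 * (d.U ^ 4 * d.Z ^ 4) :=
    le_trans (mul_le_mul_of_nonneg_left hm (by positivity)) (le_trans hper hD)
  have h2 : skwF d s ^ 2 / 4 * (1 / c.Cp) * (4 * c.Cp) ≤ c.C1 * (d.U ^ 4 * d.Z ^ 4) * (4 * c.Cp) :=
    mul_le_mul_of_nonneg_right h1 (by positivity)
  have e1 : skwF d s ^ 2 / 4 * (1 / c.Cp) * (4 * c.Cp) = skwF d s ^ 2 := by field_simp
  rw [e1] at h2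
  linarith

theorem skw_pl_src_le_b (d : SkwD) (s : ℝ) : skwSrc d s ≤ d.b * skwR s := min_le_left _ _

theorem skw_pl_src_le_f (d : SkwD) (s : ℝ) : skwSrc d s ≤ |skwF d s| / d.Z ^ 2 := min_le_right _ _

theorem skw_pl_src_le_absf (h : SkwHyp c d) (s : ℝ) : skwSrc d s ≤ |skwF d s| := by
  refine le_trans (skw_pl_src_le_f d s) ?_
  have hZ2 : 1 ≤ d.Z ^ 2 := one_le_pow₀ h.Z1
  exact div_le_self (abs_nonneg _) hZ2

/-- `|f| / Z² ≤ C w` from `f² ≤ K Z⁴ w²`. -/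
theorem skw_pl_div_of_sq (h : SkwHyp c d) {F w K C : ℝ} (hw : 0 ≤ w) (hK : K ≤ C) (hC : 1 ≤ C)
    (hF : F ^ 2 ≤ K * d.Z ^ 4 * w ^ 2) : |F| / d.Z ^ 2 ≤ C * w := by
  have hZ2 : 0 < d.Z ^ 2 := by
    have := h.Z1
    positivity
  rw [div_le_iff₀ hZ2]
  have := skw_pl_abs_of_sq hw hK hC hF
  linarith

theorem skw_pl_edge (hc : c.Ok) (h : SkwHyp c d) (p : SkwPlat c d) {C : ℝ} (hC : 1 ≤ C)
    (hK : 4 * c.Cp * c.C1 ≤ C) : SkwEdge C c d := by
  intro s hs hpos hlt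
  have hLq : 0 < c.Lq := lt_of_lt_of_le one_pos hc.Lq
  have h1 : skwSrc d s ≤ skwF d s := by
    have := skw_pl_src_le_absf h s
    rwa [abs_of_pos hpos] at this
  have h2 : 2 * c.Lq * (c.zs - s) ≤ skwF d s := by
    rw [lt_div_iff₀ (by positivity)] at hlt
    linarith
  have h3 := skw_pl_edge_sq hc h p hs h2
  have h4 : skwF d s ^ 2 ≤ 4 * c.Cp * c.C1 * d.Z ^ 4 * (d.U ^ 2) ^ 2 := by
    calc skwF d s ^ 2 ≤ 4 * c.Cp * c.C1 * (d.U ^ 4 * d.Z ^ 4) := h3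
      _ = _ := by ring
  exact le_trans (skw_pl_src_le_f d s) (skw_pl_div_of_sq h (by positivity) hK hC h4)

theorem skw_pl_hpl_lower (hc : c.Ok) (h : SkwHyp c d) (p : SkwPlat c d) {C : ℝ} (hC : 1 ≤ C)
    (hK : c.Cp * (c.Cp + 1) ≤ C) {z : ℝ} (hz : z ∈ Icc c.zs d.zmax) : d.U ^ 2 / C ≤ d.hpl z := by
  have hzs := hc.zs
  have hCp := skw_pl_Cp_pos hc
  have hU := skw_pl_Upos h
  have hC0 : 0 < C := lt_of_lt_of_le one_pos hC
  have hw := skw_pl_hpl_pos hc h p hz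
  have hup := p.up z hz
  have hM : (∫ s in z..d.zmax, d.G s) + d.U ^ 4 ≤ c.Cp + 1 := by
    have h1 := skw_pl_mass_mono h hzs.le hz.1 hz.2 le_rfl le_rfl
    have h2 := p.mass_hi
    have h3 : d.U ^ 4 ≤ 1 := pow_le_one₀ hU.le h.U1
    linarith
  have h1 : d.U ^ 4 / c.Cp ≤ d.hpl z ^ 2 * (c.Cp + 1) :=
    le_trans hup (mul_le_mul_of_nonneg_left hM (sq_nonneg _))
  have h2 : d.U ^ 4 ≤ c.Cp * (c.Cp + 1) * d.hpl z ^ 2 := by
    rw [div_le_iff₀ hCp] at h1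
    linarith
  have h3 : (d.U ^ 2 / C) ^ 2 ≤ d.hpl z ^ 2 := by
    rw [div_pow, div_le_iff₀ (by positivity)]
    have hCC : C ≤ C ^ 2 := by nlinarith
    calc (d.U ^ 2) ^ 2 = d.U ^ 4 := by ring
      _ ≤ c.Cp * (c.Cp + 1) * d.hpl z ^ 2 := h2
      _ ≤ C ^ 2 * d.hpl z ^ 2 := mul_le_mul_of_nonneg_right (le_trans hK hCC) (sq_nonneg _)
      _ = d.hpl z ^ 2 * C ^ 2 := by ring
  exact le_trans (le_abs_self _) (abs_le_of_sq_le_sq h3 hw.le)

theorem skw_pl_massE_le (hc : c.Ok) (h : SkwHyp c d) (p : SkwPlat c d) :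
    ∫ z in (c.zs - d.E)..c.zs, d.G z ≤ c.M0 * d.E := by
  have hzs := hc.zs
  have hE0 := p.E0
  have hE1 := p.E1
  have h1 : ∫ z in (c.zs - d.E)..c.zs, d.G z ≤ ∫ _z in (c.zs - d.E)..c.zs, c.M0 := by
    refine intervalIntegral.integral_mono_on (by linarith)
      (skw_pl_G_int h ⟨by linarith, by linarith [h.zmax]⟩ ⟨hzs.le, h.zmax⟩) intervalIntegrable_const ?_
    intro z hz
    exact h.GM z ⟨by linarith [hz.1], hz.2⟩
  rw [intervalIntegral.integral_const, smul_eq_mul] at h1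
  linarith

theorem skw_pl_U4_le (hc : c.Ok) (h : SkwHyp c d) (p : SkwPlat c d) : d.U ^ 4 ≤ c.M0 * d.E ^ 3 := by
  have hE0 := p.E0
  have h1 := le_trans p.massE_lo (skw_pl_massE_le hc h p)
  rw [div_le_iff₀ (by positivity)] at h1
  linarith

/-- **Leaf PLAT**. -/
theorem skw_leaf_plat : SkwLeafPlat := by
  intro c hc
  have hCp := hc.Cp
  have hC1 := hc.C1
  have hLq := hc.Lq
  have hM0 := hc.M0
  have hCp0 := skw_pl_Cp_pos hc
  set C : ℝ := 1 + 8 * c.Cp * (c.C1 + 1 + c.Lq ^ 2) + c.Cp * (c.Cp + 1) + c.M0 with hCdef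
  have hpos1 : 0 ≤ 8 * c.Cp * (c.C1 + 1 + c.Lq ^ 2) := by positivity
  have hpos2 : 0 ≤ c.Cp * (c.Cp + 1) := by positivity
  have hC : 1 ≤ C := by
    rw [hCdef]
    linarith
  refine ⟨C, hC, ?_⟩
  intro d h p
  refine ⟨?_, ?_, ?_, ?_⟩
  · intro z hz
    have hw := skw_pl_hpl_pos hc h p hz
    rcases le_total 0 (skwF d z) with hf | hf
    · refine skw_pl_abs_of_sq hw.le ?_ hC (skw_pl_pos_case hc h p hz hf)
      rw [hCdef]
      nlinarith [sq_nonneg c.Lq, mul_nonneg hCp0.le (sq_nonneg c.Lq), mul_pos hCp0 (by linarith : (0:ℝ) < c.C1 + 1)]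
    · refine skw_pl_abs_of_sq hw.le ?_ hC (skw_pl_neg_case hc h p hz hf)
      rw [hCdef]
      nlinarith
  · refine skw_pl_edge hc h p hC ?_
    rw [hCdef]
    nlinarith [sq_nonneg c.Lq, mul_nonneg hCp0.le (sq_nonneg c.Lq), mul_pos hCp0 (by linarith : (0:ℝ) < c.C1)]
  · intro z hz
    refine skw_pl_hpl_lower hc h p hC ?_ hz
    rw [hCdef]
    linarith
  · have h1 := skw_pl_U4_le hc h p
    have hE3 : 0 ≤ d.E ^ 3 := by
      have := p.E0
      positivity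
    refine le_trans h1 (mul_le_mul_of_nonneg_right ?_ hE3)
    rw [hCdef]
    linarith

end plat

end Claimed.Agent.R286
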