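import Claimed.Agent.R286.W.Leaves

/-!
# Row 286, folder W, file WinB : Leaf WINB (LL 08 "Windows and tiles": cuts within `E` of the join, and the plateau)      (helper112; prefix `skw_wb_`)

(a) `zs - E ≤ z ≤ zs`: `e₂ = 2 min(E,b) ≤ w < b/C` forces `2E ≤ w ≤ 2 K₀ E`; `J₋ = [z-E, z]` (against the last-`E` interval), `J₊ = [zs, zs+E/2]`.
(b) `z > zs`: `J₊ = [z, z+w/2]`; `J₋ = [z-w/2, z]`, or `[zs-2E/3, zs]` if `z - zs < w/2`.
-/

set_option autoImplicit false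

namespace Claimed.Agent.R286

open Set MeasureTheory

/-- lower bound of an average from a pointwise bound on the open interval -/
theorem skw_wb_avg_ge {G : ℝ → ℝ} {a l m : ℝ} (hl : 0 < l) (hG : IntervalIntegrable G volume a (a + l))
    (hlo : ∀ s ∈ Ioo a (a + l), m ≤ G s) : m ≤ (∫ t in a..(a + l), G t) / l := by
  rw [le_div_iff₀ hl]
  have h := intervalIntegral.integral_mono_on_of_le_Ioo (μ := volume) (a := a) (b := a + l) (by linarith)
    (intervalIntegrable_const (c := m)) hG hlo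
  simpa [mul_comm] using h

/-- upper bound of an integral from a pointwise bound on the closed interval -/
theorem skw_wb_int_le {G : ℝ → ℝ} {a l M : ℝ} (hl : 0 < l) (hG : IntervalIntegrable G volume a (a + l))
    (hhi : ∀ s ∈ Icc a (a + l), G s ≤ M) : (∫ t in a..(a + l), G t) ≤ l * M := by
  have h := intervalIntegral.integral_mono_on (μ := volume) (a := a) (b := a + l) (by linarith) hG
    (intervalIntegrable_const (c := M)) hhi
  simpa using h

theorem skw_wb_big {U C r r₀ K X : ℝ} (hU0 : 0 < U) (hU1 : U ≤ 1) (hr₀ : 0 < r₀) (hr : r₀ ≤ r) (hK : 0 < K)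
    (hC : K / r₀ ^ 3 ≤ C) (hX : U ^ 4 / K ≤ X) : U ^ 6 / (C * r ^ 3) ≤ X := by
  refine le_trans ?_ hX
  have h1 : K ≤ C * r ^ 3 := by
    have h2 : r₀ ^ 3 ≤ r ^ 3 := pow_le_pow_left₀ hr₀.le hr 3
    have h3 : 0 < r₀ ^ 3 := by positivity
    have h4 : K ≤ C * r₀ ^ 3 := by rwa [div_le_iff₀ h3] at hC
    have hC0 : 0 ≤ C := le_trans (by positivity) hC
    exact h4.trans (mul_le_mul_of_nonneg_left h2 hC0)
  have h5 : U ^ 6 ≤ U ^ 4 := pow_le_pow_of_le_one hU0.le hU1 (by norm_num)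
  exact div_le_div₀ (by positivity) h5 hK h1

theorem skw_wb_Gi {c : SkwC} {d : SkwD} (H : SkwHyp c d) {a b : ℝ} (ha : 0 ≤ a) (hab : a ≤ b) (hb : b ≤ d.zmax) :
    IntervalIntegrable d.G volume a b := by
  have h0 : (0 : ℝ) ≤ d.zmax := ha.trans (hab.trans hb)
  refine H.Gi.mono_set ?_
  rw [uIcc_of_le hab, uIcc_of_le h0]
  exact Icc_subset_Icc ha hb

/-- a window inside the plateau on which `hpl` is comparable to `h` -/
theorem skw_wb_plat {c : SkwC} {d : SkwD} (hc : c.Ok) (H : SkwHyp c d) (P : SkwPlat c d) {a l h l₁ l₂ : ℝ}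
    (hl : 0 < l) (ha : c.zs ≤ a) (hal : a + l ≤ d.zmax) (hh : 0 < h) (h1 : 0 < l₁)
    (hb : ∀ s ∈ Ioo a (a + l), l₁ * h ≤ d.hpl s ∧ d.hpl s ≤ l₂ * h) :
    d.U ^ 4 / (c.Cp * (l₂ * h) ^ 3) ≤ (∫ t in a..(a + l), d.G t) / l ∧
      ∀ s ∈ Ioo a (a + l), d.G s ≤ c.Cp ^ 2 * (l₂ / l₁) ^ 3 * ((∫ t in a..(a + l), d.G t) / l) := by
  have hCp : 0 < c.Cp := by linarith [hc.Cp]
  have hU0 : 0 < d.U := H.x0.trans_le H.xU
  have hzs := hc.zs
  have hmem : ∀ s ∈ Ioo a (a + l), s ∈ Ioc c.zs d.zmax := fun s hs =>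
    ⟨lt_of_le_of_lt ha hs.1, hs.2.le.trans hal⟩
  have hl12 : l₁ ≤ l₂ := by
    have hs : a + l / 2 ∈ Ioo a (a + l) := ⟨by linarith, by linarith⟩
    have := hb _ hs
    exact le_of_mul_le_mul_right (this.1.trans this.2) hh
  have h2 : 0 < l₂ := h1.trans_le hl12
  have hlow : ∀ s ∈ Ioo a (a + l), d.U ^ 4 / (c.Cp * (l₂ * h) ^ 3) ≤ d.G s := by
    intro s hs
    have hG0 : 0 ≤ d.G s := H.G0 s ⟨by linarith [(hmem s hs).1], (hmem s hs).2⟩
    have e1 := P.Gh_lo s (hmem s hs)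
    have e2 : d.hpl s ^ 3 ≤ (l₂ * h) ^ 3 :=
      pow_le_pow_left₀ ((mul_pos h1 hh).le.trans (hb s hs).1) (hb s hs).2 3
    have e3 : d.U ^ 4 / c.Cp ≤ d.G s * (l₂ * h) ^ 3 := e1.trans (mul_le_mul_of_nonneg_left e2 hG0)
    have e4 : 0 < (l₂ * h) ^ 3 := by positivity
    rw [div_le_iff₀ (by positivity)]
    rw [div_le_iff₀ hCp] at e3
    linarith
  have havg := skw_wb_avg_ge hl (skw_wb_Gi H (by linarith) (by linarith) hal) hlow
  refine ⟨havg, fun s hs => ?_⟩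
  have e1 := P.Gh_hi s (hmem s hs)
  have hG0 : 0 ≤ d.G s := H.G0 s ⟨by linarith [(hmem s hs).1], (hmem s hs).2⟩
  have e2 : (l₁ * h) ^ 3 ≤ d.hpl s ^ 3 := pow_le_pow_left₀ (mul_pos h1 hh).le (hb s hs).1 3
  have e3 : d.G s * (l₁ * h) ^ 3 ≤ c.Cp * d.U ^ 4 := (mul_le_mul_of_nonneg_left e2 hG0).trans e1
  have e4 : 0 < (l₁ * h) ^ 3 := by positivity
  have e5 : d.G s ≤ c.Cp * d.U ^ 4 / (l₁ * h) ^ 3 := by rwa [le_div_iff₀ e4]
  have e6 : c.Cp * d.U ^ 4 / (l₁ * h) ^ 3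
      = c.Cp ^ 2 * (l₂ / l₁) ^ 3 * (d.U ^ 4 / (c.Cp * (l₂ * h) ^ 3)) := by
    field_simp
  rw [e6] at e5
  exact e5.trans (mul_le_mul_of_nonneg_left havg (by positivity))

/-- a window of length `≍ E` inside the active interval, within `2E` of the last-`E` interval -/
theorem skw_wb_act {c : SkwC} {d : SkwD} (hc : c.Ok) (H : SkwHyp c d) (P : SkwPlat c d) {a l : ℝ}
    (hE : d.E ≤ 2 * d.b) (hx : d.x ≤ 1 / (2 * c.Cadj 2)) (hl1 : d.E / 2 ≤ l) (hl2 : l ≤ 2 * d.E)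
    (ha0 : 0 ≤ a) (hal : a + l ≤ c.zs) (hnear : |c.zs - d.E - a| ≤ 2 * d.E) :
    d.U ^ 4 / (2 * c.Cadj 2 * d.E ^ 3) ≤ (∫ t in a..(a + l), d.G t) / l ∧
      ∀ s ∈ Icc a (a + l), d.G s ≤ 2 * c.Cadj 2 * ((∫ t in a..(a + l), d.G t) / l) := by
  set Ca := c.Cadj 2 with hCa
  have hCa1 : 1 ≤ Ca := hc.Cadj 2
  have hCa0 : 0 < Ca := by linarith
  have hU0 : 0 < d.U := H.x0.trans_le H.xU
  have hE0 := P.E0
  have hl : 0 < l := by linarith
  set avg := (∫ t in a..(a + l), d.G t) / l with havg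
  have hzE : 0 ≤ c.zs - d.E := by linarith [P.E1, hc.zs]
  -- step 1
  have s1 : ∀ s ∈ Icc (c.zs - d.E) (c.zs - d.E + d.E), d.G s ≤ Ca * (avg + d.tiny) :=
    H.adj 2 d.E (c.zs - d.E) d.E a l (by norm_num) hE0 hE (by linarith) (by linarith) hl1 hl2 hzE
      (by linarith) ha0 hal hnear
  -- step 2
  have s2 : (∫ t in (c.zs - d.E)..(c.zs - d.E + d.E), d.G t) ≤ d.E * (Ca * (avg + d.tiny)) :=
    skw_wb_int_le hE0 (skw_wb_Gi H hzE (by linarith) (by linarith [H.zmax])) s1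
  rw [sub_add_cancel] at s2
  have s3 : d.U ^ 4 / d.E ^ 2 ≤ d.E * (Ca * (avg + d.tiny)) := P.massE_lo.trans s2
  have s4 : d.U ^ 4 / (Ca * d.E ^ 3) ≤ avg + d.tiny := by
    rw [div_le_iff₀ (by positivity)] at s3 ⊢
    nlinarith [s3]
  -- step 3
  have hx1 : d.x ≤ 1 := H.xU.trans H.U1
  have t1 : d.tiny ≤ d.U ^ 4 / (2 * Ca * d.E ^ 3) := by
    have a1 : d.x ^ 12 = d.x ^ 4 * d.x ^ 7 * d.x := by ring
    have a2 : d.x ^ 4 ≤ d.U ^ 4 := pow_le_pow_left₀ H.x0.le H.xU 4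
    have a3 : d.x ^ 7 ≤ 1 := pow_le_one₀ H.x0.le hx1
    have a4 : d.x ^ 12 ≤ d.U ^ 4 * (1 / (2 * Ca)) := by
      rw [a1]
      have : d.x ^ 4 * d.x ^ 7 ≤ d.U ^ 4 := by
        calc d.x ^ 4 * d.x ^ 7 ≤ d.U ^ 4 * 1 :=
              mul_le_mul a2 a3 (by have := H.x0; positivity) (by positivity)
          _ = d.U ^ 4 := mul_one _
      exact mul_le_mul this hx H.x0.le (by positivity)
    have a5 : d.E ^ 3 ≤ 1 := pow_le_one₀ hE0.le P.E2
    have a6 : d.U ^ 4 * (1 / (2 * Ca)) ≤ d.U ^ 4 / (2 * Ca * d.E ^ 3) := by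
      rw [mul_one_div]
      apply div_le_div_of_nonneg_left (by positivity) (by positivity)
      calc 2 * Ca * d.E ^ 3 ≤ 2 * Ca * 1 := mul_le_mul_of_nonneg_left a5 (by positivity)
        _ = 2 * Ca := mul_one _
    exact (H.t1.trans a4).trans a6
  have e1 : d.U ^ 4 / (Ca * d.E ^ 3) = 2 * (d.U ^ 4 / (2 * Ca * d.E ^ 3)) := by
    field_simp
  have s5 : d.U ^ 4 / (2 * Ca * d.E ^ 3) ≤ avg := by
    rw [e1] at s4; linarith
  refine ⟨s5, fun s hs => ?_⟩
  have s6 : d.G s ≤ Ca * (avg + d.tiny) :=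
    H.adj 2 d.E a l a l (by norm_num) hE0 hE hl1 hl2 hl1 hl2 ha0 hal ha0 hal
      (by simp; positivity) s hs
  have s7 : Ca * (avg + d.tiny) ≤ 2 * Ca * avg := by
    have : d.tiny ≤ avg := t1.trans s5
    nlinarith
  exact s6.trans s7

/-- `big` for the active windows -/
theorem skw_wb_act_big {U Ca E w avg : ℝ} (hU0 : 0 < U) (hCa : 0 < Ca) (hE : 0 < E) (hw : 2 * E / 3 ≤ w)
    (h : U ^ 4 / (2 * Ca * E ^ 3) ≤ avg) : U ^ 4 / (7 * Ca) ≤ avg * w ^ 3 := by
  have h1 : (2 * E / 3) ^ 3 ≤ w ^ 3 := pow_le_pow_left₀ (by positivity) hw 3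
  have h2 : 0 ≤ U ^ 4 / (2 * Ca * E ^ 3) := by positivity
  have h3 : U ^ 4 / (2 * Ca * E ^ 3) * (2 * E / 3) ^ 3 ≤ avg * w ^ 3 :=
    mul_le_mul h h1 (by positivity) (h2.trans h)
  refine le_trans ?_ h3
  have e : U ^ 4 / (2 * Ca * E ^ 3) * (2 * E / 3) ^ 3 = 4 / 27 * (U ^ 4 / Ca) := by
    field_simp; ring
  have e' : U ^ 4 / (7 * Ca) = 1 / 7 * (U ^ 4 / Ca) := by
    field_simp
  rw [e, e']
  have : 0 ≤ U ^ 4 / Ca := by positivity
  nlinarith

/-- `big` for the plateau windows -/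
theorem skw_wb_plat_big {U Cp l₂ h w avg : ℝ} (hU0 : 0 < U) (hCp : 0 < Cp) (hl₂ : 0 < l₂) (hh : 0 < h) (hw : h ≤ w)
    (H : U ^ 4 / (Cp * (l₂ * h) ^ 3) ≤ avg) : U ^ 4 / (Cp * l₂ ^ 3) ≤ avg * w ^ 3 := by
  have h1 : h ^ 3 ≤ w ^ 3 := pow_le_pow_left₀ hh.le hw 3
  have h2 : 0 ≤ U ^ 4 / (Cp * (l₂ * h) ^ 3) := by positivity
  have h3 : U ^ 4 / (Cp * (l₂ * h) ^ 3) * h ^ 3 ≤ avg * w ^ 3 :=
    mul_le_mul H h1 (by positivity) (h2.trans H)
  refine le_trans (le_of_eq ?_) h3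
  field_simp

theorem skw_wb_le_mul {C w x : ℝ} (hC : 2 ≤ C) (hw : 0 ≤ w) (hx : x ≤ 2 * w) : x ≤ C * w :=
  hx.trans (mul_le_mul_of_nonneg_right hC hw)

theorem skw_wb_div_le {C w l k : ℝ} (hC0 : 0 < C) (hk : k ≤ C) (hl : 0 ≤ l) (h : w ≤ k * l) : w / C ≤ l := by
  rw [div_le_iff₀ hC0]
  calc w ≤ k * l := h
    _ ≤ C * l := mul_le_mul_of_nonneg_right hk hl
    _ = l * C := mul_comm _ _

set_option maxHeartbeats 1600000 in
theorem skw_leaf_winB : SkwLeafWinB := by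
  intro c hc K₀ hK
  set Ca := c.Cadj 2 with hCa
  have hCa1 : 1 ≤ Ca := hc.Cadj 2
  have hCa0 : 0 < Ca := by linarith
  have hCp1 : 1 ≤ c.Cp := hc.Cp
  have hCp0 : 0 < c.Cp := by linarith
  have hzs := hc.zs
  set r₀ := min (3 * c.zs / 4) 1 with hr₀
  have hr₀pos : 0 < r₀ := lt_min (by linarith) one_pos
  have hr3 : 0 < r₀ ^ 3 := by positivity
  set C := 2 + 4 * K₀ + 3 * c.Cp + 2 * Ca + 27 * c.Cp ^ 2 + 8 * c.Cp ^ 2 * (c.Cp + 1) ^ 3
      + (7 * Ca / r₀ ^ 3 + c.Cp * (c.Cp + 1) ^ 3 / r₀ ^ 3 + 4 * c.Cp / r₀ ^ 3) with hC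
  have p4 : 0 ≤ 27 * c.Cp ^ 2 := by positivity
  have p5 : 0 ≤ 8 * c.Cp ^ 2 * (c.Cp + 1) ^ 3 := by positivity
  have p6 : 0 ≤ 7 * Ca / r₀ ^ 3 := by positivity
  have p7 : 0 ≤ c.Cp * (c.Cp + 1) ^ 3 / r₀ ^ 3 := by positivity
  have p8 : 0 ≤ 4 * c.Cp / r₀ ^ 3 := by positivity
  have c2 : 2 ≤ C := by linarith
  have cK : 4 * K₀ ≤ C := by linarith
  have cCp : 3 * c.Cp ≤ C := by linarith
  have cCa : 2 * Ca ≤ C := by linarith
  have c27 : 27 * c.Cp ^ 2 ≤ C := by linarith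
  have c8 : 8 * c.Cp ^ 2 * (c.Cp + 1) ^ 3 ≤ C := by linarith
  have k1 : 7 * Ca / r₀ ^ 3 ≤ C := by linarith
  have k2 : c.Cp * (c.Cp + 1) ^ 3 / r₀ ^ 3 ≤ C := by linarith
  have k3 : 4 * c.Cp / r₀ ^ 3 ≤ C := by linarith
  have hC0 : 0 < C := by linarith
  refine ⟨C, by linarith, ?_⟩
  intro d H P Sm hact z hz hw
  have hU0 : 0 < d.U := H.x0.trans_le H.xU
  have hU1 := H.U1
  have hE0 := P.E0
  have hb0 := H.b0
  have hz34 : 3 * c.zs / 4 ≤ z := by linarith [hz.1, P.E1]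
  have hr_lo : r₀ ≤ skwR z := min_le_min_right 1 hz34
  have hr_hi : skwR z ≤ 1 := min_le_right _ _
  have hwb : skwH c d z < d.b / C := by
    refine lt_of_lt_of_le hw (div_le_div_of_nonneg_right ?_ hC0.le)
    calc d.b * skwR z ≤ d.b * 1 := mul_le_mul_of_nonneg_left hr_hi hb0.le
      _ = d.b := mul_one _
  have hbC : d.b / C ≤ d.b := div_le_self hb0.le (by linarith)
  have hb1C : d.b ≤ 1 / C := Sm.b
  have h1CCp : 1 / C ≤ 1 / c.Cp := one_div_le_one_div_of_le hCp0 (by linarith)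
  have hxC : d.x ≤ 1 / (2 * Ca) := Sm.x.trans (one_div_le_one_div_of_le (by positivity) cCa)
  have h1Cp : 0 < 1 / c.Cp := by positivity
  have h2Cp : 2 / c.Cp = 2 * (1 / c.Cp) := by ring
  have hlen := P.len_lo
  rw [h2Cp] at hlen
  have hzlo := H.zlo1
  have hzlo0 := H.zlo0
  rcases le_or_gt z c.zs with hzs' | hzs'
  · -- case (a)
    have hH : skwH c d z = skwHact c d z := if_pos hzs'
    set w := skwH c d z with hwdef
    have he2 : skwE2 c d z = 2 * min d.E d.b := by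
      unfold skwE2
      rw [max_eq_left (by linarith [hz.1] : c.zs - z - d.E ≤ 0), sub_zero,
        max_eq_right (by have := lt_min hE0 hb0; linarith)]
    have hw_ge : 2 * min d.E d.b ≤ w := by
      rw [hH, ← he2]
      unfold skwHact
      refine le_trans ?_ (le_max_right _ _)
      rw [P.Hx z]
      exact le_max_right _ _
    have hEb : d.E < d.b := by
      by_contra hcon
      rw [not_lt] at hcon
      rw [min_eq_right hcon] at hw_ge
      linarith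
    rw [min_eq_left hEb.le] at hw_ge
    have hz0 : 0 ≤ z := by linarith
    have hwK : w ≤ 2 * K₀ * d.E := by
      have h1 := hact z ⟨hz0, hzs'⟩
      rw [← hH] at h1
      have h2 : K₀ * (d.E + (c.zs - z)) ≤ K₀ * (2 * d.E) :=
        mul_le_mul_of_nonneg_left (by linarith [hz.1]) (by linarith)
      linarith
    have hw0 : 0 < w := by linarith
    have hE1 := P.E1
    refine ⟨?_, ?_, ?_⟩
    · -- lower window
      obtain ⟨A1, A2⟩ := skw_wb_act hc H P (a := z - d.E) (l := d.E) (by linarith) hxC (by linarith)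
        (by linarith) (by linarith [hz.1]) (by linarith) (by
          rw [abs_le]; constructor <;> linarith [hz.1])
      have havg0 : 0 ≤ (∫ t in (z - d.E)..(z - d.E + d.E), d.G t) / d.E := le_trans (by positivity) A1
      refine ⟨z - d.E, d.E, by linarith [hz.1], by linarith, ⟨?_, by linarith, ?_, ?_, ?_⟩⟩
      · exact skw_wb_div_le hC0 cK hE0.le (by linarith)
      · have : |z - d.E - z| = d.E := by
          rw [show z - d.E - z = -d.E by ring, abs_neg, abs_of_pos hE0]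
        rw [this]; exact skw_wb_le_mul c2 hw0.le (by linarith)
      · intro s hs
        exact (A2 s (Ioo_subset_Icc_self hs)).trans (mul_le_mul_of_nonneg_right cCa havg0)
      · exact skw_wb_big hU0 hU1 hr₀pos hr_lo (by positivity) k1
          (skw_wb_act_big hU0 hCa0 hE0 (by linarith) A1)
    · -- upper window
      have hb : ∀ s ∈ Ioo c.zs (c.zs + d.E / 2), 1 / 2 * d.E ≤ d.hpl s ∧ d.hpl s ≤ (c.Cp + 1) * d.E := by
        intro s hs
        have h1 := P.hlip s ⟨hs.1.le, by linarith [hs.2]⟩ c.zs ⟨le_rfl, H.zmax⟩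
        rw [abs_le, abs_of_pos (by linarith [hs.1] : 0 < s - c.zs)] at h1
        have := P.hjoin_lo
        have := P.hjoin_hi
        constructor <;> linarith [h1.1, h1.2, hs.2]
      obtain ⟨A1, A2⟩ := skw_wb_plat hc H P (a := c.zs) (l := d.E / 2) (h := d.E) (l₁ := 1 / 2)
        (l₂ := c.Cp + 1) (by linarith) le_rfl (by linarith) hE0 (by norm_num) hb
      have havg0 : 0 ≤ (∫ t in c.zs..(c.zs + d.E / 2), d.G t) / (d.E / 2) := le_trans (by positivity) A1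
      refine ⟨c.zs, d.E / 2, hzs', by linarith, ⟨?_, by linarith, ?_, ?_, ?_⟩⟩
      · exact skw_wb_div_le hC0 cK (by linarith) (by linarith)
      · rw [abs_of_nonneg (by linarith : 0 ≤ c.zs - z)]
        exact skw_wb_le_mul c2 hw0.le (by linarith [hz.1])
      · intro s hs
        refine (A2 s hs).trans (mul_le_mul_of_nonneg_right ?_ havg0)
        have : c.Cp ^ 2 * ((c.Cp + 1) / (1 / 2)) ^ 3 = 8 * c.Cp ^ 2 * (c.Cp + 1) ^ 3 := by
          field_simp; ring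
        rw [this]; exact c8
      · exact skw_wb_big hU0 hU1 hr₀pos hr_lo (by positivity) k2
          (skw_wb_plat_big hU0 hCp0 (by linarith) hE0 (by linarith) A1)
    · linarith
  · -- case (b)
    have hH : skwH c d z = d.hpl z := if_neg (not_le.mpr hzs')
    set w := skwH c d z with hwdef
    have hzmem : z ∈ Ioc c.zs d.zmax := ⟨hzs', hz.2⟩
    have hzI : z ∈ Icc c.zs d.zmax := ⟨hzs'.le, hz.2⟩
    have hw0 : 0 < w := by
      have h1 := P.Gh_lo z hzmem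
      rw [← hH] at h1
      have h2 : 0 < d.U ^ 4 / c.Cp := by positivity
      have hG0 : 0 ≤ d.G z := H.G0 z ⟨by linarith, hz.2⟩
      by_contra hcon
      rw [not_lt] at hcon
      have h3 : w ^ 3 ≤ 0 := by
        have : w ^ 3 = w * w ^ 2 := by ring
        rw [this]; exact mul_nonpos_of_nonpos_of_nonneg hcon (sq_nonneg w)
      have := mul_nonpos_of_nonneg_of_nonpos hG0 h3
      linarith
    have hwCp : w < 1 / c.Cp := by linarith
    have hstrip : z < d.zmax - 1 / c.Cp := by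
      by_contra hcon
      rw [not_lt] at hcon
      have := P.strip z ⟨hcon, hz.2⟩
      rw [← hH] at this
      linarith
    -- a window `[a, a + w/2]` within `w/2` of `z`, inside the plateau
    have hwin : ∀ a : ℝ, c.zs ≤ a → a ≤ z → z ≤ a + w / 2 → SkwWin C d z w a (w / 2) := by
      intro a ha1 ha2 ha3
      have hal : a + w / 2 ≤ d.zmax := by linarith
      have hb : ∀ s ∈ Ioo a (a + w / 2), 1 / 2 * w ≤ d.hpl s ∧ d.hpl s ≤ 3 / 2 * w := by
        intro s hs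
        have h1 := P.hlip s ⟨by linarith [hs.1], by linarith [hs.2]⟩ z hzI
        rw [← hH] at h1
        have h2 : |s - z| ≤ w / 2 := by
          rw [abs_le]; constructor <;> linarith [hs.1, hs.2]
        have h3 := h1.trans h2
        rw [abs_le] at h3
        constructor <;> linarith [h3.1, h3.2]
      obtain ⟨A1, A2⟩ := skw_wb_plat hc H P (a := a) (l := w / 2) (h := w) (l₁ := 1 / 2)
        (l₂ := 3 / 2) (by linarith) ha1 hal hw0 (by norm_num) hb
      have havg0 : 0 ≤ (∫ t in a..(a + w / 2), d.G t) / (w / 2) := le_trans (by positivity) A1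
      refine ⟨?_, by linarith, ?_, ?_, ?_⟩
      · exact skw_wb_div_le hC0 c2 (by linarith) (by linarith)
      · refine skw_wb_le_mul c2 hw0.le ?_
        rw [abs_le]; constructor <;> linarith
      · intro s hs
        refine (A2 s hs).trans (mul_le_mul_of_nonneg_right ?_ havg0)
        have : c.Cp ^ 2 * ((3 / 2 : ℝ) / (1 / 2)) ^ 3 = 27 * c.Cp ^ 2 := by
          norm_num; ring
        rw [this]; exact c27
      · have h5 := skw_wb_plat_big hU0 hCp0 (by norm_num : (0 : ℝ) < 3 / 2) hw0 le_rfl A1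
        refine skw_wb_big hU0 hU1 hr₀pos hr_lo (by positivity) k3 (le_trans ?_ h5)
        apply div_le_div_of_nonneg_left (by positivity) (by positivity)
        have : c.Cp * (3 / 2 : ℝ) ^ 3 = 27 / 8 * c.Cp := by ring
        rw [this]; linarith
    refine ⟨?_, ⟨z, w / 2, le_rfl, by linarith, hwin z hzs'.le le_rfl (by linarith)⟩, by linarith⟩
    rcases le_or_gt (w / 2) (z - c.zs) with hfar | hnear
    · exact ⟨z - w / 2, w / 2, by linarith, by linarith, hwin (z - w / 2) (by linarith) (by linarith) (by linarith)⟩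
    · have h1 := P.hlip z hzI c.zs ⟨le_rfl, H.zmax⟩
      rw [← hH, abs_le, abs_of_pos (by linarith : 0 < z - c.zs)] at h1
      have hj1 := P.hjoin_lo
      have hj2 := P.hjoin_hi
      have hE1 := P.E1
      have hEw : 2 * d.E / 3 ≤ w := by linarith [h1.1, h1.2]
      have hwE : w ≤ 2 * c.Cp * d.E := by linarith [h1.1, h1.2]
      obtain ⟨A1, A2⟩ := skw_wb_act hc H P (a := c.zs - 2 * d.E / 3) (l := 2 * d.E / 3) (by linarith) hxC
        (by linarith) (by linarith) (by linarith) (by linarith) (by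
          rw [abs_le]; constructor <;> linarith)
      have havg0 : 0 ≤ (∫ t in (c.zs - 2 * d.E / 3)..(c.zs - 2 * d.E / 3 + 2 * d.E / 3), d.G t) / (2 * d.E / 3) :=
        le_trans (by positivity) A1
      refine ⟨c.zs - 2 * d.E / 3, 2 * d.E / 3, by linarith, by linarith, ⟨?_, hEw, ?_, ?_, ?_⟩⟩
      · exact skw_wb_div_le hC0 cCp (by linarith) (by linarith)
      · refine skw_wb_le_mul c2 hw0.le ?_
        rw [abs_le]; constructor <;> linarith
      · intro s hs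
        exact (A2 s (Ioo_subset_Icc_self hs)).trans (mul_le_mul_of_nonneg_right cCa havg0)
      · exact skw_wb_big hU0 hU1 hr₀pos hr_lo (by positivity) k1
          (skw_wb_act_big hU0 hCa0 hE0 hEw A1)

end Claimed.Agent.R286
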