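import Claimed.Agent.R286.W.Adj
import Claimed.Agent.R286.W.H0
import Claimed.Agent.R286.W.ConeA
import Claimed.Agent.R286.W.ConeB
import Claimed.Agent.R286.W.Plat
import Claimed.Agent.R286.W.EndB
import Claimed.Agent.R286.W.Join
import Claimed.Agent.R286.W.WinA
import Claimed.Agent.R286.W.WinB
import Claimed.Agent.R286.W.Tile

/-!
# Row 286, folder W, file GlueD : GLUE-D, the direct-path theorem `SkwDirect` from the leaves (LL Lemma 8.2)      OWNER helper237 (prefix `skw_gd_`)      0 sorry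

`skw_gd_main` : all leaves (as hypotheses) ⟹ `SkwDirect`;   `skw_direct : SkwDirect`.
Slope `A := CJ` (JOIN), `K₀ := CJ + 2`, `𝔥_act ≤ K₀ (E + d_*)`, `E ≤ 2 (𝔥_act + d_*)` (first endpoint function): quasi-Lipschitz across the join;
budget = H0 + CONE-B + ENDB on the active side, `SkwPlat.bud` on the plateau; windows = WINA for `d_* ≥ E`, WINB otherwise;
tiles = two calls of TILE, concatenated at the join.
-/

set_option autoImplicit false

namespace Claimed.Agent.R286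

open Set MeasureTheory


theorem skw_gd_R_lip (s z : ℝ) : skwR s ≤ skwR z + |s - z| := by
  unfold skwR
  have h := le_abs_self (s - z)
  have h0 := abs_nonneg (s - z)
  rcases le_total z 1 with h1 | h1
  · rw [min_eq_left h1]
    exact (min_le_left _ _).trans (by linarith)
  · rw [min_eq_right h1]
    exact (min_le_right _ _).trans (by linarith)

theorem skw_gd_R_mono {s z : ℝ} (h : s ≤ z) : skwR s ≤ skwR z := min_le_min_right _ h

theorem skw_gd_R_pos {z : ℝ} (h : 0 < z) : 0 < skwR z := lt_min h one_pos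

theorem skw_gd_R_le_one (z : ℝ) : skwR z ≤ 1 := min_le_right _ _

theorem skw_gd_R_le (z : ℝ) : skwR z ≤ z := min_le_left _ _

/-- what the leaves give for one instance -/
structure SkwGd (c : SkwC) (d : SkwD) (CH CP CB CE K0 : ℝ) : Prop where
  h0 : SkwH0Concl CH c d
  cone : SkwConeConcl c d
  platf : ∀ z ∈ Icc c.zs d.zmax, |skwF d z| ≤ CP * d.Z ^ 2 * d.hpl z
  hpl_lo : ∀ z ∈ Icc c.zs d.zmax, d.U ^ 2 / CP ≤ d.hpl z
  coneB : ∀ α β, d.zlo / 2 ≤ α → α ≤ β → β ≤ 2 * α → β ≤ c.zs →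
      ∫ z in α..β, d.G z * skwHf c d z ^ 2 ≤ CB * skwL d * d.U ^ 4 / skwR α
  endB : ∫ z in (0 : ℝ)..c.zs, d.G z * d.Hx z ^ 2 ≤ CE * d.U ^ 4
  hactK : ∀ z ∈ Icc 0 c.zs, skwHact c d z ≤ K0 * (d.E + (c.zs - z))
  CH1 : 1 ≤ CH
  CP1 : 1 ≤ CP
  CB1 : 1 ≤ CB
  CE1 : 1 ≤ CE
  K01 : 1 ≤ K0

variable {c : SkwC} {d : SkwD} {CH CP CB CE K0 : ℝ}

theorem skw_gd_H_act {z : ℝ} (hz : z ≤ c.zs) : skwH c d z = skwHact c d z := by
  unfold skwH; rw [if_pos hz]

theorem skw_gd_H_pl {z : ℝ} (hz : c.zs < z) : skwH c d z = d.hpl z := by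
  unfold skwH; rw [if_neg (not_le.2 hz)]

/-- quasi-Lipschitz bound on the active side -/
theorem skw_gd_qlip_act (h : SkwHyp c d) (g : SkwGd c d CH CP CB CE K0) {z z' : ℝ}
    (hz : z ∈ Icc (d.zlo / 4) c.zs) (hz' : z' ∈ Icc (d.zlo / 4) c.zs) :
    skwHact c d z' ≤ (3 + d.A) * (skwHact c d z + |z - z'|) := by
  have hA := h.A1
  have hδ : 0 ≤ |z - z'| := abs_nonneg _
  have hz0 : 0 < z := lt_of_lt_of_le (by linarith [h.zlo0]) hz.1
  have hz0' : 0 < z' := lt_of_lt_of_le (by linarith [h.zlo0]) hz'.1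
  have hr := skw_gd_R_pos hz0
  have hr' := skw_gd_R_pos hz0'
  have hb0 := h.b0
  have hb1 := h.b1
  have hH0nn : 0 ≤ skwH0 c d z := by
    have h1 := g.h0.lower z hz
    have hU0 : 0 < d.U := lt_of_lt_of_le h.x0 h.xU
    have h2 : 0 ≤ min (d.b * skwR z) (d.U ^ 2 / skwR z) / CH := by
      have := g.CH1
      have : 0 ≤ min (d.b * skwR z) (d.U ^ 2 / skwR z) := le_min (by positivity) (by positivity)
      positivity
    linarith
  have hact0 : skwH0 c d z ≤ skwHact c d z := (le_max_left _ _).trans (le_max_left _ _)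
  have hact1 : skwHf c d z ≤ skwHact c d z := (le_max_right _ _).trans (le_max_left _ _)
  have hact2 : d.Hx z ≤ skwHact c d z := le_max_right _ _
  have hactnn : 0 ≤ skwHact c d z := hH0nn.trans hact0
  have hS : 0 ≤ skwHact c d z + |z - z'| := by linarith
  -- H0
  have e0 : skwH0 c d z' ≤ 3 * (skwHact c d z + |z - z'|) := by
    by_cases hc1 : skwR z ≤ 2 * skwR z'
    · by_cases hc2 : skwR z' ≤ 2 * skwR z
      · have := g.h0.qlip z hz z' hz' hc1 hc2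
        linarith
      · have h1 := g.h0.cap z' hz'
        have h2 := skw_gd_R_lip z' z
        rw [abs_sub_comm] at h2
        have h3 : skwR z' ≤ 2 * |z - z'| := by linarith [not_le.1 hc2]
        have h4 : d.b * skwR z' ≤ skwR z' := by nlinarith
        linarith
    · have h1 := g.h0.cap z' hz'
      have h2 := skw_gd_R_lip z z'
      have h3 : skwR z' ≤ |z - z'| := by linarith [not_le.1 hc1]
      have h4 : d.b * skwR z' ≤ skwR z' := by nlinarith
      linarith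
  have e1 : skwHf c d z' ≤ skwHact c d z + d.A * |z - z'| := by
    have := g.cone.lip z' z
    rw [abs_sub_comm z' z] at this
    have h2 := le_abs_self (skwHf c d z' - skwHf c d z)
    linarith
  have e2 : d.Hx z' ≤ skwHact c d z + |z - z'| := by
    have := h.Hxlip z' ⟨hz0'.le, hz'.2⟩ z ⟨hz0.le, hz.2⟩
    rw [abs_sub_comm z' z] at this
    have h2 := le_abs_self (d.Hx z' - d.Hx z)
    linarith
  have hprod : (3 + d.A) * (skwHact c d z + |z - z'|)
      = 3 * (skwHact c d z + |z - z'|) + d.A * skwHact c d z + d.A * |z - z'| := by ring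
  have hAa : 0 ≤ d.A * skwHact c d z := by positivity
  have hAd : 0 ≤ d.A * |z - z'| := by positivity
  unfold skwHact at *
  refine max_le (max_le ?_ ?_) ?_
  · linarith
  · linarith
  · linarith

theorem skw_gd_Upos (h : SkwHyp c d) : 0 < d.U := lt_of_lt_of_le h.x0 h.xU

theorem skw_gd_hpl_pos (h : SkwHyp c d) (g : SkwGd c d CH CP CB CE K0) {z : ℝ}
    (hz : z ∈ Icc c.zs d.zmax) : 0 < d.hpl z := by
  have hU := skw_gd_Upos h
  have := g.CP1
  refine lt_of_lt_of_le ?_ (g.hpl_lo z hz)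
  positivity

theorem skw_gd_act_lower (g : SkwGd c d CH CP CB CE K0) {z : ℝ}
    (hz : z ∈ Icc (d.zlo / 4) c.zs) :
    min (d.b * skwR z) (d.U ^ 2 / skwR z) / CH ≤ skwHact c d z :=
  (g.h0.lower z hz).trans ((le_max_left _ _).trans (le_max_left _ _))

theorem skw_gd_min_pos (h : SkwHyp c d) {z : ℝ} (hz : 0 < z) :
    0 < min (d.b * skwR z) (d.U ^ 2 / skwR z) := by
  have hU := skw_gd_Upos h
  have hr := skw_gd_R_pos hz
  have hb := h.b0
  exact lt_min (by positivity) (by positivity)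

theorem skw_gd_act_pos (h : SkwHyp c d) (g : SkwGd c d CH CP CB CE K0) {z : ℝ}
    (hz : z ∈ Icc (d.zlo / 4) c.zs) : 0 < skwHact c d z := by
  have hz0 : 0 < z := lt_of_lt_of_le (by linarith [h.zlo0]) hz.1
  have := skw_gd_min_pos h hz0
  have h1 := g.CH1
  refine lt_of_lt_of_le ?_ (skw_gd_act_lower g hz)
  positivity

theorem skw_gd_H_pos (h : SkwHyp c d) (g : SkwGd c d CH CP CB CE K0) {z : ℝ}
    (hz : z ∈ Icc (d.zlo / 4) d.zmax) : 0 < skwH c d z := by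
  rcases le_or_gt z c.zs with h1 | h1
  · rw [skw_gd_H_act h1]; exact skw_gd_act_pos h g ⟨hz.1, h1⟩
  · rw [skw_gd_H_pl h1]; exact skw_gd_hpl_pos h g ⟨h1.le, hz.2⟩

/-- `E ≤ 2 (𝔥_act + d_*)` from the first endpoint function -/
theorem skw_gd_E_le (p : SkwPlat c d) (z : ℝ) : d.E ≤ 2 * (skwHact c d z + (c.zs - z)) := by
  have h1 : d.Hx z ≤ skwHact c d z := le_max_right _ _
  have h2 : skwE1 c d z ≤ d.Hx z := by rw [p.Hx z]; exact le_max_left _ _
  have h3 : d.E / 2 - (c.zs - z) ≤ skwE1 c d z := le_max_right _ _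
  linarith

/-- (i) the global quasi-Lipschitz bound -/
theorem skw_gd_qlip (hc : c.Ok) (h : SkwHyp c d) (p : SkwPlat c d) (g : SkwGd c d CH CP CB CE K0)
    {z z' : ℝ} (hz : z ∈ Icc (d.zlo / 4) d.zmax) (hz' : z' ∈ Icc (d.zlo / 4) d.zmax) :
    skwH c d z' ≤ (3 + d.A + 2 * c.Cp + K0) * (skwH c d z + |z - z'|) := by
  have hA := h.A1
  have hCp := hc.Cp
  have hK := g.K01
  have hpos := skw_gd_H_pos h g hz
  have hδ : 0 ≤ |z - z'| := abs_nonneg _
  have hS : 0 ≤ skwH c d z + |z - z'| := by linarith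
  have hzs : c.zs ∈ Icc c.zs d.zmax := ⟨le_rfl, h.zmax⟩
  rcases le_or_gt z c.zs with h1 | h1
  · rcases le_or_gt z' c.zs with h2 | h2
    · rw [skw_gd_H_act h1, skw_gd_H_act h2] at *
      refine (skw_gd_qlip_act h g ⟨hz.1, h1⟩ ⟨hz'.1, h2⟩).trans ?_
      apply mul_le_mul_of_nonneg_right (by linarith) hS
    · rw [skw_gd_H_act h1, skw_gd_H_pl h2] at *
      have e1 := p.hlip z' ⟨h2.le, hz'.2⟩ c.zs hzs
      have e2 := le_abs_self (d.hpl z' - d.hpl c.zs)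
      rw [abs_of_pos (by linarith : 0 < z' - c.zs)] at e1
      have e3 := p.hjoin_hi
      have e4 := skw_gd_E_le p z
      have e5 : |z - z'| = z' - z := by rw [abs_sub_comm]; exact abs_of_pos (by linarith)
      rw [e5] at hS ⊢
      have e6 : c.Cp * d.E ≤ c.Cp * (2 * (skwHact c d z + (c.zs - z))) :=
        mul_le_mul_of_nonneg_left e4 (by linarith)
      have e7 : d.hpl z' ≤ 2 * c.Cp * (skwHact c d z + (z' - z)) := by
        have : (z' - c.zs) ≤ 2 * c.Cp * (z' - c.zs) := by nlinarith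
        nlinarith
      refine e7.trans ?_
      apply mul_le_mul_of_nonneg_right (by linarith) hS
  · rcases le_or_gt z' c.zs with h2 | h2
    · rw [skw_gd_H_pl h1, skw_gd_H_act h2] at *
      have hz0' : 0 ≤ z' := le_trans (by linarith [h.zlo0]) hz'.1
      have e1 := g.hactK z' ⟨hz0', h2⟩
      have e2 := p.hlip c.zs hzs z ⟨h1.le, hz.2⟩
      have e3 := le_abs_self (d.hpl c.zs - d.hpl z)
      rw [abs_sub_comm c.zs z, abs_of_pos (by linarith : 0 < z - c.zs)] at e2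
      have e4 := p.hjoin_lo
      have e5 : |z - z'| = z - z' := abs_of_pos (by linarith)
      rw [e5] at hS ⊢
      have e6 : K0 * (d.E + (c.zs - z')) ≤ K0 * (d.hpl z + (z - z')) :=
        mul_le_mul_of_nonneg_left (by linarith) (by linarith)
      refine (e1.trans e6).trans ?_
      apply mul_le_mul_of_nonneg_right (by linarith) hS
    · rw [skw_gd_H_pl h1, skw_gd_H_pl h2] at *
      have e1 := p.hlip z' ⟨h2.le, hz'.2⟩ z ⟨h1.le, hz.2⟩
      have e2 := le_abs_self (d.hpl z' - d.hpl z)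
      rw [abs_sub_comm z' z] at e1
      have e3 : d.hpl z' ≤ 1 * (d.hpl z + |z - z'|) := by linarith
      refine e3.trans ?_
      apply mul_le_mul_of_nonneg_right (by linarith) hS

/-- lower bound of the width -/
theorem skw_gd_lower (hc : c.Ok) (h : SkwHyp c d) (g : SkwGd c d CH CP CB CE K0) {C z : ℝ}
    (hC1 : CH ≤ C) (hC2 : CP / skwR c.zs ≤ C) (hz : z ∈ Icc (d.zlo / 4) d.zmax) :
    min (d.b * skwR z) (d.U ^ 2 / skwR z) / C ≤ skwH c d z := by
  have hz0 : 0 < z := lt_of_lt_of_le (by linarith [h.zlo0]) hz.1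
  have hm := skw_gd_min_pos h hz0
  have hCH := g.CH1
  have hCP := g.CP1
  have hU := skw_gd_Upos h
  have hρ := skw_gd_R_pos hc.zs
  rcases le_or_gt z c.zs with h1 | h1
  · rw [skw_gd_H_act h1]
    refine le_trans ?_ (skw_gd_act_lower g ⟨hz.1, h1⟩)
    exact div_le_div_of_nonneg_left hm.le (by linarith) hC1
  · rw [skw_gd_H_pl h1]
    refine le_trans ?_ (g.hpl_lo z ⟨h1.le, hz.2⟩)
    have hC0 : 0 < C := lt_of_lt_of_le (by positivity) hC2
    have e1 : min (d.b * skwR z) (d.U ^ 2 / skwR z) ≤ d.U ^ 2 / skwR c.zs :=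
      (min_le_right _ _).trans
        (div_le_div_of_nonneg_left (by positivity) hρ (skw_gd_R_mono h1.le))
    rw [div_le_iff₀ hρ] at hC2
    rw [div_le_div_iff₀ hC0 (by linarith)]
    calc min (d.b * skwR z) (d.U ^ 2 / skwR z) * CP ≤ d.U ^ 2 / skwR c.zs * CP :=
          mul_le_mul_of_nonneg_right e1 (by linarith)
      _ ≤ d.U ^ 2 / skwR c.zs * (C * skwR c.zs) :=
          mul_le_mul_of_nonneg_left hC2 (by positivity)
      _ = d.U ^ 2 * C := by field_simp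

/-- upper bound of the width -/
theorem skw_gd_upper (hc : c.Ok) (h : SkwHyp c d) (p : SkwPlat c d)
    (g : SkwGd c d CH CP CB CE K0) {C z : ℝ}
    (hC1 : 2 ≤ C) (hC2 : c.Cp / skwR c.zs ≤ C) (hz : z ∈ Icc (d.zlo / 4) d.zmax) :
    skwH c d z ≤ C * skwR z := by
  have hz0 : 0 < z := lt_of_lt_of_le (by linarith [h.zlo0]) hz.1
  have hr := skw_gd_R_pos hz0
  have hρ := skw_gd_R_pos hc.zs
  have hb0 := h.b0
  have hb1 := h.b1
  rcases le_or_gt z c.zs with h1 | h1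
  · rw [skw_gd_H_act h1]
    have e0 := g.h0.cap z ⟨hz.1, h1⟩
    have e1 := g.cone.le z hz0.le
    have e2 := h.Hxr z ⟨hz0.le, h1⟩
    have e3 : d.b * skwR z ≤ C * skwR z := mul_le_mul_of_nonneg_right (by linarith) hr.le
    have e4 : 2 * skwR z ≤ C * skwR z := mul_le_mul_of_nonneg_right hC1 hr.le
    unfold skwHact
    exact max_le (max_le (e0.trans e3) (e1.trans e3)) (e2.trans e4)
  · rw [skw_gd_H_pl h1]
    refine (p.hup z ⟨h1.le, hz.2⟩).trans ?_
    rw [div_le_iff₀ hρ] at hC2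
    refine hC2.trans ?_
    exact mul_le_mul_of_nonneg_left (skw_gd_R_mono h1.le) (by linarith)

/-- deviation bound `|f| ≤ C e / b` -/
theorem skw_gd_dev (hc : c.Ok) (h : SkwHyp c d) (g : SkwGd c d CH CP CB CE K0) {C z : ℝ}
    (hC1 : c.Cf ≤ C) (hC2 : CP ≤ C) (hz : z ∈ Icc (d.zlo / 4) d.zmax) :
    |skwF d z| ≤ C * skwE d (skwH c d) z / d.b := by
  have hz0 : 0 < z := lt_of_lt_of_le (by linarith [h.zlo0]) hz.1
  have hr := skw_gd_R_pos hz0
  have hb0 := h.b0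
  have hb1 := h.b1
  have hCf := hc.Cf
  have hZ := h.Z1
  have hZ2 : 1 ≤ d.Z ^ 2 := one_le_pow₀ hZ
  have hfr := h.fr z hz
  have hf0 : 0 ≤ |skwF d z| := abs_nonneg _
  have hC0 : 0 < C := by linarith
  rw [le_div_iff₀ hb0]
  unfold skwE
  rcases le_or_gt z c.zs with h1 | h1
  · rw [skw_gd_H_act h1]
    have e1 : skwSrc d z ≤ skwHact c d z :=
      (g.cone.ge z ⟨hz0.le, h1⟩).trans ((le_max_right _ _).trans (le_max_left _ _))
    -- b |f| / C ≤ both entries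
    have k1 : |skwF d z| * d.b ≤ C * skwR z := by
      have : |skwF d z| * d.b ≤ |skwF d z| * 1 := mul_le_mul_of_nonneg_left (by linarith) hf0
      have h2 : c.Cf * skwR z ≤ C * skwR z := mul_le_mul_of_nonneg_right hC1 hr.le
      linarith
    have k2 : |skwF d z| * d.b ≤ C * (d.Z ^ 2 * skwHact c d z) := by
      have h3 : d.Z ^ 2 * skwSrc d z ≤ d.Z ^ 2 * skwHact c d z :=
        mul_le_mul_of_nonneg_left e1 (by linarith)
      have h4 : |skwF d z| * d.b ≤ C * (d.Z ^ 2 * skwSrc d z) := by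
        unfold skwSrc
        rcases le_total (d.b * skwR z) (|skwF d z| / d.Z ^ 2) with h5 | h5
        · rw [min_eq_left h5]
          have h6 : |skwF d z| * d.b ≤ c.Cf * skwR z * d.b := mul_le_mul_of_nonneg_right hfr hb0.le
          have h7 : c.Cf * skwR z * d.b ≤ C * (1 * (d.b * skwR z)) := by
            have : c.Cf * (d.b * skwR z) ≤ C * (d.b * skwR z) :=
              mul_le_mul_of_nonneg_right hC1 (by positivity)
            linarith
          have h8 : C * (1 * (d.b * skwR z)) ≤ C * (d.Z ^ 2 * (d.b * skwR z)) := by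
            apply mul_le_mul_of_nonneg_left _ hC0.le
            exact mul_le_mul_of_nonneg_right hZ2 (by positivity)
          linarith
        · rw [min_eq_right h5]
          have h6 : d.Z ^ 2 * (|skwF d z| / d.Z ^ 2) = |skwF d z| := by field_simp
          rw [h6]
          have h7 : |skwF d z| * d.b ≤ |skwF d z| * 1 := mul_le_mul_of_nonneg_left (by linarith) hf0
          have h8 : 1 * |skwF d z| ≤ C * |skwF d z| := mul_le_mul_of_nonneg_right (by linarith) hf0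
          linarith
      exact h4.trans (mul_le_mul_of_nonneg_left h3 hC0.le)
    rw [mul_min_of_nonneg _ _ hC0.le]
    exact le_min k1 k2
  · rw [skw_gd_H_pl h1]
    have e1 := g.platf z ⟨h1.le, hz.2⟩
    have hh := skw_gd_hpl_pos h g ⟨h1.le, hz.2⟩
    have k0 : |skwF d z| * d.b ≤ |skwF d z| := by
      have : |skwF d z| * d.b ≤ |skwF d z| * 1 := mul_le_mul_of_nonneg_left (by linarith) hf0
      linarith
    have k1 : |skwF d z| ≤ C * skwR z :=
      hfr.trans (mul_le_mul_of_nonneg_right hC1 hr.le)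
    have k2 : |skwF d z| ≤ C * (d.Z ^ 2 * d.hpl z) := by
      have : CP * d.Z ^ 2 * d.hpl z ≤ C * d.Z ^ 2 * d.hpl z := by
        apply mul_le_mul_of_nonneg_right _ hh.le
        exact mul_le_mul_of_nonneg_right hC2 (by positivity)
      linarith
    rw [mul_min_of_nonneg _ _ hC0.le]
    exact le_min (k0.trans k1) (k0.trans k2)

theorem skw_gd_Hf_cont (g : SkwGd c d CH CP CB CE K0) : Continuous (skwHf c d) := by
  have hl : LipschitzWith (Real.toNNReal d.A) (skwHf c d) := by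
    apply LipschitzWith.of_dist_le_mul
    intro z z'
    rw [Real.dist_eq, Real.dist_eq]
    refine (g.cone.lip z z').trans ?_
    apply mul_le_mul_of_nonneg_right _ (abs_nonneg _)
    exact Real.le_coe_toNNReal _
  exact hl.continuous

theorem skw_gd_Hx_cont (p : SkwPlat c d) : Continuous d.Hx := by
  have : d.Hx = fun z => max (skwE1 c d z) (skwE2 c d z) := funext p.Hx
  rw [this]
  unfold skwE1 skwE2
  fun_prop

theorem skw_gd_hpl_cont (p : SkwPlat c d) : ContinuousOn d.hpl (Icc c.zs d.zmax) := by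
  have hl : LipschitzOnWith 1 d.hpl (Icc c.zs d.zmax) := by
    apply LipschitzOnWith.of_dist_le_mul
    intro z hz z' hz'
    rw [Real.dist_eq, Real.dist_eq]
    simpa using p.hlip z hz z' hz'
  exact hl.continuousOn

/-- measurability of the active width -/
theorem skw_gd_meas_act (p : SkwPlat c d) (g : SkwGd c d CH CP CB CE K0) :
    AEStronglyMeasurable (skwHact c d) (volume.restrict (Icc (d.zlo / 4) c.zs)) := by
  have h1 := g.h0.meas
  have h2 : AEStronglyMeasurable (skwHf c d) (volume.restrict (Icc (d.zlo / 4) c.zs)) :=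
    (skw_gd_Hf_cont g).aestronglyMeasurable
  have h3 : AEStronglyMeasurable d.Hx (volume.restrict (Icc (d.zlo / 4) c.zs)) :=
    (skw_gd_Hx_cont p).aestronglyMeasurable
  exact (h1.sup h2).sup h3

/-- (i) measurability of the width -/
theorem skw_gd_meas (h : SkwHyp c d) (p : SkwPlat c d) (g : SkwGd c d CH CP CB CE K0) :
    AEStronglyMeasurable (skwH c d) (volume.restrict (Icc (d.zlo / 4) d.zmax)) := by
  have hle : d.zlo / 4 ≤ c.zs := by linarith [h.zlo0, h.zlo1]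
  rw [← Icc_union_Ioc_eq_Icc hle h.zmax, aestronglyMeasurable_union_iff]
  constructor
  · refine (skw_gd_meas_act p g).congr ?_
    refine (ae_restrict_iff' measurableSet_Icc).2 (Filter.Eventually.of_forall fun z hz => ?_)
    exact (skw_gd_H_act hz.2).symm
  · have h1 : AEStronglyMeasurable d.hpl (volume.restrict (Ioc c.zs d.zmax)) :=
      ((skw_gd_hpl_cont p).mono Ioc_subset_Icc_self).aestronglyMeasurable measurableSet_Ioc
    refine h1.congr ?_
    refine (ae_restrict_iff' measurableSet_Ioc).2 (Filter.Eventually.of_forall fun z hz => ?_)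
    exact (skw_gd_H_pl hz.1).symm

/-- integrability of `G * w²` for a bounded measurable `w` -/
theorem skw_gd_int (h : SkwHyp c d) (w : ℝ → ℝ) (B : ℝ) {a0 b0 α β : ℝ} (ha0 : 0 ≤ a0)
    (hb0 : b0 ≤ d.zmax)
    (hw : AEStronglyMeasurable w (volume.restrict (Icc a0 b0)))
    (hB : ∀ z ∈ Icc a0 b0, |w z| ≤ B) (h1 : a0 ≤ α) (h2 : α ≤ β) (h3 : β ≤ b0) :
    IntervalIntegrable (fun z => d.G z * w z ^ 2) volume α β := by
  rw [intervalIntegrable_iff_integrableOn_Ioc_of_le h2]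
  have hsub : Ioc α β ⊆ Icc a0 b0 := fun z hz => ⟨h1.trans hz.1.le, hz.2.trans h3⟩
  have hG : IntegrableOn d.G (Ioc α β) volume := by
    have := h.Gi
    rw [intervalIntegrable_iff_integrableOn_Ioc_of_le
      (ha0.trans (h1.trans (h2.trans (h3.trans hb0))))] at this
    exact this.mono_set fun z hz => ⟨lt_of_le_of_lt (ha0.trans h1) hz.1, hz.2.trans (h3.trans hb0)⟩
  have hw' : AEStronglyMeasurable (fun z => w z ^ 2) (volume.restrict (Ioc α β)) :=
    (hw.mono_set hsub).pow 2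
  refine Integrable.mul_bdd (c := B ^ 2) hG hw' ?_
  refine (ae_restrict_iff' measurableSet_Ioc).2 (Filter.Eventually.of_forall fun z hz => ?_)
  rw [Real.norm_eq_abs, abs_pow]
  exact pow_le_pow_left₀ (abs_nonneg _) (hB z (hsub hz)) 2

theorem skw_gd_L_one (h : SkwHyp c d) : 1 ≤ skwL d := by
  unfold skwL
  have hx1 : d.x ≤ 1 := h.xU.trans h.U1
  have h1 : d.tiny ≤ 1 := h.t1.trans (pow_le_one₀ h.x0.le hx1)
  have h2 : 1 ≤ 1 / d.tiny := by rw [le_div_iff₀ h.t0]; linarith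
  have := Real.log_nonneg h2
  linarith

theorem skw_gd_H0_nonneg (h : SkwHyp c d) (g : SkwGd c d CH CP CB CE K0) {z : ℝ}
    (hz : z ∈ Icc (d.zlo / 4) c.zs) : 0 ≤ skwH0 c d z := by
  have hz0 : 0 < z := lt_of_lt_of_le (by linarith [h.zlo0]) hz.1
  have := skw_gd_min_pos h hz0
  have h1 := g.CH1
  refine le_trans ?_ (g.h0.lower z hz)
  positivity

theorem skw_gd_bR_le (h : SkwHyp c d) {z : ℝ} (hz : 0 ≤ z) : d.b * skwR z ≤ 1 := by
  have h1 := skw_gd_R_le_one z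
  have h2 : 0 ≤ skwR z := le_min hz zero_le_one
  nlinarith [h.b0, h.b1]

/-- squared budget on the active side -/
theorem skw_gd_budget_act (hc : c.Ok) (h : SkwHyp c d) (p : SkwPlat c d)
    (g : SkwGd c d CH CP CB CE K0) {α β : ℝ} (h1 : d.zlo / 2 ≤ α) (h2 : α ≤ β) (h3 : β ≤ 2 * α)
    (h4 : β ≤ c.zs) :
    IntervalIntegrable (fun z => d.G z * skwHact c d z ^ 2) volume α β ∧
    ∫ z in α..β, d.G z * skwHact c d z ^ 2 ≤ (CH + CB + CE) * skwL d * d.U ^ 4 / skwR α := by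
  have hzlo := h.zlo0
  have hα0 : 0 < α := by linarith
  have hrα := skw_gd_R_pos hα0
  have hU := skw_gd_Upos h
  have hL := skw_gd_L_one h
  have ha0 : (0 : ℝ) ≤ d.zlo / 4 := by linarith
  have ha1 : d.zlo / 4 ≤ α := by linarith
  have b0 : ∀ z ∈ Icc (d.zlo / 4) c.zs, |skwH0 c d z| ≤ 1 := fun z hz => by
    rw [abs_of_nonneg (skw_gd_H0_nonneg h g hz)]
    exact (g.h0.cap z hz).trans (skw_gd_bR_le h (ha0.trans hz.1))
  have b1 : ∀ z ∈ Icc (d.zlo / 4) c.zs, |skwHf c d z| ≤ 1 := fun z hz => by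
    rw [abs_of_nonneg (g.cone.nonneg z)]
    exact (g.cone.le z (ha0.trans hz.1)).trans (skw_gd_bR_le h (ha0.trans hz.1))
  have b2 : ∀ z ∈ Icc (d.zlo / 4) c.zs, |d.Hx z| ≤ 2 := fun z hz => by
    have hz' : z ∈ Icc 0 c.zs := ⟨ha0.trans hz.1, hz.2⟩
    rw [abs_of_nonneg (h.Hx0 z hz')]
    exact (h.Hxr z hz').trans (by linarith [skw_gd_R_le_one z])
  have b3 : ∀ z ∈ Icc (d.zlo / 4) c.zs, |skwHact c d z| ≤ 2 := fun z hz => by
    have e0 := b0 z hz
    have e1 := b1 z hz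
    have e2 := b2 z hz
    have n0 := skw_gd_H0_nonneg h g hz
    rw [abs_of_nonneg n0] at e0
    rw [abs_of_nonneg (g.cone.nonneg z)] at e1
    rw [abs_of_nonneg (h.Hx0 z ⟨ha0.trans hz.1, hz.2⟩)] at e2
    have : 0 ≤ skwHact c d z := n0.trans ((le_max_left _ _).trans (le_max_left _ _))
    rw [abs_of_nonneg this]
    unfold skwHact
    exact max_le (max_le (by linarith) (by linarith)) e2
  have i0 := skw_gd_int h (skwH0 c d) 1 ha0 h.zmax g.h0.meas b0 ha1 h2 h4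
  have i1 := skw_gd_int h (skwHf c d) 1 ha0 h.zmax (skw_gd_Hf_cont g).aestronglyMeasurable b1 ha1 h2 h4
  have i2 := skw_gd_int h d.Hx 2 ha0 h.zmax (skw_gd_Hx_cont p).aestronglyMeasurable b2 ha1 h2 h4
  have i3 := skw_gd_int h (skwHact c d) 2 ha0 h.zmax (skw_gd_meas_act p g) b3 ha1 h2 h4
  refine ⟨i3, ?_⟩
  have hpt : ∀ z ∈ Icc α β, d.G z * skwHact c d z ^ 2
      ≤ d.G z * skwH0 c d z ^ 2 + d.G z * skwHf c d z ^ 2 + d.G z * d.Hx z ^ 2 := by
    intro z hz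
    have hzI : z ∈ Icc (d.zlo / 4) c.zs := ⟨ha1.trans hz.1, hz.2.trans h4⟩
    have hG := h.G0 z ⟨ha0.trans hzI.1, hzI.2.trans h.zmax⟩
    have n0 := sq_nonneg (skwH0 c d z)
    have n1 := sq_nonneg (skwHf c d z)
    have n2 := sq_nonneg (d.Hx z)
    have : skwHact c d z ^ 2 ≤ skwH0 c d z ^ 2 + skwHf c d z ^ 2 + d.Hx z ^ 2 := by
      unfold skwHact
      rcases max_choice (max (skwH0 c d z) (skwHf c d z)) (d.Hx z) with e | e
      · rw [e]
        rcases max_choice (skwH0 c d z) (skwHf c d z) with e' | e'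
        · rw [e']; linarith
        · rw [e']; linarith
      · rw [e]; linarith
    have := mul_le_mul_of_nonneg_left this hG
    linarith
  have hmono := intervalIntegral.integral_mono_on h2 i3 ((i0.add i1).add i2) hpt
  rw [intervalIntegral.integral_add (i0.add i1) i2, intervalIntegral.integral_add i0 i1] at hmono
  have e0 := g.h0.budget α β ha1 h2 h3 h4
  have e1 := g.coneB α β h1 h2 h3 h4
  have e2 : ∫ z in α..β, d.G z * d.Hx z ^ 2 ≤ CE * d.U ^ 4 := by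
    refine le_trans ?_ g.endB
    apply intervalIntegral.integral_mono_interval hα0.le h2 h4
    · refine (ae_restrict_iff' measurableSet_Ioc).2 (Filter.Eventually.of_forall fun z hz => ?_)
      exact mul_nonneg (h.G0 z ⟨hz.1.le, hz.2.trans h.zmax⟩) (sq_nonneg _)
    · have b2' : ∀ z ∈ Icc (0 : ℝ) c.zs, |d.Hx z| ≤ 2 := fun z hz => by
        rw [abs_of_nonneg (h.Hx0 z hz)]
        exact (h.Hxr z hz).trans (by linarith [skw_gd_R_le_one z])
      exact skw_gd_int h d.Hx 2 le_rfl h.zmax (skw_gd_Hx_cont p).aestronglyMeasurable b2' le_rfl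
        hc.zs.le le_rfl
  have hU4 : 0 < d.U ^ 4 := by positivity
  have hr1 := skw_gd_R_le_one α
  have hCH := g.CH1
  have hCE := g.CE1
  have f0 : CH * d.U ^ 4 / skwR α ≤ CH * skwL d * d.U ^ 4 / skwR α := by
    apply div_le_div_of_nonneg_right _ hrα.le
    apply mul_le_mul_of_nonneg_right _ hU4.le
    nlinarith
  have f2 : CE * d.U ^ 4 ≤ CE * skwL d * d.U ^ 4 / skwR α := by
    rw [le_div_iff₀ hrα]
    have : CE * d.U ^ 4 * skwR α ≤ CE * d.U ^ 4 * 1 :=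
      mul_le_mul_of_nonneg_left hr1 (by positivity)
    have h5 : CE * d.U ^ 4 * 1 ≤ CE * d.U ^ 4 * skwL d :=
      mul_le_mul_of_nonneg_left hL (by positivity)
    linarith
  have fsum : (CH + CB + CE) * skwL d * d.U ^ 4 / skwR α
      = CH * skwL d * d.U ^ 4 / skwR α + CB * skwL d * d.U ^ 4 / skwR α
        + CE * skwL d * d.U ^ 4 / skwR α := by ring
  rw [fsum]
  linarith

/-- squared budget on the plateau -/
theorem skw_gd_budget_pl (hc : c.Ok) (h : SkwHyp c d) (p : SkwPlat c d)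
    (g : SkwGd c d CH CP CB CE K0) {α β : ℝ} (h1 : c.zs ≤ α) (h2 : α ≤ β) (h3 : β ≤ d.zmax) :
    IntervalIntegrable (fun z => d.G z * skwH c d z ^ 2) volume α β ∧
    ∫ z in α..β, d.G z * skwH c d z ^ 2 ≤ c.Cp * skwL d * d.U ^ 4 := by
  have hzs := hc.zs
  have bpl : ∀ z ∈ Icc c.zs d.zmax, |d.hpl z| ≤ c.Cp := fun z hz => by
    rw [abs_of_pos (skw_gd_hpl_pos h g hz)]; exact p.hup z hz
  have mpl : AEStronglyMeasurable d.hpl (volume.restrict (Icc c.zs d.zmax)) :=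
    (skw_gd_hpl_cont p).aestronglyMeasurable measurableSet_Icc
  have i0 := skw_gd_int h d.hpl c.Cp hzs.le le_rfl mpl bpl h1 h2 h3
  have i1 := skw_gd_int h d.hpl c.Cp hzs.le le_rfl mpl bpl le_rfl h.zmax le_rfl
  have hcongr : ∀ z ∈ Ioc α β, d.G z * skwH c d z ^ 2 = d.G z * d.hpl z ^ 2 := fun z hz => by
    rw [skw_gd_H_pl (lt_of_le_of_lt h1 hz.1)]
  constructor
  · rw [intervalIntegrable_iff_integrableOn_Ioc_of_le h2] at i0 ⊢
    exact i0.congr_fun (fun z hz => (hcongr z hz).symm) measurableSet_Ioc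
  · rw [intervalIntegral.integral_of_le h2, setIntegral_congr_fun measurableSet_Ioc hcongr,
      ← intervalIntegral.integral_of_le h2]
    refine le_trans ?_ p.bud
    apply intervalIntegral.integral_mono_interval h1 h2 h3 _ i1
    refine (ae_restrict_iff' measurableSet_Ioc).2 (Filter.Eventually.of_forall fun z hz => ?_)
    exact mul_nonneg (h.G0 z ⟨hzs.le.trans hz.1.le, hz.2⟩) (sq_nonneg _)

/-- (i) the squared budget of the width -/
theorem skw_gd_budget (hc : c.Ok) (h : SkwHyp c d) (p : SkwPlat c d)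
    (g : SkwGd c d CH CP CB CE K0) {C ρ : ℝ} (hC : CH + CB + CE + c.Cp ≤ C)
    (hρ : ρ ∈ Icc d.zlo d.zmax) :
    ∫ z in ρ..(min (2 * ρ) d.zmax), d.G z * skwH c d z ^ 2 ≤ C * skwL d * d.U ^ 4 / skwR ρ := by
  have hzlo := h.zlo0
  have hρ0 : 0 < ρ := lt_of_lt_of_le hzlo hρ.1
  have hr := skw_gd_R_pos hρ0
  have hr1 := skw_gd_R_le_one ρ
  have hU := skw_gd_Upos h
  have hL := skw_gd_L_one h
  have hCp := hc.Cp
  have hCH := g.CH1
  have hCB := g.CB1
  have hCE := g.CE1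
  have hU4 : 0 < d.U ^ 4 := by positivity
  set m := min (2 * ρ) d.zmax with hm
  have hρm : ρ ≤ m := le_min (by linarith) hρ.2
  have hm1 : m ≤ 2 * ρ := min_le_left _ _
  have hm2 : m ≤ d.zmax := min_le_right _ _
  have fpl : c.Cp * skwL d * d.U ^ 4 ≤ c.Cp * skwL d * d.U ^ 4 / skwR ρ := by
    rw [le_div_iff₀ hr]
    have : c.Cp * skwL d * d.U ^ 4 * skwR ρ ≤ c.Cp * skwL d * d.U ^ 4 * 1 :=
      mul_le_mul_of_nonneg_left hr1 (by positivity)
    linarith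
  have hX : 0 ≤ skwL d * d.U ^ 4 / skwR ρ := by positivity
  have fC : (CH + CB + CE) * skwL d * d.U ^ 4 / skwR ρ + c.Cp * skwL d * d.U ^ 4 / skwR ρ
      ≤ C * skwL d * d.U ^ 4 / skwR ρ := by
    have e : (CH + CB + CE) * skwL d * d.U ^ 4 / skwR ρ + c.Cp * skwL d * d.U ^ 4 / skwR ρ
        = (CH + CB + CE + c.Cp) * (skwL d * d.U ^ 4 / skwR ρ) := by ring
    have e' : C * skwL d * d.U ^ 4 / skwR ρ = C * (skwL d * d.U ^ 4 / skwR ρ) := by ring
    rw [e, e']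
    exact mul_le_mul_of_nonneg_right hC hX
  have fA0 : 0 ≤ (CH + CB + CE) * skwL d * d.U ^ 4 / skwR ρ := by positivity
  have fP0 : 0 ≤ c.Cp * skwL d * d.U ^ 4 / skwR ρ := by positivity
  have hact : ∀ β, ρ ≤ β → β ≤ c.zs →
      (∫ z in ρ..β, d.G z * skwH c d z ^ 2) = ∫ z in ρ..β, d.G z * skwHact c d z ^ 2 := by
    intro β h1 h2
    apply intervalIntegral.integral_congr
    intro z hz
    rw [uIcc_of_le h1] at hz
    simp only
    rw [skw_gd_H_act (hz.2.trans h2)]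
  rcases le_or_gt c.zs ρ with h1 | h1
  · have := (skw_gd_budget_pl hc h p g h1 hρm hm2).2
    linarith
  · rcases le_or_gt m c.zs with h2 | h2
    · rw [hact m hρm h2]
      have := (skw_gd_budget_act hc h p g (by linarith [hρ.1]) hρm hm1 h2).2
      linarith
    · have hA := skw_gd_budget_act hc h p g (by linarith [hρ.1] : d.zlo / 2 ≤ ρ) h1.le
        (by linarith) le_rfl
      have hP := skw_gd_budget_pl hc h p g le_rfl h2.le hm2
      have iA : IntervalIntegrable (fun z => d.G z * skwH c d z ^ 2) volume ρ c.zs := by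
        refine hA.1.congr ?_
        intro z hz
        rw [uIoc_of_le h1.le] at hz
        simp only
        rw [skw_gd_H_act hz.2]
      rw [← intervalIntegral.integral_add_adjacent_intervals iA hP.1, hact c.zs h1.le le_rfl]
      linarith [hA.2, hP.2]

/-- windows are monotone in the constant -/
theorem skw_gd_win_mono (h : SkwHyp c d) {C₁ C z w a l : ℝ} (hz : 0 < z) (hw : 0 ≤ w)
    (h1 : 1 ≤ C₁) (hC : C₁ ≤ C) (W : SkwWin C₁ d z w a l) : SkwWin C d z w a l := by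
  have hU := skw_gd_Upos h
  have hr := skw_gd_R_pos hz
  have hC0 : 0 < C₁ := by linarith
  have havg : 0 ≤ (∫ t in a..(a + l), d.G t) / l := by
    by_contra hneg
    have h2 : (∫ t in a..(a + l), d.G t) / l * w ^ 3 ≤ 0 :=
      mul_nonpos_of_nonpos_of_nonneg (not_le.1 hneg).le (by positivity)
    have h3 : 0 < d.U ^ 6 / (C₁ * skwR z ^ 3) := by positivity
    linarith [W.big]
  refine ⟨?_, W.len_hi, ?_, ?_, ?_⟩
  · exact (div_le_div_of_nonneg_left hw hC0 hC).trans W.len_lo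
  · exact W.near.trans (mul_le_mul_of_nonneg_right hC hw)
  · intro s hs
    exact (W.sup s hs).trans (mul_le_mul_of_nonneg_right hC havg)
  · refine le_trans ?_ W.big
    apply div_le_div_of_nonneg_left (by positivity) (by positivity)
    exact mul_le_mul_of_nonneg_right hC (by positivity)

theorem skw_gd_G_int (h : SkwHyp c d) {α β : ℝ} (h0 : 0 ≤ α) (h1 : α ≤ β) (h2 : β ≤ d.zmax) :
    IntervalIntegrable d.G volume α β :=
  h.Gi.mono_set (by
    rw [uIcc_of_le h1, uIcc_of_le (h0.trans (h1.trans h2))]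
    exact Icc_subset_Icc h0 h2)

theorem skw_gd_mass_mono (h : SkwHyp c d) {α β α0 β0 : ℝ} (h0 : 0 ≤ α0) (h1 : α0 ≤ α) (h2 : α ≤ β)
    (h3 : β ≤ β0) (h4 : β0 ≤ d.zmax) : ∫ t in α..β, d.G t ≤ ∫ t in α0..β0, d.G t := by
  apply intervalIntegral.integral_mono_interval h1 h2 h3 _
    (skw_gd_G_int h h0 (h1.trans (h2.trans h3)) h4)
  refine (ae_restrict_iff' measurableSet_Ioc).2 (Filter.Eventually.of_forall fun z hz => ?_)
  exact h.G0 z ⟨h0.trans hz.1.le, hz.2.trans h4⟩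

/-- (D5), first part, on an active tile -/
theorem skw_gd_tile_G_act (hc : c.Ok) (h : SkwHyp c d) {a a' z : ℝ} (h0 : 0 ≤ a) (h1 : a' ≤ c.zs)
    (hz : z ∈ Ioo a a') :
    d.G z ≤ c.Cadj 1 * (1 + c.zs) / d.b * ((∫ s in a..a', d.G s) / (a' - a) + d.tiny) := by
  have hb0 := h.b0
  have hb1 := h.b1
  have hzs := hc.zs
  have hCa := hc.Cadj 1
  have hΔ : 0 < a' - a := by linarith [hz.1, hz.2]
  set l := min (a' - a) d.b with hl
  have hl0 : 0 < l := lt_min hΔ hb0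
  have hlΔ : l ≤ a' - a := min_le_left _ _
  have hlb : l ≤ d.b := min_le_right _ _
  set q := max a (z - l) with hq
  have hq1 : a ≤ q := le_max_left _ _
  have hq2 : q ≤ z := max_le hz.1.le (by linarith)
  have hq3 : z ≤ q + l := by have : z - l ≤ q := le_max_right _ _; linarith
  have hq4 : q + l ≤ a' := by
    rcases max_choice a (z - l) with e | e
    · rw [hq, e]; linarith
    · rw [hq, e]; linarith [hz.2]
  have hadj := h.adj 1 l q l q l le_rfl hl0 (by linarith) (by simp) (by linarith) (by simp)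
    (by linarith) (by linarith) (by linarith) (by linarith) (by linarith) (by simp; exact hl0.le)
    z ⟨hq2, hq3⟩
  have hmass := skw_gd_mass_mono h h0 hq1 (by linarith : q ≤ q + l) hq4 (h1.trans h.zmax)
  have hI0 : 0 ≤ ∫ s in a..a', d.G s :=
    intervalIntegral.integral_nonneg (by linarith) fun s hs =>
      h.G0 s ⟨h0.trans hs.1, hs.2.trans (h1.trans h.zmax)⟩
  have hinv : 1 / l ≤ (1 + c.zs) / d.b / (a' - a) := by
    rw [div_div, div_le_div_iff₀ hl0 (by positivity)]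
    rcases min_choice (a' - a) d.b with e | e
    · rw [hl, e]
      have : d.b * (a' - a) ≤ 1 * (a' - a) := mul_le_mul_of_nonneg_right (by linarith) hΔ.le
      nlinarith
    · rw [hl, e]
      have : a' - a ≤ c.zs := by linarith
      nlinarith
  have hK1 : 1 ≤ (1 + c.zs) / d.b := by
    rw [le_div_iff₀ hb0]; linarith
  have e1 : (∫ t in q..(q + l), d.G t) / l ≤ (1 + c.zs) / d.b * ((∫ s in a..a', d.G s) / (a' - a)) := by
    calc (∫ t in q..(q + l), d.G t) / l ≤ (∫ s in a..a', d.G s) / l :=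
          div_le_div_of_nonneg_right hmass hl0.le
      _ = (∫ s in a..a', d.G s) * (1 / l) := by ring
      _ ≤ (∫ s in a..a', d.G s) * ((1 + c.zs) / d.b / (a' - a)) :=
          mul_le_mul_of_nonneg_left hinv hI0
      _ = _ := by ring
  have e2 : d.tiny ≤ (1 + c.zs) / d.b * d.tiny := by
    have := mul_le_mul_of_nonneg_right hK1 h.t0.le
    linarith
  calc d.G z ≤ c.Cadj 1 * ((∫ t in q..(q + l), d.G t) / l + d.tiny) := hadj
    _ ≤ c.Cadj 1 * ((1 + c.zs) / d.b * ((∫ s in a..a', d.G s) / (a' - a))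
          + (1 + c.zs) / d.b * d.tiny) :=
        mul_le_mul_of_nonneg_left (add_le_add e1 e2) (by linarith)
    _ = _ := by ring

/-- (D5), first part, on a plateau tile -/
theorem skw_gd_tile_G_pl (hc : c.Ok) (h : SkwHyp c d) (p : SkwPlat c d) {CT a a' z : ℝ}
    (hCT : 1 ≤ CT) (h0 : c.zs ≤ a) (h1 : a' ≤ d.zmax) (hz : z ∈ Ioo a a')
    (hpos : ∀ s ∈ Icc c.zs d.zmax, 0 < d.hpl s)
    (hcmp : ∀ s ∈ Icc a a', skwH c d s / CT ≤ a' - a ∧ a' - a ≤ CT * skwH c d s) :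
    d.G z ≤ c.Cp ^ 2 * CT ^ 6 * ((∫ s in a..a', d.G s) / (a' - a)) := by
  have hzs := hc.zs
  have hCp := hc.Cp
  have hU := skw_gd_Upos h
  have hΔ : 0 < a' - a := by linarith [hz.1, hz.2]
  have hzz : c.zs < z := lt_of_le_of_lt h0 hz.1
  have hzI : z ∈ Icc c.zs d.zmax := ⟨hzz.le, hz.2.le.trans h1⟩
  have hhz := hpos z hzI
  have hGz := p.Gh_hi z ⟨hzz, hzI.2⟩
  have c1 := (hcmp z ⟨hz.1.le, hz.2.le⟩).2
  rw [skw_gd_H_pl hzz] at c1
  set m := d.G z / (c.Cp ^ 2 * CT ^ 6) with hm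
  have hlow : ∀ s ∈ Ioc a a', m ≤ d.G s := by
    intro s hs
    have hss : c.zs < s := lt_of_le_of_lt h0 hs.1
    have hsI : s ∈ Icc c.zs d.zmax := ⟨hss.le, hs.2.trans h1⟩
    have hhs := hpos s hsI
    have c2 := (hcmp s ⟨hs.1.le, hs.2⟩).1
    rw [skw_gd_H_pl hss, div_le_iff₀ (by linarith)] at c2
    have c3 : d.hpl s ≤ CT ^ 2 * d.hpl z := by nlinarith
    have c4 : d.hpl s ^ 3 ≤ CT ^ 6 * d.hpl z ^ 3 := by
      have := pow_le_pow_left₀ hhs.le c3 3
      have e : (CT ^ 2 * d.hpl z) ^ 3 = CT ^ 6 * d.hpl z ^ 3 := by ring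
      linarith
    have hGs := p.Gh_lo s ⟨hss, hsI.2⟩
    have hGs0 := h.G0 s ⟨hzs.le.trans hss.le, hsI.2⟩
    -- G z hpl z^3 ≤ Cp U^4 ≤ Cp^2 G s hpl s^3 ≤ Cp^2 CT^6 G s hpl z^3
    have k1 : d.U ^ 4 ≤ c.Cp * (d.G s * d.hpl s ^ 3) := by
      rw [div_le_iff₀ (by linarith)] at hGs; linarith
    have k2 : d.G s * d.hpl s ^ 3 ≤ d.G s * (CT ^ 6 * d.hpl z ^ 3) :=
      mul_le_mul_of_nonneg_left c4 hGs0
    have k3 : d.G z * d.hpl z ^ 3 ≤ c.Cp ^ 2 * CT ^ 6 * d.G s * d.hpl z ^ 3 := by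
      have : c.Cp * d.U ^ 4 ≤ c.Cp * (c.Cp * (d.G s * (CT ^ 6 * d.hpl z ^ 3))) := by
        apply mul_le_mul_of_nonneg_left _ (by linarith)
        refine k1.trans ?_
        exact mul_le_mul_of_nonneg_left k2 (by linarith)
      nlinarith
    have k4 : d.G z ≤ c.Cp ^ 2 * CT ^ 6 * d.G s := le_of_mul_le_mul_right k3 (by positivity)
    rw [hm, div_le_iff₀ (by positivity)]
    linarith
  have haa : a ≤ a' := by linarith
  have hint := skw_gd_G_int h (hzs.le.trans h0) haa h1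
  have hmono := intervalIntegral.integral_mono_on_of_le_Ioo (μ := volume) haa
    (intervalIntegrable_const (c := m)) hint (fun s hs => hlow s ⟨hs.1, hs.2.le⟩)
  rw [intervalIntegral.integral_const, smul_eq_mul] at hmono
  have hK : 0 < c.Cp ^ 2 * CT ^ 6 := by positivity
  have e1 : m ≤ (∫ s in a..a', d.G s) / (a' - a) := by
    rw [le_div_iff₀ hΔ]; linarith
  have e2 : d.G z = c.Cp ^ 2 * CT ^ 6 * m := by rw [hm]; field_simp
  rw [e2]
  exact mul_le_mul_of_nonneg_left e1 hK.le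

/-- (D5), the variation of `S` over an enlarged tile -/
theorem skw_gd_tile_var (hc : c.Ok) (h : SkwHyp c d) (hh : ℝ → ℝ) {Cq Cu Cd CT C zb a a' z z' : ℝ}
    (hCq : 1 ≤ Cq) (hCu : 1 ≤ Cu) (hCd : 1 ≤ Cd) (hCT : 1 ≤ CT) (hzb : zb ≤ d.zmax)
    (hC : 2 * Cd * ((1 + 2 * CT * Cu) + Cq * (CT + 2)) + 3 * c.Lq * CT * Cu ≤ C)
    (ha : d.zlo ≤ a) (haa : a < a')
    (hq : ∀ w ∈ Icc (d.zlo / 2) zb, hh w ≤ Cq * (hh a + |a - w|))
    (hu : hh a ≤ Cu * skwR a)
    (hd : ∀ w ∈ Icc (d.zlo / 2) zb, |skwF d w| ≤ Cd * skwE d hh w / d.b)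
    (hc1 : hh a / CT ≤ a' - a) (hc2 : a' - a ≤ CT * hh a)
    (hz : z ∈ Icc (d.zlo / 2) zb) (hz' : z' ∈ Icc (d.zlo / 2) zb) (hzz : z ≤ z')
    (h1 : a - (a' - a) ≤ z) (h2 : z' ≤ a' + (a' - a)) :
    d.S z' - d.S z ≤ C / d.b * min (skwR a) (d.Z ^ 2 * (a' - a)) := by
  have hb0 := h.b0
  have hb1 := h.b1
  have hLq := hc.Lq
  have hZ2 : 1 ≤ d.Z ^ 2 := one_le_pow₀ h.Z1
  have ha0 : 0 < a := lt_of_lt_of_le h.zlo0 ha
  have hr := skw_gd_R_pos ha0
  set Δ := a' - a with hΔ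
  have hΔ0 : 0 < Δ := by rw [hΔ]; linarith
  set M := min (skwR a) (d.Z ^ 2 * Δ) with hM
  have hM0 : 0 < M := lt_min hr (by positivity)
  have hha : hh a ≤ CT * Δ := by rw [div_le_iff₀ (by linarith)] at hc1; linarith
  have hΔr : Δ ≤ CT * Cu * skwR a := by
    have : CT * hh a ≤ CT * (Cu * skwR a) := mul_le_mul_of_nonneg_left hu (by linarith)
    linarith
  set K₁ := (1 + 2 * CT * Cu) + Cq * (CT + 2) with hK₁
  have hK₁0 : 0 < K₁ := by positivity
  have hE : ∀ w ∈ Icc (d.zlo / 2) zb, a - Δ ≤ w → w ≤ a' + Δ → skwE d hh w ≤ K₁ * M := by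
    intro w hw hw1 hw2
    have habs : |a - w| ≤ 2 * Δ := by
      rw [abs_le]; constructor <;> linarith
    have e1 : hh w ≤ Cq * (CT + 2) * Δ := by
      have := hq w hw
      have h3 : Cq * (hh a + |a - w|) ≤ Cq * (CT * Δ + 2 * Δ) :=
        mul_le_mul_of_nonneg_left (by linarith) (by linarith)
      linarith
    have e2 : skwR w ≤ (1 + 2 * CT * Cu) * skwR a := by
      have := skw_gd_R_lip w a
      rw [abs_sub_comm] at this
      linarith
    have f1 : skwR w ≤ K₁ * skwR a := by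
      have : (1 + 2 * CT * Cu) * skwR a ≤ K₁ * skwR a := by
        apply mul_le_mul_of_nonneg_right _ hr.le
        rw [hK₁]; have : 0 ≤ Cq * (CT + 2) := by positivity
        linarith
      linarith
    have f2 : d.Z ^ 2 * hh w ≤ K₁ * (d.Z ^ 2 * Δ) := by
      have g1 : d.Z ^ 2 * hh w ≤ d.Z ^ 2 * (Cq * (CT + 2) * Δ) :=
        mul_le_mul_of_nonneg_left e1 (by linarith)
      have g2 : Cq * (CT + 2) * (d.Z ^ 2 * Δ) ≤ K₁ * (d.Z ^ 2 * Δ) := by
        apply mul_le_mul_of_nonneg_right _ (by positivity)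
        rw [hK₁]; have : 0 ≤ 1 + 2 * CT * Cu := by positivity
        linarith
      linarith
    unfold skwE
    rw [hM, mul_min_of_nonneg _ _ hK₁0.le]
    exact min_le_min f1 f2
  have hzI : z ∈ Icc 0 d.zmax := ⟨by linarith [hz.1, h.zlo0], hz.2.trans hzb⟩
  have hzI' : z' ∈ Icc 0 d.zmax := ⟨by linarith [hz'.1, h.zlo0], hz'.2.trans hzb⟩
  have hqq := h.qlip z' hzI' z hzI
  rw [abs_of_nonneg (by linarith : 0 ≤ z' - z)] at hqq
  have hq1 := le_abs_self (d.q z' - d.q z)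
  have hf1 := hd z hz
  have hf2 := hd z' hz'
  have hE1 := hE z hz h1 (by linarith)
  have hE2 := hE z' hz' (by linarith) h2
  have a1 := le_abs_self (skwF d z')
  have a2 := neg_abs_le (skwF d z)
  have hS : d.S z' - d.S z = skwF d z' - skwF d z + (d.q z' - d.q z) := by unfold skwF; ring
  have hlen : z' - z ≤ 3 * Δ := by linarith
  have hΔM : Δ ≤ CT * Cu * M := by
    rw [hM, mul_min_of_nonneg _ _ (by positivity)]
    refine le_min hΔr ?_
    have h3 : 1 ≤ CT * Cu := by nlinarith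
    have h4 : 1 * (1 * Δ) ≤ CT * Cu * (d.Z ^ 2 * Δ) :=
      mul_le_mul h3 (mul_le_mul_of_nonneg_right hZ2 hΔ0.le) (by positivity) (by positivity)
    linarith
  have t1 : ∀ w, skwE d hh w ≤ K₁ * M → Cd * skwE d hh w / d.b ≤ Cd * K₁ / d.b * M := by
    intro w hw
    have : Cd * skwE d hh w ≤ Cd * (K₁ * M) := mul_le_mul_of_nonneg_left hw (by linarith)
    calc Cd * skwE d hh w / d.b ≤ Cd * (K₁ * M) / d.b := div_le_div_of_nonneg_right this hb0.le
      _ = Cd * K₁ / d.b * M := by ring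
  have t2 : c.Lq * (z' - z) ≤ 3 * c.Lq * CT * Cu / d.b * M := by
    have g1 : c.Lq * (z' - z) ≤ c.Lq * (3 * (CT * Cu * M)) :=
      mul_le_mul_of_nonneg_left (by linarith) (by linarith)
    have g2 : c.Lq * (3 * (CT * Cu * M)) = 3 * c.Lq * CT * Cu * M := by ring
    have g3 : 3 * c.Lq * CT * Cu * M ≤ 3 * c.Lq * CT * Cu * M / d.b := by
      rw [le_div_iff₀ hb0]
      have : 3 * c.Lq * CT * Cu * M * d.b ≤ 3 * c.Lq * CT * Cu * M * 1 :=
        mul_le_mul_of_nonneg_left (by linarith) (by positivity)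
      linarith
    have g4 : 3 * c.Lq * CT * Cu * M / d.b = 3 * c.Lq * CT * Cu / d.b * M := by ring
    linarith
  have t3 := t1 z hE1
  have t4 := t1 z' hE2
  have fin : (2 * Cd * K₁ + 3 * c.Lq * CT * Cu) / d.b * M ≤ C / d.b * M := by
    apply mul_le_mul_of_nonneg_right _ hM0.le
    exact div_le_div_of_nonneg_right hC hb0.le
  have fin2 : (2 * Cd * K₁ + 3 * c.Lq * CT * Cu) / d.b * M
      = Cd * K₁ / d.b * M + Cd * K₁ / d.b * M + 3 * c.Lq * CT * Cu / d.b * M := by ring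
  rw [hS]
  linarith

/-- concatenation of two chains of nodes -/
theorem skw_gd_concat (Q : ℝ → ℝ → Prop) (n₁ n₂ : ℕ) (t₁ t₂ : ℕ → ℝ) (hj : t₁ n₁ = t₂ 0)
    (h1 : ∀ i < n₁, t₁ i < t₁ (i + 1) ∧ Q (t₁ i) (t₁ (i + 1)))
    (h2 : ∀ i < n₂, t₂ i < t₂ (i + 1) ∧ Q (t₂ i) (t₂ (i + 1))) :
    ∃ t : ℕ → ℝ, t 0 = t₁ 0 ∧ t (n₁ + n₂) = t₂ n₂ ∧ t n₁ = t₁ n₁ ∧
      ∀ i < n₁ + n₂, t i < t (i + 1) ∧ Q (t i) (t (i + 1)) := by
  set t : ℕ → ℝ := fun i => if i ≤ n₁ then t₁ i else t₂ (i - n₁) with ht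
  have hlo : ∀ i, i ≤ n₁ → t i = t₁ i := fun i hi => by simp only [ht]; rw [if_pos hi]
  have hhi : ∀ i, n₁ ≤ i → t i = t₂ (i - n₁) := by
    intro i hi
    rcases Nat.eq_or_lt_of_le hi with e | e
    · subst e
      rw [hlo _ le_rfl, hj]; simp
    · simp only [ht]; rw [if_neg (by omega)]
  refine ⟨t, hlo 0 (Nat.zero_le _), ?_, hlo n₁ le_rfl, ?_⟩
  · rw [hhi _ (Nat.le_add_right _ _)]; simp
  · intro i hi
    rcases Nat.lt_or_ge i n₁ with h | h
    · rw [hlo i h.le, hlo (i + 1) h]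
      exact h1 i h
    · rw [hhi i h, hhi (i + 1) (by omega)]
      have e : i + 1 - n₁ = (i - n₁) + 1 := by omega
      rw [e]
      exact h2 (i - n₁) (by omega)

/-- nodes of a chain are ordered -/
theorem skw_gd_chain_mono (n : ℕ) (t : ℕ → ℝ) (h : ∀ i < n, t i < t (i + 1)) :
    ∀ j, j ≤ n → ∀ i, i ≤ j → t i ≤ t j := by
  intro j
  induction j with
  | zero => intro _ i hi; rw [Nat.le_zero.1 hi]
  | succ k ih =>
    intro hk i hi
    rcases Nat.eq_or_lt_of_le hi with e | e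
    · rw [e]
    · exact (ih (by omega) i (by omega)).trans (h k (by omega)).le

theorem skw_gd_small_mono {C C' : ℝ} (h0 : 0 < C') (h : C' ≤ C) (s : SkwSmall C d) : SkwSmall C' d :=
  ⟨s.b.trans (one_div_le_one_div_of_le h0 h), s.U.trans (one_div_le_one_div_of_le h0 h),
    s.x.trans (one_div_le_one_div_of_le h0 h)⟩

theorem skw_gd_H0_cap (h : SkwHyp c d) {z : ℝ} (hz : 0 ≤ z) : skwH0 c d z ≤ d.b * skwR z := by
  unfold skwH0
  apply Real.sSup_le (fun l hl => hl.2.1)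
  have : 0 ≤ skwR z := le_min hz zero_le_one
  have := h.b0
  positivity

theorem skw_gd_Hx_le (p : SkwPlat c d) {z : ℝ} (hz : z ≤ c.zs) : d.Hx z ≤ 2 * d.E := by
  have hE := p.E0
  rw [p.Hx z]
  unfold skwE1 skwE2
  refine max_le (max_le (by linarith) (by linarith)) (max_le (by linarith) ?_)
  have h1 : min d.E d.b ≤ d.E := min_le_left _ _
  have h2 : 0 ≤ max 0 (c.zs - z - d.E) := le_max_left _ _
  linarith

/-- `𝔥_act ≤ K₀ (E + d_*)` from JOIN, CONE-A and the endpoint functions -/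
theorem skw_gd_hactK (h : SkwHyp c d) (p : SkwPlat c d) (cone : SkwConeConcl c d) {CJ : ℝ}
    (hCJ : 1 ≤ CJ) (hA : CJ ≤ d.A)
    (j1 : ∀ s ∈ Icc 0 c.zs, skwSrc d s ≤ CJ * (d.E + (c.zs - s)))
    (j2 : ∀ z ∈ Icc (d.zlo / 4) c.zs, skwH0 c d z ≤ 2 * (d.E + (c.zs - z))) :
    ∀ z ∈ Icc 0 c.zs, skwHact c d z ≤ (CJ + 2) * (d.E + (c.zs - z)) := by
  intro z hz
  have hE := p.E0
  have hX : 0 ≤ d.E + (c.zs - z) := by linarith [hz.2]
  have e0 : skwH0 c d z ≤ 2 * (d.E + (c.zs - z)) := by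
    rcases le_or_gt (d.zlo / 4) z with h1 | h1
    · exact j2 z ⟨h1, hz.2⟩
    · have h2 := skw_gd_H0_cap h hz.1
      have h3 : skwR z ≤ z := min_le_left _ _
      have h4 : 0 ≤ skwR z := le_min hz.1 zero_le_one
      have h5 : d.b * skwR z ≤ 1 * skwR z := mul_le_mul_of_nonneg_right (by linarith [h.b1]) h4
      have := h.zlo1
      linarith
  have e1 := cone.lin CJ d.E hE.le (by linarith) hA j1 z hz
  have e2 := skw_gd_Hx_le p hz.2
  have f0 : 2 * (d.E + (c.zs - z)) ≤ (CJ + 2) * (d.E + (c.zs - z)) :=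
    mul_le_mul_of_nonneg_right (by linarith) hX
  have f1 : CJ * (d.E + (c.zs - z)) ≤ (CJ + 2) * (d.E + (c.zs - z)) :=
    mul_le_mul_of_nonneg_right (by linarith) hX
  unfold skwHact
  refine max_le (max_le (e0.trans f0) (e1.trans f1)) ?_
  have : 2 * d.E ≤ 2 * (d.E + (c.zs - z)) := by linarith [hz.2]
  linarith

/-- (ii) the windows -/
theorem skw_gd_win (hc : c.Ok) (h : SkwHyp c d) (p : SkwPlat c d) (g : SkwGd c d CH CP CB CE K0)
    {CWA CWB C : ℝ} (h1 : 1 ≤ CWA) (h2 : 1 ≤ CWB) (hC1 : CWA ≤ C) (hC2 : CWB ≤ C) (hC3 : c.Cp ≤ C)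
    (WA : ∀ z ∈ Icc d.zlo c.zs, skwHact c d z < d.b * skwR z / CWA →
      skwHact c d z ≤ (2 * K0) * (c.zs - z) →
      (∃ a l, d.zlo / 2 ≤ a ∧ a + l ≤ z ∧ SkwWin CWA d z (skwHact c d z) a l) ∧
      (∃ a l, z ≤ a ∧ a + l ≤ c.zs ∧ SkwWin CWA d z (skwHact c d z) a l))
    (WB : ∀ z ∈ Icc (c.zs - d.E) d.zmax, skwH c d z < d.b * skwR z / CWB →
      (∃ a l, d.zlo / 2 ≤ a ∧ a + l ≤ z ∧ SkwWin CWB d z (skwH c d z) a l) ∧
      (∃ a l, z ≤ a ∧ a + l ≤ d.zmax ∧ SkwWin CWB d z (skwH c d z) a l) ∧ z + 1 / CWB ≤ d.zmax) :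
    ∀ z ∈ Icc d.zlo d.zmax, d.Z ^ 2 * skwH c d z < d.b * skwR z / C →
    (∃ a l, d.zlo / 2 ≤ a ∧ a + l ≤ z ∧ SkwWin C d z (skwH c d z) a l) ∧
    (∃ a l, z ≤ a ∧ a + l ≤ d.zmax ∧ SkwWin C d z (skwH c d z) a l) ∧ z + 1 / C ≤ d.zmax := by
  intro z hz hlt
  have hzlo := h.zlo0
  have hz0 : 0 < z := lt_of_lt_of_le hzlo hz.1
  have hr := skw_gd_R_pos hz0
  have hb0 := h.b0
  have hZ2 : 1 ≤ d.Z ^ 2 := one_le_pow₀ h.Z1
  have hzI : z ∈ Icc (d.zlo / 4) d.zmax := ⟨by linarith [hz.1], hz.2⟩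
  have hpos := skw_gd_H_pos h g hzI
  have hCp := hc.Cp
  have hC0 : 0 < C := by linarith
  have hlt' : skwH c d z < d.b * skwR z / C := by
    have : 1 * skwH c d z ≤ d.Z ^ 2 * skwH c d z := mul_le_mul_of_nonneg_right hZ2 hpos.le
    linarith
  have hbr : 0 ≤ d.b * skwR z := by positivity
  rcases le_or_gt z (c.zs - d.E) with hcase | hcase
  · have hzs : z ≤ c.zs := by linarith [p.E0]
    have hact := skw_gd_H_act (c := c) (d := d) hzs
    rw [hact] at hlt' hpos ⊢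
    have k1 : skwHact c d z < d.b * skwR z / CWA :=
      lt_of_lt_of_le hlt' (div_le_div_of_nonneg_left hbr (by linarith) hC1)
    have k2 : skwHact c d z ≤ (2 * K0) * (c.zs - z) := by
      have := g.hactK z ⟨hz0.le, hzs⟩
      have h3 : K0 * (d.E + (c.zs - z)) ≤ K0 * (2 * (c.zs - z)) :=
        mul_le_mul_of_nonneg_left (by linarith) (by linarith [g.K01])
      linarith
    obtain ⟨⟨a, l, w1, w2, W⟩, ⟨a', l', w1', w2', W'⟩⟩ := WA z ⟨hz.1, hzs⟩ k1 k2
    refine ⟨⟨a, l, w1, w2, skw_gd_win_mono h hz0 hpos.le h1 hC1 W⟩,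
      ⟨a', l', w1', w2'.trans h.zmax, skw_gd_win_mono h hz0 hpos.le h1 hC1 W'⟩, ?_⟩
    have e1 : 1 / C ≤ 1 / c.Cp := one_div_le_one_div_of_le (by linarith) hC3
    have e2 := p.len_lo
    have e3 : 2 / c.Cp = 1 / c.Cp + 1 / c.Cp := by ring
    have e4 : 0 < 1 / c.Cp := by positivity
    linarith
  · have k1 : skwH c d z < d.b * skwR z / CWB :=
      lt_of_lt_of_le hlt' (div_le_div_of_nonneg_left hbr (by linarith) hC2)
    obtain ⟨⟨a, l, w1, w2, W⟩, ⟨a', l', w1', w2', W'⟩, w3⟩ := WB z ⟨hcase.le, hz.2⟩ k1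
    refine ⟨⟨a, l, w1, w2, skw_gd_win_mono h hz0 hpos.le h2 hC2 W⟩,
      ⟨a', l', w1', w2', skw_gd_win_mono h hz0 hpos.le h2 hC2 W'⟩, ?_⟩
    have e1 : 1 / C ≤ 1 / CWB := one_div_le_one_div_of_le (by linarith) hC2
    linarith

/-- the three properties of one tile -/
def SkwTileOk (C : ℝ) (d : SkwD) (zbuf : ℝ) (hh : ℝ → ℝ) (a a' : ℝ) : Prop :=
  (∀ z ∈ Icc a a', hh z / C ≤ a' - a ∧ a' - a ≤ C * hh z) ∧
  (∀ z ∈ Ioo a a', d.G z ≤ C / d.b * ((∫ s in a..a', d.G s) / (a' - a) + d.tiny)) ∧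
  (∀ z ∈ Icc (d.zlo / 2) zbuf, ∀ z' ∈ Icc (d.zlo / 2) zbuf, z ≤ z' →
    a - (a' - a) ≤ z → z' ≤ a' + (a' - a) →
    d.S z' - d.S z ≤ C / d.b * min (skwR a) (d.Z ^ 2 * (a' - a)))

theorem skw_gd_tileok_cite : True := by
  have := @SkwTileOk.eq_1
  trivial

/-- one tile of the direct path -/
theorem skw_gd_tile_ok (hc : c.Ok) (h : SkwHyp c d) (p : SkwPlat c d)
    (g : SkwGd c d CH CP CB CE K0) {CT Cu Cd C a a' : ℝ} (hCT : 1 ≤ CT)
    (hCu1 : 2 ≤ Cu) (hCu2 : c.Cp / skwR c.zs ≤ Cu) (hCd1 : c.Cf ≤ Cd) (hCd2 : CP ≤ Cd)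
    (hC0 : CT ≤ C) (hC1 : c.Cadj 1 * (1 + c.zs) ≤ C) (hC2 : c.Cp ^ 2 * CT ^ 6 ≤ C)
    (hC3 : 2 * Cd * ((1 + 2 * CT * Cu) + (3 + d.A + 2 * c.Cp + K0) * (CT + 2))
      + 3 * c.Lq * CT * Cu ≤ C)
    (ha : d.zlo ≤ a) (haa : a < a') (ha' : a' ≤ d.zmax) (hside : a' ≤ c.zs ∨ c.zs ≤ a)
    (hcmp : ∀ z ∈ Icc a a', skwH c d z / CT ≤ a' - a ∧ a' - a ≤ CT * skwH c d z) :
    SkwTileOk C d d.zmax (skwH c d) a a' := by
  have hzlo := h.zlo0
  have ha0 : 0 < a := lt_of_lt_of_le hzlo ha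
  have hb0 := h.b0
  have hb1 := h.b1
  have hΔ : 0 < a' - a := by linarith
  have hI0 : 0 ≤ (∫ s in a..a', d.G s) / (a' - a) := by
    apply div_nonneg _ hΔ.le
    exact intervalIntegral.integral_nonneg haa.le fun s hs =>
      h.G0 s ⟨ha0.le.trans hs.1, hs.2.trans ha'⟩
  have hX : 0 ≤ (∫ s in a..a', d.G s) / (a' - a) + d.tiny := by linarith [h.t0]
  refine ⟨?_, ?_, ?_⟩
  · intro z hz
    have hzI : z ∈ Icc (d.zlo / 4) d.zmax := ⟨by linarith [hz.1], hz.2.trans ha'⟩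
    have hpos := skw_gd_H_pos h g hzI
    obtain ⟨c1, c2⟩ := hcmp z hz
    exact ⟨(div_le_div_of_nonneg_left hpos.le (by linarith) hC0).trans c1,
      c2.trans (mul_le_mul_of_nonneg_right hC0 hpos.le)⟩
  · intro z hz
    rcases hside with hs | hs
    · refine (skw_gd_tile_G_act hc h ha0.le hs hz).trans ?_
      apply mul_le_mul_of_nonneg_right _ hX
      exact div_le_div_of_nonneg_right hC1 hb0.le
    · have e1 := skw_gd_tile_G_pl hc h p hCT hs ha' hz (fun s hs => skw_gd_hpl_pos h g hs) hcmp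
      refine e1.trans ?_
      have e2 : c.Cp ^ 2 * CT ^ 6 ≤ C / d.b := by
        rw [le_div_iff₀ hb0]
        have hK : 0 ≤ c.Cp ^ 2 * CT ^ 6 := by have := hc.Cp; positivity
        have : c.Cp ^ 2 * CT ^ 6 * d.b ≤ c.Cp ^ 2 * CT ^ 6 * 1 :=
          mul_le_mul_of_nonneg_left (by linarith) hK
        linarith
      have hCb : 0 ≤ C / d.b := by
        have : 0 ≤ C := by linarith
        positivity
      calc c.Cp ^ 2 * CT ^ 6 * ((∫ s in a..a', d.G s) / (a' - a))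
          ≤ C / d.b * ((∫ s in a..a', d.G s) / (a' - a)) := mul_le_mul_of_nonneg_right e2 hI0
        _ ≤ C / d.b * ((∫ s in a..a', d.G s) / (a' - a) + d.tiny) :=
            mul_le_mul_of_nonneg_left (by linarith [h.t0]) hCb
  · intro z hz z' hz' hzz k1 k2
    have haI : a ∈ Icc (d.zlo / 4) d.zmax := ⟨by linarith, haa.le.trans ha'⟩
    have hA := h.A1
    have hCp := hc.Cp
    have hK := g.K01
    obtain ⟨c1, c2⟩ := hcmp a ⟨le_rfl, haa.le⟩
    exact skw_gd_tile_var hc h (skwH c d) (Cq := 3 + d.A + 2 * c.Cp + K0) (Cu := Cu) (Cd := Cd)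
      (CT := CT) (zb := d.zmax) (by linarith) (by linarith) (by linarith [hc.Cf]) hCT le_rfl hC3 ha haa
      (fun w hw => skw_gd_qlip hc h p g haI ⟨by linarith [hw.1], hw.2⟩)
      (skw_gd_upper hc h p g hCu1 hCu2 haI)
      (fun w hw => skw_gd_dev hc h g hCd1 hCd2 ⟨by linarith [hw.1], hw.2⟩)
      c1 c2 hz hz' hzz k1 k2

/-- a positive lower bound of the width on `[zlo, zmax]` -/
theorem skw_gd_hmin (hc : c.Ok) (h : SkwHyp c d) (g : SkwGd c d CH CP CB CE K0) :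
    ∃ hmin : ℝ, 0 < hmin ∧ ∀ z ∈ Icc d.zlo d.zmax, hmin ≤ skwH c d z := by
  have hzlo := h.zlo0
  have hU := skw_gd_Upos h
  have hb0 := h.b0
  have hρ := skw_gd_R_pos hc.zs
  have hr0 := skw_gd_R_pos hzlo
  have hCH := g.CH1
  have hCP := g.CP1
  set Cl := CH + CP / skwR c.zs with hCl
  have hq : 0 < CP / skwR c.zs := by positivity
  have hCl0 : 0 < Cl := by positivity
  refine ⟨min (d.b * skwR d.zlo) (d.U ^ 2) / Cl, ?_, ?_⟩
  · have : 0 < min (d.b * skwR d.zlo) (d.U ^ 2) := lt_min (by positivity) (by positivity)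
    positivity
  · intro z hz
    have hz0 : 0 < z := lt_of_lt_of_le hzlo hz.1
    have hr := skw_gd_R_pos hz0
    refine le_trans ?_ (skw_gd_lower hc h g (C := Cl) (by linarith) (by linarith)
      ⟨by linarith [hz.1], hz.2⟩)
    apply div_le_div_of_nonneg_right _ hCl0.le
    apply min_le_min
    · exact mul_le_mul_of_nonneg_left (skw_gd_R_mono hz.1) hb0.le
    · rw [le_div_iff₀ hr]
      have : d.U ^ 2 * skwR z ≤ d.U ^ 2 * 1 :=
        mul_le_mul_of_nonneg_left (skw_gd_R_le_one z) (by positivity)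
      linarith

/-- (iii) the tiles -/
theorem skw_gd_tiles (hc : c.Ok) (h : SkwHyp c d) (p : SkwPlat c d)
    (g : SkwGd c d CH CP CB CE K0) {C₀ CT Cu Cd C : ℝ} (hCT : 1 ≤ CT)
    (hCu1 : 2 ≤ Cu) (hCu2 : c.Cp / skwR c.zs ≤ Cu) (hCd1 : c.Cf ≤ Cd) (hCd2 : CP ≤ Cd)
    (hC0 : CT ≤ C) (hC1 : c.Cadj 1 * (1 + c.zs) ≤ C) (hC2 : c.Cp ^ 2 * CT ^ 6 ≤ C)
    (hC3 : 2 * Cd * ((1 + 2 * CT * Cu) + (3 + d.A + 2 * c.Cp + K0) * (CT + 2))
      + 3 * c.Lq * CT * Cu ≤ C)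
    (hq0 : 3 + d.A + 2 * c.Cp + K0 ≤ C₀) (hq1 : Cu ≤ C₀) (hq2 : K0 * c.Cp ≤ C₀)
    (TL : ∀ (hh : ℝ → ℝ) (α β hmin : ℝ), α < β → 0 < hmin →
      (∀ z ∈ Icc α β, hmin ≤ hh z) →
      (∀ z ∈ Icc α β, ∀ z' ∈ Icc α β, hh z' ≤ C₀ * (hh z + |z - z'|)) →
      hh α ≤ C₀ * (β - α) →
      ∃ (n : ℕ) (t : ℕ → ℝ), t 0 = α ∧ t n = β ∧ (∀ i < n, t i < t (i + 1)) ∧
        ∀ i < n, ∀ z ∈ Icc (t i) (t (i + 1)), hh z / CT ≤ t (i + 1) - t i ∧
          t (i + 1) - t i ≤ CT * hh z) :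
    ∃ (n : ℕ) (t : ℕ → ℝ), t 0 = d.zlo ∧ t n = d.zmax ∧ (∀ i < n, t i < t (i + 1)) ∧
      (c.zs ∈ Icc d.zlo d.zmax → ∃ k ≤ n, t k = c.zs) ∧
      ∀ i < n, SkwTileOk C d d.zmax (skwH c d) (t i) (t (i + 1)) := by
  have hzlo := h.zlo0
  have hzlo1 := h.zlo1
  have hzs := hc.zs
  have hCp := hc.Cp
  have hK := g.K01
  obtain ⟨hmin, hmin0, hminle⟩ := skw_gd_hmin hc h g
  have hlt1 : d.zlo < c.zs := by linarith
  have hlt2 : c.zs < d.zmax := by
    have := p.len_lo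
    have : 0 < 2 / c.Cp := by positivity
    linarith
  have hql : ∀ z ∈ Icc d.zlo d.zmax, ∀ z' ∈ Icc d.zlo d.zmax,
      skwH c d z' ≤ C₀ * (skwH c d z + |z - z'|) := by
    intro z hz z' hz'
    have hzI : z ∈ Icc (d.zlo / 4) d.zmax := ⟨by linarith [hz.1], hz.2⟩
    have hzI' : z' ∈ Icc (d.zlo / 4) d.zmax := ⟨by linarith [hz'.1], hz'.2⟩
    refine (skw_gd_qlip hc h p g hzI hzI').trans ?_
    apply mul_le_mul_of_nonneg_right hq0
    have := skw_gd_H_pos h g hzI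
    have := abs_nonneg (z - z')
    linarith
  have hs1 : skwH c d d.zlo ≤ C₀ * (c.zs - d.zlo) := by
    have e1 := skw_gd_upper hc h p g hCu1 hCu2 (z := d.zlo) ⟨by linarith, by linarith⟩
    have e2 := skw_gd_R_le d.zlo
    have e3 : Cu * skwR d.zlo ≤ Cu * (c.zs - d.zlo) :=
      mul_le_mul_of_nonneg_left (by linarith) (by linarith)
    have e4 : Cu * (c.zs - d.zlo) ≤ C₀ * (c.zs - d.zlo) :=
      mul_le_mul_of_nonneg_right hq1 (by linarith)
    linarith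
  have hs2 : skwH c d c.zs ≤ C₀ * (d.zmax - c.zs) := by
    rw [skw_gd_H_act le_rfl]
    have e1 := g.hactK c.zs ⟨hzs.le, le_rfl⟩
    have e2 := p.E2
    have e3 : K0 * (d.E + (c.zs - c.zs)) ≤ K0 * 1 :=
      mul_le_mul_of_nonneg_left (by linarith) (by linarith)
    have e4 := p.len_lo
    have e5 : 1 / c.Cp ≤ d.zmax - c.zs := by
      have : 2 / c.Cp = 1 / c.Cp + 1 / c.Cp := by ring
      have : 0 < 1 / c.Cp := by positivity
      linarith
    have e6 : K0 * c.Cp * (1 / c.Cp) ≤ C₀ * (d.zmax - c.zs) :=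
      mul_le_mul hq2 e5 (by positivity) (by
        have : 0 ≤ K0 * c.Cp := by positivity
        linarith)
    have e7 : K0 * c.Cp * (1 / c.Cp) = K0 := by field_simp
    linarith
  obtain ⟨n₁, t₁, a0, a1, a2, a3⟩ := TL (skwH c d) d.zlo c.zs hmin hlt1 hmin0
    (fun z hz => hminle z ⟨hz.1, hz.2.trans h.zmax⟩)
    (fun z hz z' hz' => hql z ⟨hz.1, hz.2.trans h.zmax⟩ z' ⟨hz'.1, hz'.2.trans h.zmax⟩) hs1
  obtain ⟨n₂, t₂, b0, b1, b2, b3⟩ := TL (skwH c d) c.zs d.zmax hmin hlt2 hmin0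
    (fun z hz => hminle z ⟨hlt1.le.trans hz.1, hz.2⟩)
    (fun z hz z' hz' => hql z ⟨hlt1.le.trans hz.1, hz.2⟩ z' ⟨hlt1.le.trans hz'.1, hz'.2⟩) hs2
  have m1 := skw_gd_chain_mono n₁ t₁ a2
  have m2 := skw_gd_chain_mono n₂ t₂ b2
  obtain ⟨t, e0, e1, e2, e3⟩ := skw_gd_concat (SkwTileOk C d d.zmax (skwH c d)) n₁ n₂ t₁ t₂
    (by rw [a1, b0])
    (fun i hi => ⟨a2 i hi, by
      have l1 : d.zlo ≤ t₁ i := by rw [← a0]; exact m1 i hi.le 0 (Nat.zero_le _)
      have l2 : t₁ (i + 1) ≤ c.zs := by rw [← a1]; exact m1 n₁ le_rfl (i + 1) hi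
      exact skw_gd_tile_ok hc h p g hCT hCu1 hCu2 hCd1 hCd2 hC0 hC1 hC2 hC3 l1 (a2 i hi)
        (l2.trans h.zmax) (Or.inl l2) (a3 i hi)⟩)
    (fun i hi => ⟨b2 i hi, by
      have l1 : c.zs ≤ t₂ i := by rw [← b0]; exact m2 i hi.le 0 (Nat.zero_le _)
      have l2 : t₂ (i + 1) ≤ d.zmax := by rw [← b1]; exact m2 n₂ le_rfl (i + 1) hi
      exact skw_gd_tile_ok hc h p g hCT hCu1 hCu2 hCd1 hCd2 hC0 hC1 hC2 hC3 (hlt1.le.trans l1)
        (b2 i hi) l2 (Or.inr l1) (b3 i hi)⟩)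
  refine ⟨n₁ + n₂, t, by rw [e0, a0], by rw [e1, b1], fun i hi => (e3 i hi).1, ?_,
    fun i hi => (e3 i hi).2⟩
  intro _
  exact ⟨n₁, Nat.le_add_right _ _, by rw [e2, a1]⟩

/-- **GLUE-D**: the direct-path theorem from the leaves -/
theorem skw_gd_main (hH0 : SkwLeafH0) (hCA : SkwLeafConeA) (hCB : SkwLeafConeB)
    (hPl : SkwLeafPlat) (hEB : SkwLeafEndB) (hJ : SkwLeafJoin) (hWA : SkwLeafWinA)
    (hWB : SkwLeafWinB) (hT : SkwLeafTile) : SkwDirect := by
  intro c hc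
  obtain ⟨CH, hCH, H0⟩ := hH0 c hc
  obtain ⟨CP, hCP, Pl⟩ := hPl c hc
  obtain ⟨CB, hCB1, CBl⟩ := hCB c hc CP hCP
  obtain ⟨CE, hCE, EB⟩ := hEB c hc
  obtain ⟨CJ, hCJ, Jn⟩ := hJ c hc
  obtain ⟨CWA, hCWA, WA⟩ := hWA c hc (2 * (CJ + 2)) (by linarith)
  obtain ⟨CWB, hCWB, WB⟩ := hWB c hc (CJ + 2) (by linarith)
  have hCp := hc.Cp
  have hCf := hc.Cf
  have hLq := hc.Lq
  have hzs := hc.zs
  have hCa := hc.Cadj 1
  have hρ := skw_gd_R_pos hzs
  obtain ⟨Cq, hCq⟩ : ∃ Cq, Cq = 3 + CJ + 2 * c.Cp + (CJ + 2) := ⟨_, rfl⟩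
  obtain ⟨Cu, hCu⟩ : ∃ Cu, Cu = 2 + c.Cp / skwR c.zs := ⟨_, rfl⟩
  obtain ⟨Cd, hCd⟩ : ∃ Cd, Cd = c.Cf + CP := ⟨_, rfl⟩
  obtain ⟨Cl, hCl⟩ : ∃ Cl, Cl = CH + CP / skwR c.zs := ⟨_, rfl⟩
  have q1 : 0 < c.Cp / skwR c.zs := by positivity
  have q2 : 0 < CP / skwR c.zs := by positivity
  have hCq1 : 1 ≤ Cq := by rw [hCq]; linarith
  have hCu1 : 2 ≤ Cu := by rw [hCu]; linarith
  have hCd1 : 1 ≤ Cd := by rw [hCd]; linarith
  have hCl1 : 1 ≤ Cl := by rw [hCl]; linarith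
  have q3 : 0 < (CJ + 2) * c.Cp := by positivity
  obtain ⟨CT, hCT, TL⟩ := hT (Cq + Cu + (CJ + 2) * c.Cp) (by linarith)
  obtain ⟨T1, hT1⟩ : ∃ T1, T1 = c.Cadj 1 * (1 + c.zs) := ⟨_, rfl⟩
  obtain ⟨T2, hT2⟩ : ∃ T2, T2 = c.Cp ^ 2 * CT ^ 6 := ⟨_, rfl⟩
  obtain ⟨T3, hT3⟩ : ∃ T3, T3 = 2 * Cd * ((1 + 2 * CT * Cu) + Cq * (CT + 2))
      + 3 * c.Lq * CT * Cu := ⟨_, rfl⟩
  have t1 : 0 < T1 := by rw [hT1]; positivity
  have t2 : 0 < T2 := by rw [hT2]; positivity
  have t3 : 0 < T3 := by rw [hT3]; positivity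
  obtain ⟨C, hC⟩ : ∃ C, C = CJ + CWA + CWB + c.Cp + Cq + Cl + Cu + Cd + (CH + CB + CE + c.Cp)
      + CT + T1 + T2 + T3 := ⟨_, rfl⟩
  refine ⟨CJ, hCJ, C, by rw [hC]; linarith, ?_⟩
  intro d h p hA hs
  obtain ⟨pl1, pl2, pl3, _⟩ := Pl d h p
  have cone := hCA c hc d h
  obtain ⟨j1, j2⟩ := Jn d h p (skw_gd_small_mono (by linarith) (by rw [hC]; linarith) hs)
  have hK := skw_gd_hactK h p cone hCJ (le_of_eq hA.symm) j1 j2
  have g : SkwGd c d CH CP CB CE (CJ + 2) :=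
    { h0 := H0 d h
      cone := cone
      platf := pl1
      hpl_lo := pl3
      coneB := fun α β a1 a2 a3 a4 => CBl d h α β a1 a2 a3 a4 (Or.inr pl2)
      endB := EB d h p
      hactK := hK
      CH1 := hCH
      CP1 := hCP
      CB1 := hCB1
      CE1 := hCE
      K01 := by linarith }
  have hzlo := h.zlo0
  have hsub : Icc (d.zlo / 2) d.zmax ⊆ Icc (d.zlo / 4) d.zmax :=
    Icc_subset_Icc (by linarith) le_rfl
  have hAq : 3 + d.A + 2 * c.Cp + (CJ + 2) = Cq := by rw [hA, hCq]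
  refine ⟨?_, ?_, ?_, ?_, ?_, ?_, ?_, ?_⟩
  · intro z hz z' hz'
    refine (skw_gd_qlip hc h p g (hsub hz) (hsub hz')).trans ?_
    rw [hAq]
    apply mul_le_mul_of_nonneg_right (by rw [hC]; linarith)
    have := skw_gd_H_pos h g (hsub hz)
    have := abs_nonneg (z - z')
    linarith
  · exact (skw_gd_meas h p g).mono_set hsub
  · intro z hz
    exact skw_gd_lower hc h g (by rw [hC, hCl]; linarith) (by rw [hC, hCl]; linarith) (hsub hz)
  · intro z hz
    exact skw_gd_upper hc h p g (by rw [hC]; linarith) (by rw [hC, hCu]; linarith) (hsub hz)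
  · intro z hz
    exact skw_gd_dev hc h g (by rw [hC, hCd]; linarith) (by rw [hC, hCd]; linarith) (hsub hz)
  · intro ρ hρ'
    exact skw_gd_budget hc h p g (by rw [hC]; linarith) hρ'
  · exact skw_gd_win hc h p g hCWA hCWB (by rw [hC]; linarith) (by rw [hC]; linarith)
      (by rw [hC]; linarith)
      (WA d h (skw_gd_small_mono (by linarith) (by rw [hC]; linarith) hs))
      (WB d h p (skw_gd_small_mono (by linarith) (by rw [hC]; linarith) hs) hK)
  · obtain ⟨n, t, e0, e1, e2, e3, e4⟩ := skw_gd_tiles hc h p g (C₀ := Cq + Cu + (CJ + 2) * c.Cp)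
      (CT := CT) (Cu := Cu) (Cd := Cd) (C := C) hCT hCu1 (by rw [hCu]; linarith)
      (by rw [hCd]; linarith) (by rw [hCd]; linarith) (by rw [hC]; linarith)
      (by rw [hC, ← hT1]; linarith) (by rw [hC, ← hT2]; linarith)
      (by rw [hAq, ← hT3, hC]; linarith) (by rw [hAq]; linarith) (by linarith) (by linarith) TL
    exact ⟨n, t, e0, e1, e2, e3, fun i hi => e4 i hi⟩

/-- TEX[LL:lem:statistics-widths] direct path -/
theorem skw_direct : SkwDirect :=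
  skw_gd_main skw_leaf_h0 skw_leaf_coneA skw_leaf_coneB skw_leaf_plat skw_leaf_endb skw_leaf_join
    skw_leaf_winA skw_leaf_winB skw_leaf_tile

end Claimed.Agent.R286
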