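import Claimed.Agent.R286.W.InstDefs
import Claimed.Agent.R286.W.Adj

/-!
# Row 286, folder W, file InstAdj : Leaf IN-ADJ      (contract helper246; proof helper237; prefix `skw_ia_`)
`SkwAdj c d` for the active density `ℓ (At' + λ P')`, from `skw_leaf_adj` (W/Adj.lean).  See the docstring of `SkwLeafInAdj`.
-/

set_option autoImplicit false

namespace Claimed.Agent.R286

open Set MeasureTheory

theorem skw_leaf_inAdj : SkwLeafInAdj := by
  intro π r n hnr h
  have hle : ((n : WithTop ℕ∞) + 1) ≤ (r : WithTop ℕ∞) := by exact_mod_cast hnr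
  have cA : ContDiff ℝ n (deriv π.At) := (h.At_sm.of_le hle).deriv'
  have cP : ContDiff ℝ n (deriv π.P) := (h.P_sm.of_le hle).deriv'
  have kA : Continuous (iteratedDeriv n (deriv π.At)) := cA.continuous_iteratedDeriv' n
  have kP : Continuous (iteratedDeriv n (deriv π.P)) := cP.continuous_iteratedDeriv' n
  obtain ⟨MA, hMA⟩ := (isCompact_Icc (a := (0:ℝ)) (b := π.zs)).exists_bound_of_continuousOn kA.continuousOn
  obtain ⟨MP, hMP⟩ := (isCompact_Icc (a := (0:ℝ)) (b := π.zs)).exists_bound_of_continuousOn kP.continuousOn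
  have hzs : 0 < π.zs := by linarith [h.z00, h.z0s]
  have hMA0 : 0 ≤ MA := (norm_nonneg _).trans (hMA 0 ⟨le_refl _, hzs.le⟩)
  have hMP0 : 0 ≤ MP := (norm_nonneg _).trans (hMP 0 ⟨le_refl _, hzs.le⟩)
  choose! C hC1 hC using skw_leaf_adj n
  refine ⟨2 * (MA + MP), fun κ => if 1 ≤ κ then C κ * κ ^ n else 1, by positivity, ?_, ?_⟩
  · intro κ
    by_cases hκ : 1 ≤ κ
    · simp only [hκ, if_true]
      have h1 := hC1 κ hκ
      have h2 : 1 ≤ κ ^ n := one_le_pow₀ hκ
      calc (1:ℝ) = 1 * 1 := (one_mul _).symm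
        _ ≤ C κ * κ ^ n := mul_le_mul h1 h2 zero_le_one (by linarith)
    · simp [hκ]
  intro i c d he1 he2 hla0 hla1 hG0 hczs hcadj hdG hb0 hMb
  intro κ l a l₁ a' l₂ hκ hl hlb h1 h2 h3 h4 ha hal ha' hal' haa s hs
  rw [hczs] at hal hal'
  have hκ0 : 0 < κ := by linarith
  have hl1 : 0 < l₁ := lt_of_lt_of_le (by positivity) h1
  have hl2 : 0 < l₂ := lt_of_lt_of_le (by positivity) h3
  have cG : ContDiff ℝ n (skwInGa π i) := by
    have : skwInGa π i = fun z => i.ell * (deriv π.At z + i.lam * deriv π.P z) := rfl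
    rw [this]
    exact contDiff_const.mul (cA.add (contDiff_const.mul cP))
  have hbd : ∀ z ∈ Icc 0 π.zs, |iteratedDerivWithin n (skwInGa π i) (Icc 0 π.zs) z| ≤ 2 * (MA + MP) := by
    intro z hz
    rw [iteratedDerivWithin_eq_iteratedDeriv (uniqueDiffOn_Icc hzs) cG.contDiffAt hz]
    have e1 : iteratedDeriv n (skwInGa π i) z
        = i.ell * (iteratedDeriv n (deriv π.At) z + i.lam * iteratedDeriv n (deriv π.P) z) := by
      have : skwInGa π i = fun z => i.ell * ((deriv π.At + fun y => i.lam * deriv π.P y) z) := rfl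
      rw [this, iteratedDeriv_const_mul_field, iteratedDeriv_add cA.contDiffAt (contDiff_const.mul cP).contDiffAt,
        iteratedDeriv_const_mul_field]
    rw [e1, abs_mul, abs_of_nonneg (by linarith : (0:ℝ) ≤ i.ell)]
    have b1 : |iteratedDeriv n (deriv π.At) z| ≤ MA := by simpa using hMA z hz
    have b2 : |iteratedDeriv n (deriv π.P) z| ≤ MP := by simpa using hMP z hz
    have b3 : |i.lam * iteratedDeriv n (deriv π.P) z| ≤ MP := by
      rw [abs_mul, abs_of_nonneg hla0]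
      calc i.lam * |iteratedDeriv n (deriv π.P) z| ≤ 1 * MP := mul_le_mul hla1 b2 (abs_nonneg _) zero_le_one
        _ = MP := one_mul _
    have b4 := abs_add_le (iteratedDeriv n (deriv π.At) z) (i.lam * iteratedDeriv n (deriv π.P) z)
    exact mul_le_mul he2 (by linarith) (abs_nonneg _) (by norm_num)
  have key := hC κ hκ (skwInGa π i) 0 π.zs (2 * (MA + MP)) l a l₁ a' l₂ cG.contDiffOn hG0 hbd hl h1 h2 h3 h4 ha hal ha' hal' haa s hs
  have hsz : s ∈ Icc 0 π.zs := ⟨ha.trans hs.1, hs.2.trans hal⟩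
  have eI : ∫ t in a'..(a' + l₂), d.G t = ∫ t in a'..(a' + l₂), skwInGa π i t := by
    apply intervalIntegral.integral_congr
    intro t ht
    rw [uIcc_of_le (by linarith)] at ht
    exact hdG t ⟨ha'.trans ht.1, ht.2.trans hal'⟩
  rw [hdG s hsz, eI, hcadj]
  simp only [hκ, if_true]
  have hI : 0 ≤ ∫ t in a'..(a' + l₂), skwInGa π i t :=
    intervalIntegral.integral_nonneg (by linarith) fun t ht => hG0 t ⟨ha'.trans ht.1, ht.2.trans hal'⟩
  have hq : 0 ≤ (∫ t in a'..(a' + l₂), skwInGa π i t) / l₂ := by positivity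
  have hκn : 1 ≤ κ ^ n := one_le_pow₀ hκ
  have hMl : 2 * (MA + MP) * l ^ n ≤ κ ^ n * d.tiny := by
    calc 2 * (MA + MP) * l ^ n ≤ 2 * (MA + MP) * (κ * d.b) ^ n :=
          mul_le_mul_of_nonneg_left (pow_le_pow_left₀ hl.le hlb n) (by positivity)
      _ = κ ^ n * (2 * (MA + MP) * d.b ^ n) := by rw [mul_pow]; ring
      _ ≤ κ ^ n * d.tiny := mul_le_mul_of_nonneg_left hMb (by positivity)
  have hC0 : 0 ≤ C κ := by linarith [hC1 κ hκ]
  calc skwInGa π i s ≤ C κ * ((∫ t in a'..(a' + l₂), skwInGa π i t) / l₂ + 2 * (MA + MP) * l ^ n) := key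
    _ ≤ C κ * (κ ^ n * ((∫ t in a'..(a' + l₂), skwInGa π i t) / l₂) + κ ^ n * d.tiny) := by
        apply mul_le_mul_of_nonneg_left _ hC0
        have : (∫ t in a'..(a' + l₂), skwInGa π i t) / l₂ ≤ κ ^ n * ((∫ t in a'..(a' + l₂), skwInGa π i t) / l₂) :=
          le_mul_of_one_le_left hq hκn
        linarith
    _ = C κ * κ ^ n * ((∫ t in a'..(a' + l₂), skwInGa π i t) / l₂ + d.tiny) := by ring

end Claimed.Agent.R286
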