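import Claimed.Agent.R286.W.InstG
import Claimed.Agent.R286.W.InstAdj
import Claimed.Agent.R286.W.InstV
import Claimed.Agent.R286.W.InstS
import Claimed.Agent.R286.W.PF

/-!
# Row 286, folder W, file Inst : THE INSTANCE THEOREM of the width construction, direct path      (OWNER helper246; prefix `skw_in_`)
`SkwHyp c (skwInD π i) ∧ SkwPlat c (skwInD π i)` from the leaves IN-G, IN-E, IN-ADJ, IN-V, IN-S1 and PLF (`skw_leaf_pf`).
-/

set_option autoImplicit false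

namespace Claimed.Agent.R286

open Set MeasureTheory

section kit

variable {π : SkwProf} {i : SkwIn}

theorem skw_in_G_act {z : ℝ} (hz : z ≤ π.zs) : skwInG π i z = skwInGa π i z := if_pos hz

theorem skw_in_G_pl {z : ℝ} (hz : π.zs < z) : skwInG π i z = (i.pf π).G z := if_neg (not_le.2 hz)

theorem skw_in_V_act {z : ℝ} (hz : z ≤ π.zs) : skwInV π i z = i.ell * skwInA π i z := if_pos hz

theorem skw_in_V_pl {z : ℝ} (hz : π.zs < z) : skwInV π i z = i.ell * (i.pf π).wof z := if_neg (not_le.2 hz)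

/-- on the plateau the density may be replaced by the explicit one under the integral -/
theorem skw_in_int_pl (g : ℝ → ℝ) {a b : ℝ} (ha : π.zs ≤ a) (hab : a ≤ b) :
    ∫ z in a..b, skwInG π i z * g z = ∫ z in a..b, (i.pf π).G z * g z := by
  refine intervalIntegral.integral_congr_ae (Filter.Eventually.of_forall ?_)
  intro z hz
  rw [uIoc_of_le hab] at hz
  rw [skw_in_G_pl (lt_of_le_of_lt ha hz.1)]

theorem skw_in_int_pl' {a b : ℝ} (ha : π.zs ≤ a) (hab : a ≤ b) :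
    ∫ z in a..b, skwInG π i z = ∫ z in a..b, (i.pf π).G z := by
  refine intervalIntegral.integral_congr_ae (Filter.Eventually.of_forall ?_)
  intro z hz
  rw [uIoc_of_le hab] at hz
  rw [skw_in_G_pl (lt_of_le_of_lt ha hz.1)]

theorem skw_in_int_act {a b : ℝ} (hab : a ≤ b) (hb : b ≤ π.zs) :
    ∫ z in a..b, skwInG π i z = ∫ z in a..b, skwInGa π i z := by
  refine intervalIntegral.integral_congr_ae (Filter.Eventually.of_forall ?_)
  intro z hz
  rw [uIoc_of_le hab] at hz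
  rw [skw_in_G_act (hz.2.trans hb)]

theorem skw_in_Hx0 (z : ℝ) : 0 ≤ skwInHx π i z := le_max_of_le_left (le_max_left _ _)

theorem skw_in_max0_lip (u u' : ℝ) : |max 0 u - max 0 u'| ≤ |u - u'| := by
  have h := abs_max_sub_max_le_max 0 u 0 u'
  simpa using h

theorem skw_in_Hxlip (z z' : ℝ) : |skwInHx π i z - skwInHx π i z'| ≤ |z - z'| := by
  unfold skwInHx
  refine (abs_max_sub_max_le_max _ _ _ _).trans (max_le ?_ ?_)
  · refine (skw_in_max0_lip _ _).trans (le_of_eq ?_)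
    congr 1; ring
  · refine (skw_in_max0_lip _ _).trans ?_
    have e : 2 * min i.E i.b - max 0 (π.zs - z - i.E) - (2 * min i.E i.b - max 0 (π.zs - z' - i.E))
        = max 0 (π.zs - z' - i.E) - max 0 (π.zs - z - i.E) := by ring
    rw [e]
    refine (skw_in_max0_lip _ _).trans (le_of_eq ?_)
    have e2 : π.zs - z' - i.E - (π.zs - z - i.E) = z - z' := by ring
    rw [e2]

theorem skw_in_Hxr (hE0 : 0 < i.E) (hE1 : i.E ≤ π.zs / 4) (hE2 : i.E ≤ 1) {z : ℝ} (hz : z ∈ Icc 0 π.zs) :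
    skwInHx π i z ≤ 2 * skwR z := by
  unfold skwInHx skwR
  have hm : min i.E i.b ≤ i.E := min_le_left _ _
  rcases le_or_gt i.E z with h | h
  · have hr : i.E ≤ min z 1 := le_min h hE2
    have h0 : (0 : ℝ) ≤ max 0 (π.zs - z - i.E) := le_max_left _ _
    refine max_le (max_le (by linarith) (by linarith [hz.2])) (max_le (by linarith) (by linarith))
  · have hr : (0 : ℝ) ≤ min z 1 := le_min hz.1 zero_le_one
    have h1 : π.zs - z - i.E ≤ max 0 (π.zs - z - i.E) := le_max_right _ _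
    refine max_le (max_le (by linarith) (by linarith)) (max_le (by linarith) (by linarith))

end kit

section dev

variable {π : SkwProf} {i : SkwIn} {cv Lq C1v : ℝ}

theorem skw_in_V_mem (hV : SkwInVConcl cv π i) {z : ℝ} (hz : z ∈ Icc 0 (i.pf π).zmax) :
    skwInV π i z ∈ Icc 0 i.ell := by
  have h0 : (0 : ℝ) ≤ (i.pf π).zmax := hz.1.trans hz.2
  constructor
  · rw [← hV.v0]; exact hV.mono.monotoneOn ⟨le_rfl, h0⟩ hz hz.1
  · rw [← hV.vmax]; exact hV.mono.monotoneOn hz ⟨h0, le_rfl⟩ hz.2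

theorem skw_in_F_eq (z : ℝ) : skwF (skwInD π i) z = i.Sv (skwInV π i z) - i.Gm (min z π.zs) := rfl

theorem skw_in_F_eq' (hD : i.Dev π Lq C1v) {z : ℝ} (hz : z ∈ Icc 0 (i.pf π).zmax) :
    skwF (skwInD π i) z = i.Sv (skwInV π i z) - i.qv (skwInV π i z) := by
  rw [skw_in_F_eq, hD.qG z hz]

theorem skw_in_min_mem (hzs : 0 ≤ π.zs) {z : ℝ} (hz : 0 ≤ z) : min z π.zs ∈ Icc 0 π.zs :=
  ⟨le_min hz hzs, min_le_right _ _⟩

theorem skw_in_Smono (hV : SkwInVConcl cv π i) (hD : i.Dev π Lq C1v) :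
    MonotoneOn (fun z => i.Sv (skwInV π i z)) (Icc 0 (i.pf π).zmax) := by
  intro z hz z' hz' h
  exact hD.Smono (skw_in_V_mem hV hz) (skw_in_V_mem hV hz') (hV.mono.monotoneOn hz hz' h)

theorem skw_in_qlip (hzs : 0 ≤ π.zs) (hLq : 0 ≤ Lq) (hD : i.Dev π Lq C1v) {z z' : ℝ} (hz : 0 ≤ z) (hz' : 0 ≤ z') :
    |i.Gm (min z π.zs) - i.Gm (min z' π.zs)| ≤ Lq * |z - z'| := by
  refine (hD.Glip _ (skw_in_min_mem hzs hz) _ (skw_in_min_mem hzs hz')).trans ?_
  refine mul_le_mul_of_nonneg_left ?_ hLq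
  have h := abs_min_sub_min_le_max z π.zs z' π.zs
  simpa using h

theorem skw_in_F_abs_le (hzs : 0 ≤ π.zs) (hV : SkwInVConcl cv π i) (hD : i.Dev π Lq C1v) {z : ℝ}
    (hz : z ∈ Icc 0 (i.pf π).zmax) : |skwF (skwInD π i) z| ≤ 1 := by
  rw [skw_in_F_eq, abs_le]
  have h1 := hD.S0 _ (skw_in_V_mem hV hz)
  have h2 := hD.S1 _ (skw_in_V_mem hV hz)
  have h3 := hD.G0 _ (skw_in_min_mem hzs hz.1)
  have h4 := hD.G1 _ (skw_in_min_mem hzs hz.1)
  constructor <;> linarith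

theorem skw_in_F_int (hzs : 0 ≤ π.zs) (hLq : 0 ≤ Lq) (h0 : 0 ≤ (i.pf π).zmax) (hV : SkwInVConcl cv π i)
    (hD : i.Dev π Lq C1v) : IntervalIntegrable (skwF (skwInD π i)) volume 0 (i.pf π).zmax := by
  have hS : IntervalIntegrable (fun z => i.Sv (skwInV π i z)) volume 0 (i.pf π).zmax := by
    refine MonotoneOn.intervalIntegrable ?_
    rw [uIcc_of_le h0]
    exact skw_in_Smono hV hD
  have hq : IntervalIntegrable (fun z => i.Gm (min z π.zs)) volume 0 (i.pf π).zmax := by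
    refine ContinuousOn.intervalIntegrable ?_
    rw [uIcc_of_le h0]
    have : LipschitzOnWith ⟨Lq, hLq⟩ (fun z => i.Gm (min z π.zs)) (Icc 0 (i.pf π).zmax) := by
      refine LipschitzOnWith.of_dist_le_mul ?_
      intro x hx y hy
      rw [Real.dist_eq, Real.dist_eq]
      exact skw_in_qlip hzs hLq hD hx.1 hy.1
    exact this.continuousOn
  exact hS.sub hq

theorem skw_in_FG_int0 (hzs : 0 ≤ π.zs) (hLq : 0 ≤ Lq) (h0 : 0 ≤ (i.pf π).zmax) (hV : SkwInVConcl cv π i)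
    (hD : i.Dev π Lq C1v) (hG0 : ∀ z ∈ Icc 0 (i.pf π).zmax, 0 ≤ skwInG π i z) :
    IntervalIntegrable (fun z => skwF (skwInD π i) z ^ 2 * skwInG π i z) volume 0 (i.pf π).zmax := by
  refine hV.Gint.mono_fun' ?_ ?_
  · have h1 := (skw_in_F_int hzs hLq h0 hV hD).def'.aestronglyMeasurable
    have h2 := hV.Gint.def'.aestronglyMeasurable
    exact (h1.pow 2).mul h2
  · rw [uIoc_of_le h0]
    refine (ae_restrict_iff' measurableSet_Ioc).2 (ae_of_all _ ?_)
    intro z hz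
    have hz' : z ∈ Icc 0 (i.pf π).zmax := Ioc_subset_Icc_self hz
    have h1 : skwF (skwInD π i) z ^ 2 ≤ 1 := by
      rw [← sq_abs]
      exact pow_le_one₀ (abs_nonneg _) (skw_in_F_abs_le hzs hV hD hz')
    have h2 := hG0 z hz'
    show ‖skwF (skwInD π i) z ^ 2 * skwInG π i z‖ ≤ skwInG π i z
    rw [Real.norm_eq_abs, abs_of_nonneg (mul_nonneg (sq_nonneg _) h2)]
    calc skwF (skwInD π i) z ^ 2 * skwInG π i z ≤ 1 * skwInG π i z := mul_le_mul_of_nonneg_right h1 h2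
      _ = skwInG π i z := one_mul _

/-- (D1) in the coordinate `z`, tail form -/
theorem skw_in_tail (hzlo : 0 < i.zlo) (hV : SkwInVConcl cv π i) (hD : i.Dev π Lq C1v) {ρ : ℝ}
    (hρ : ρ ∈ Icc (i.zlo / 4) (i.pf π).zmax) :
    ∫ z in ρ..(i.pf π).zmax, skwF (skwInD π i) z ^ 2 * skwInG π i z ≤ C1v * (i.U * i.Z) ^ 4 / skwInV π i ρ := by
  have hρ0 : 0 ≤ ρ := by linarith [hρ.1]
  have h0 : (0 : ℝ) ≤ (i.pf π).zmax := hρ0.trans hρ.2
  have hρ' : ρ ∈ Icc 0 (i.pf π).zmax := ⟨hρ0, hρ.2⟩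
  have hl : i.zlo / 4 ∈ Icc 0 (i.pf π).zmax := ⟨by linarith, hρ.1.trans hρ.2⟩
  have cov := hV.cov (fun v => (i.Sv v - i.qv v) ^ 2) ρ hρ' (i.pf π).zmax ⟨h0, le_rfl⟩ hρ.2
  have e : ∫ z in ρ..(i.pf π).zmax, skwF (skwInD π i) z ^ 2 * skwInG π i z
      = ∫ z in ρ..(i.pf π).zmax, (fun v => (i.Sv v - i.qv v) ^ 2) (skwInV π i z) * skwInG π i z := by
    refine intervalIntegral.integral_congr ?_
    intro z hz
    rw [uIcc_of_le hρ.2] at hz
    have hz' : z ∈ Icc 0 (i.pf π).zmax := ⟨hρ0.trans hz.1, hz.2⟩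
    show skwF (skwInD π i) z ^ 2 * skwInG π i z = (i.Sv (skwInV π i z) - i.qv (skwInV π i z)) ^ 2 * skwInG π i z
    rw [skw_in_F_eq' hD hz']
  rw [e, cov, hV.vmax]
  exact hD.D1v _ (hV.mono.monotoneOn hl hρ' hρ.1) (skw_in_V_mem hV hρ').2

end dev

set_option maxHeartbeats 3200000 in
/-- INSTANCE of `SkwHyp`, `SkwPlat` (abstract profile; the link to `LlPt` is W/InstLl.lean) -/
theorem skw_inst_direct : SkwInstDirect := by
  intro π r n hr hn hπ Lq C1v Klo hLq hC1v hKlo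
  have hz0 := hπ.z00
  have hz0s := hπ.z0s
  have hzs : 0 < π.zs := by linarith
  have hpt1 : 0 < 1 - π.ptop := by linarith [hπ.pt1]
  obtain ⟨M0, lam0, hM0, hlam0, hlam01, HG⟩ := skw_leaf_inG π r hr hπ
  obtain ⟨Mn, Cadj, hMn, hCadj, HA⟩ := skw_leaf_inAdj π r n hn hπ
  have hE1pos : 0 < min (min (π.zs / 4) 1) ((π.zs - π.z0) / 2) :=
    lt_min (lt_min (by linarith) one_pos) (by linarith)
  obtain ⟨U1, hU1, hU11, HE⟩ := skw_leaf_inE π r hr hπ M0 hM0 _ hE1pos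
  obtain ⟨Cp0, hCp0, HP⟩ := skw_leaf_pf π.ptop M0 hπ.pt0 hπ.pt1 hM0
  obtain ⟨cv, hcv, hcv1, HV⟩ := skw_leaf_inV π r hr hπ M0 Cp0 hM0 hCp0
  have hmz : 0 < min (π.zs / 2) 1 := lt_min (by linarith) one_pos
  have hmz1 : min (π.zs / 2) 1 ≤ 1 := min_le_right _ _
  have hcm : 0 < cv * min (π.zs / 2) 1 := mul_pos hcv hmz
  have hcm1 : cv * min (π.zs / 2) 1 ≤ 1 := by nlinarith
  obtain ⟨C1, hC1def⟩ : ∃ C1 : ℝ, C1 = C1v / (cv * min (π.zs / 2) 1) := ⟨_, rfl⟩
  have hC1 : 1 ≤ C1 := by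
    rw [hC1def, le_div_iff₀ hcm]
    linarith
  obtain ⟨Cf, hCf, HS⟩ := skw_leaf_inS1 π.zs Lq C1 (π.cA / 2) (2 * π.z0) Klo hzs hLq hC1
    (by linarith [hπ.cA0]) (by linarith) hπ.z0s hKlo
  obtain ⟨Cp, hCpdef⟩ : ∃ Cp : ℝ, Cp = max (max Cp0 2) (max (π.zs + 4) (1 / (1 - π.ptop))) := ⟨_, rfl⟩
  have hCp_a : Cp0 ≤ Cp := by rw [hCpdef]; exact (le_max_left _ _).trans (le_max_left _ _)
  have hCp_b : 2 ≤ Cp := by rw [hCpdef]; exact (le_max_right _ _).trans (le_max_left _ _)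
  have hCp_c : π.zs + 4 ≤ Cp := by rw [hCpdef]; exact (le_max_left _ _).trans (le_max_right _ _)
  have hCp_d : 1 / (1 - π.ptop) ≤ Cp := by rw [hCpdef]; exact (le_max_right _ _).trans (le_max_right _ _)
  have hCp0' : 0 < Cp := by linarith
  have hCp0pos : 0 < Cp0 := by linarith
  refine ⟨⟨π.zs, M0, Lq, Cf, C1, Cp, Cadj⟩, min (min lam0 U1) (1 / Cp0), Mn, cv,
    ⟨hzs, hM0, hLq, hCf, hC1, by linarith, hCadj⟩, rfl, lt_min (lt_min hlam0 hU1) (by positivity), hMn, hcv, ?_⟩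
  intro i hN hD
  have hκ1 : i.lam ≤ lam0 := hN.lam1.trans ((min_le_left _ _).trans (min_le_left _ _))
  have hκ2 : i.U ≤ U1 := hN.U1.trans ((min_le_left _ _).trans (min_le_right _ _))
  have hκ3 : i.U ≤ 1 / Cp0 := hN.U1.trans (min_le_right _ _)
  have hU0 : 0 < i.U := lt_of_lt_of_le hN.x0 hN.xU
  have hU1' : i.U ≤ 1 := hκ2.trans hU11
  have hE0 := hN.E0
  obtain ⟨hGa, hGlow, hGz0, hGc, hGd, hAm, hA0, hAz⟩ := HG i hN.ell1 hN.ell2 hN.lam0 hκ1
  obtain ⟨hEle, hEmass, hEU⟩ := HE i hN.ell1 hN.ell2 (fun z hz => (hGa z hz).2) hGz0 hU0 hκ2 hN.E0 hN.Es hN.Eeq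
  have hE4 : i.E ≤ π.zs / 4 := hEle.trans ((min_le_left _ _).trans (min_le_left _ _))
  have hE1 : i.E ≤ 1 := hEle.trans ((min_le_left _ _).trans (min_le_right _ _))
  have hEz : i.E < π.zs - π.z0 := by
    have := hEle.trans (min_le_right _ _)
    linarith
  have hPF : SkwPFConcl Cp0 (i.pf π) := HP (i.pf π) rfl hN.ell1 hN.ell2 hU0 hκ3 hN.E0 hE1 (hEU hEz)
  have hV : SkwInVConcl cv π i := HV i hN.ell1 hN.ell2 hGa hGlow hGc hGd hAm hA0 hAz hPF
  have hzm : π.zs + 1 ≤ (i.pf π).zmax := hPF.len_lo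
  have hzm' : π.zs ≤ (i.pf π).zmax := by linarith
  have h0m : 0 ≤ (i.pf π).zmax := by linarith
  have hG0 : ∀ z ∈ Icc 0 (i.pf π).zmax, 0 ≤ skwInG π i z := by
    intro z hz
    rcases le_or_gt z π.zs with h | h
    · rw [skw_in_G_act h]; exact (hGa z ⟨hz.1, h⟩).1
    · rw [skw_in_G_pl h]; exact (hPF.G_pos z ⟨h.le, hz.2⟩).le
  have hLq0 : 0 ≤ Lq := by linarith
  have hFGint := skw_in_FG_int0 hzs.le hLq0 h0m hV hD hG0
  have hY : 0 ≤ (i.U * i.Z) ^ 4 := by positivity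
  have hC1v0 : 0 ≤ C1v := by linarith
  have hT : ∀ ρ ∈ Icc (i.zlo / 4) (i.pf π).zmax,
      ∫ z in ρ..(i.pf π).zmax, skwF (skwInD π i) z ^ 2 * skwInG π i z ≤ C1v * (i.U * i.Z) ^ 4 / (cv * skwR ρ) := by
    intro ρ hρ
    have hρ0 : 0 < ρ := by linarith [hρ.1, hN.zlo0]
    have hr : 0 < skwR ρ := lt_min hρ0 one_pos
    refine (skw_in_tail hN.zlo0 hV hD hρ).trans ?_
    exact div_le_div_of_nonneg_left (mul_nonneg hC1v0 hY) (mul_pos hcv hr) (hV.lower ρ ⟨hρ0.le, hρ.2⟩)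
  have hD1 : ∀ ρ ∈ Icc (i.zlo / 4) (i.pf π).zmax,
      ∫ z in ρ..(min (2 * ρ) (i.pf π).zmax), skwF (skwInD π i) z ^ 2 * skwInG π i z
        ≤ C1 * (i.U * i.Z) ^ 4 / skwR ρ := by
    intro ρ hρ
    have hρ0 : 0 < ρ := by linarith [hρ.1, hN.zlo0]
    have hr : 0 < skwR ρ := lt_min hρ0 one_pos
    calc ∫ z in ρ..(min (2 * ρ) (i.pf π).zmax), skwF (skwInD π i) z ^ 2 * skwInG π i z
        ≤ ∫ z in ρ..(i.pf π).zmax, skwF (skwInD π i) z ^ 2 * skwInG π i z := by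
          refine intervalIntegral.integral_mono_interval le_rfl (le_min (by linarith) hρ.2) (min_le_right _ _) ?_ ?_
          · refine (ae_restrict_iff' measurableSet_Ioc).2 (ae_of_all _ ?_)
            intro z hz
            exact mul_nonneg (sq_nonneg _) (hG0 z ⟨by linarith [hz.1], hz.2⟩)
          · refine hFGint.mono_set ?_
            rw [uIcc_of_le h0m, uIcc_of_le hρ.2]
            exact Icc_subset_Icc hρ0.le le_rfl
      _ ≤ C1v * (i.U * i.Z) ^ 4 / (cv * skwR ρ) := hT ρ hρ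
      _ ≤ C1 * (i.U * i.Z) ^ 4 / skwR ρ := by
          rw [hC1def, div_mul_eq_mul_div, div_div]
          refine div_le_div_of_nonneg_left (mul_nonneg hC1v0 hY) (mul_pos hcm hr) ?_
          have : cv * min (π.zs / 2) 1 ≤ cv := by nlinarith
          exact mul_le_mul_of_nonneg_right this hr.le
  have hSm := skw_in_Smono hV hD
  have hyp : SkwHyp ⟨π.zs, M0, Lq, Cf, C1, Cp, Cadj⟩ (skwInD π i) :=
    { x0 := hN.x0
      xU := hN.xU
      U1 := hU1'
      Z1 := hN.Z1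
      b0 := hN.b0
      b1 := hN.b1
      t0 := hN.t0
      t1 := hN.t1
      A1 := hN.A1
      zlo0 := hN.zlo0
      zlo1 := hN.zlo1
      zmax := hzm'
      G0 := hG0
      GM := fun z hz => by
        show skwInG π i z ≤ M0
        rw [skw_in_G_act hz.2]; exact (hGa z hz).2
      Gc := by
        show ContinuousOn (skwInG π i) (Icc 0 π.zs)
        exact hGc.continuousOn.congr fun z hz => skw_in_G_act hz.2
      Gi := hV.Gint
      adj := HA i _ _ hN.ell1 hN.ell2 hN.lam0 (hκ1.trans hlam01) (fun z hz => (hGa z hz).1) rfl rfl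
        (fun z hz => skw_in_G_act hz.2) hN.b0 hN.tn
      Smono := hSm
      S0 := fun z hz => hD.S0 _ (skw_in_V_mem hV hz)
      S1 := fun z hz => hD.S1 _ (skw_in_V_mem hV hz)
      qlip := fun z hz z' hz' => skw_in_qlip hzs.le hLq0 hD hz.1 hz'.1
      q0 := fun z hz => hD.G0 _ (skw_in_min_mem hzs.le hz.1)
      q1 := fun z hz => hD.G1 _ (skw_in_min_mem hzs.le hz.1)
      fr := HS (skwInD π i) hU0 hN.Z1 hN.zlo0 hzm' hN.zloY hG0
        (fun z hz => by
          show π.cA / 2 ≤ skwInG π i z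
          rw [skw_in_G_act (hz.2.trans hz0s)]; exact hGlow z hz)
        hV.Gint hSm (fun z hz => hD.S0 _ (skw_in_V_mem hV hz)) (fun z hz => hD.S1 _ (skw_in_V_mem hV hz))
        (fun z hz z' hz' => skw_in_qlip hzs.le hLq0 hD hz.1 hz'.1)
        (by
          show i.Gm (min 0 π.zs) = 0
          rw [min_eq_left hzs.le]; exact hD.G00)
        (fun z hz => hD.G0 _ (skw_in_min_mem hzs.le hz.1)) (fun z hz => hD.G1 _ (skw_in_min_mem hzs.le hz.1)) hD1
      D1 := hD1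
      Hx0 := fun z _ => skw_in_Hx0 z
      Hxlip := fun z _ z' _ => skw_in_Hxlip z z'
      Hxr := fun z hz => skw_in_Hxr hE0 hE4 hE1 hz }
  have hU4 : 0 ≤ i.U ^ 4 := by positivity
  have hUE : 0 ≤ i.U ^ 4 / i.E ^ 2 := by positivity
  have hmassE : ∫ z in (π.zs - i.E)..π.zs, skwInG π i z = i.ell * (i.U ^ 4 / i.E ^ 2) := by
    rw [skw_in_int_act (by linarith) le_rfl]; exact hEmass hEz
  have hmassP : ∫ z in π.zs..(i.pf π).zmax, skwInG π i z = i.ell * (1 - π.ptop) := by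
    rw [hV.mass π.zs ⟨hzs.le, hzm'⟩ _ ⟨h0m, le_rfl⟩, hV.vmax, hV.vs]; ring
  have htinyU : i.tiny ≤ i.U := by
    have hx1 : i.x ≤ 1 := hN.xU.trans hU1'
    calc i.tiny ≤ i.x ^ 12 := hN.t1
      _ ≤ i.x ^ 1 := pow_le_pow_of_le_one hN.x0.le hx1 (by norm_num)
      _ = i.x := pow_one _
      _ ≤ i.U := hN.xU
  have plat : SkwPlat ⟨π.zs, M0, Lq, Cf, C1, Cp, Cadj⟩ (skwInD π i) :=
    { E0 := hE0
      E1 := hE4
      E2 := hE1
      massE_lo := by
        show i.U ^ 4 / i.E ^ 2 ≤ ∫ z in (π.zs - i.E)..π.zs, skwInG π i z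
        rw [hmassE]; nlinarith [hN.ell1]
      massE_hi := by
        show ∫ z in (π.zs - i.E)..π.zs, skwInG π i z ≤ 2 * i.U ^ 4 / i.E ^ 2
        rw [hmassE, mul_div_assoc]; nlinarith [hN.ell2]
      Hx := fun z => rfl
      qconst := fun z hz => by
        show i.Gm (min z π.zs) = i.Gm (min π.zs π.zs)
        rw [min_eq_right hz.1, min_self]
      D1mac := by
        show ∫ z in (π.zs / 2)..(i.pf π).zmax, skwF (skwInD π i) z ^ 2 * skwInG π i z ≤ C1 * (i.U * i.Z) ^ 4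
        refine (hT (π.zs / 2) ⟨by linarith [hN.zlo1], by linarith⟩).trans (le_of_eq ?_)
        rw [hC1def, div_mul_eq_mul_div]; rfl
      hlip := fun z hz z' hz' => (hPF.hlip z hz z' hz').trans (by linarith [abs_nonneg (z - z')])
      hjoin_lo := hPF.hjoin_lo
      hjoin_hi := hPF.hjoin_hi.trans (mul_le_mul_of_nonneg_right hCp_a hE0.le)
      hup := fun z hz => (hPF.hup z hz).trans (by linarith)
      Gh_lo := fun z hz => by
        show i.U ^ 4 / Cp ≤ skwInG π i z * (i.pf π).hpl z ^ 3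
        rw [skw_in_G_pl hz.1]
        refine le_trans ?_ (hPF.Gh_lo z ⟨hz.1.le, hz.2⟩)
        show i.U ^ 4 / Cp ≤ i.ell * i.U ^ 4 / 2
        rw [div_le_div_iff₀ hCp0' (by norm_num)]
        nlinarith [hN.ell1, mul_nonneg hU4 (by linarith : (0:ℝ) ≤ Cp - 2), mul_nonneg (mul_nonneg hU4 hCp0'.le) (by linarith [hN.ell1] : (0:ℝ) ≤ i.ell - 1)]
      Gh_hi := fun z hz => by
        show skwInG π i z * (i.pf π).hpl z ^ 3 ≤ Cp * i.U ^ 4
        rw [skw_in_G_pl hz.1]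
        refine (hPF.Gh_hi z ⟨hz.1.le, hz.2⟩).trans ?_
        show i.ell * i.U ^ 4 ≤ Cp * i.U ^ 4
        exact mul_le_mul_of_nonneg_right (by linarith [hN.ell2]) hU4
      strip := fun z hz => by
        show 1 / Cp ≤ (i.pf π).hpl z
        have h1 : 1 / Cp ≤ 1 / 2 := one_div_le_one_div_of_le (by norm_num) hCp_b
        have hz1 : (i.pf π).zmax - 1 / Cp ≤ z := hz.1
        have hz' : z ∈ Icc (i.pf π).zs (i.pf π).zmax := ⟨by show π.zs ≤ z; linarith, hz.2⟩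
        have h2 := hPF.hlip z hz' (i.pf π).zmax ⟨hzm', le_rfl⟩
        rw [hPF.htop] at h2
        have hz2 : z ≤ (i.pf π).zmax := hz.2
        have h3 : |z - (i.pf π).zmax| ≤ 1 / Cp := by
          rw [abs_le]; constructor <;> linarith [one_div_pos.2 hCp0']
        have h4 := (abs_le.1 h2).1
        linarith
      len_lo := by
        show π.zs + 2 / Cp ≤ (i.pf π).zmax
        have : 2 / Cp ≤ 1 := by rw [div_le_one hCp0']; exact hCp_b
        linarith
      len_hi := by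
        show (i.pf π).zmax ≤ Cp
        exact hPF.len_hi.trans hCp_c
      bud := by
        show ∫ z in π.zs..(i.pf π).zmax, skwInG π i z * (i.pf π).hpl z ^ 2 ≤ Cp * (1 + Real.log (1 / i.tiny)) * i.U ^ 4
        rw [skw_in_int_pl (fun z => (i.pf π).hpl z ^ 2) le_rfl hzm']
        refine hPF.bud.trans ?_
        show Cp0 * (1 + Real.log (1 / i.U)) * i.U ^ 4 ≤ Cp * (1 + Real.log (1 / i.tiny)) * i.U ^ 4
        have hl : Real.log (1 / i.U) ≤ Real.log (1 / i.tiny) :=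
          Real.log_le_log (by positivity) (one_div_le_one_div_of_le hN.t0 htinyU)
        have hl0 : 0 ≤ Real.log (1 / i.U) := Real.log_nonneg (by rw [le_div_iff₀ hU0]; linarith)
        refine mul_le_mul_of_nonneg_right ?_ hU4
        exact mul_le_mul hCp_a (by linarith) (by linarith) hCp0'.le
      up := fun z hz => by
        show i.U ^ 4 / Cp ≤ (i.pf π).hpl z ^ 2 * ((∫ s in z..(i.pf π).zmax, skwInG π i s) + i.U ^ 4)
        have hz1 : π.zs ≤ z := hz.1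
        have hz2 : z ≤ (i.pf π).zmax := hz.2
        rw [skw_in_int_pl' hz1 hz2]
        exact (div_le_self hU4 (by linarith)).trans (hPF.up z hz)
      dn := fun z hz => by
        show i.U ^ 4 / Cp ≤ (i.pf π).hpl z ^ 2 * ((∫ s in π.zs..z, skwInG π i s) + i.U ^ 4 / i.E ^ 2)
        have hz1 : π.zs ≤ z := hz.1
        rw [skw_in_int_pl' le_rfl hz1]
        exact (div_le_self hU4 (by linarith)).trans (hPF.dn z hz)
      mass := by
        show 1 / Cp ≤ ∫ z in π.zs..(i.pf π).zmax, skwInG π i z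
        rw [hmassP]
        have h1 : 1 / Cp ≤ 1 - π.ptop := by
          rw [div_le_iff₀ hCp0']
          have := (div_le_iff₀ hpt1).1 hCp_d
          linarith
        nlinarith [hN.ell1]
      mass_hi := by
        show ∫ z in π.zs..(i.pf π).zmax, skwInG π i z ≤ Cp
        rw [hmassP]
        nlinarith [hN.ell2, hN.ell1, hπ.pt0] }
  exact ⟨hyp, plat, hV⟩

end Claimed.Agent.R286
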