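import Claimed.Agent.R286.W.Defs

/-!
# Row 286, folder W, file PlatF : the explicit plateau coordinate of LL sec. 8.2 (l.82-99) and its CONTRACT      (helper37; prefix `SkwPF`)

`w = v/ℓ ∈ [p_top, 1]`,  `dz = U² [(1-w+d₊)^(-3/2) + (w-p_top+d₋)^(-3/2)] dw`,  `d₊ = U⁴`, `d₋ = U⁴/E²`,
`𝔥 = max(U²/√(w-p_top+d₋), U²/√(1-w+d₊))`.   Leaf PLF: these formulas satisfy the plateau fields of `SkwPlat`.
-/

set_option autoImplicit false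

namespace Claimed.Agent.R286

open Set MeasureTheory

/-- parameters of the plateau -/
structure SkwPF where
  U : ℝ
  E : ℝ
  ptop : ℝ
  ell : ℝ
  zs : ℝ

namespace SkwPF

/-- `d₊` -/
def dp (p : SkwPF) : ℝ := p.U ^ 4
/-- `d₋` -/
noncomputable def dm (p : SkwPF) : ℝ := p.U ^ 4 / p.E ^ 2

/-- the coordinate `z` as a function of `w` -/
noncomputable def zof (p : SkwPF) (w : ℝ) : ℝ :=
  p.zs + 2 * p.U ^ 2 * (1 / Real.sqrt (1 - w + p.dp) - 1 / Real.sqrt (1 - p.ptop + p.dp)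
    + 1 / Real.sqrt p.dm - 1 / Real.sqrt (w - p.ptop + p.dm))

/-- `dz/dw` -/
noncomputable def dz (p : SkwPF) (w : ℝ) : ℝ :=
  p.U ^ 2 * (1 / ((1 - w + p.dp) * Real.sqrt (1 - w + p.dp)) + 1 / ((w - p.ptop + p.dm) * Real.sqrt (w - p.ptop + p.dm)))

noncomputable def zmax (p : SkwPF) : ℝ := p.zof 1

/-- the inverse coordinate -/
noncomputable def wof (p : SkwPF) (z : ℝ) : ℝ := sSup {w : ℝ | w ∈ Icc p.ptop 1 ∧ p.zof w ≤ z}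

/-- `G = dv/dz` on the plateau -/
noncomputable def G (p : SkwPF) (z : ℝ) : ℝ := p.ell / p.dz (p.wof z)

/-- the width as a function of `w` -/
noncomputable def hw (p : SkwPF) (w : ℝ) : ℝ :=
  max (p.U ^ 2 / Real.sqrt (w - p.ptop + p.dm)) (p.U ^ 2 / Real.sqrt (1 - w + p.dp))

/-- the plateau width -/
noncomputable def hpl (p : SkwPF) (z : ℝ) : ℝ := p.hw (p.wof z)

end SkwPF

/-- what the explicit formulas give -/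
structure SkwPFConcl (Cp : ℝ) (p : SkwPF) : Prop where
  zof_ptop : p.zof p.ptop = p.zs
  zof_mono : StrictMonoOn p.zof (Icc p.ptop 1)
  zof_deriv : ∀ w ∈ Icc p.ptop 1, HasDerivAt p.zof (p.dz w) w
  wof_zof : ∀ w ∈ Icc p.ptop 1, p.wof (p.zof w) = w
  zof_wof : ∀ z ∈ Icc p.zs p.zmax, p.zof (p.wof z) = z
  wof_mem : ∀ z ∈ Icc p.zs p.zmax, p.wof z ∈ Icc p.ptop 1
  wof_cont : ContinuousOn p.wof (Icc p.zs p.zmax)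
  G_pos : ∀ z ∈ Icc p.zs p.zmax, 0 < p.G z
  G_cont : ContinuousOn p.G (Icc p.zs p.zmax)
  /-- change of variables: mass of a `z`-interval -/
  mass_eq : ∀ z₁ ∈ Icc p.zs p.zmax, ∀ z₂ ∈ Icc p.zs p.zmax, ∫ z in z₁..z₂, p.G z = p.ell * (p.wof z₂ - p.wof z₁)
  hlip : ∀ z ∈ Icc p.zs p.zmax, ∀ z' ∈ Icc p.zs p.zmax, |p.hpl z - p.hpl z'| ≤ |z - z'| / 2
  hjoin_lo : p.E ≤ p.hpl p.zs
  hjoin_hi : p.hpl p.zs ≤ Cp * p.E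
  hup : ∀ z ∈ Icc p.zs p.zmax, p.hpl z ≤ 1
  htop : p.hpl p.zmax = 1
  Gh_lo : ∀ z ∈ Icc p.zs p.zmax, p.ell * p.U ^ 4 / 2 ≤ p.G z * p.hpl z ^ 3
  Gh_hi : ∀ z ∈ Icc p.zs p.zmax, p.G z * p.hpl z ^ 3 ≤ p.ell * p.U ^ 4
  len_lo : p.zs + 1 ≤ p.zmax
  len_hi : p.zmax ≤ p.zs + 4
  bud : ∫ z in p.zs..p.zmax, p.G z * p.hpl z ^ 2 ≤ Cp * (1 + Real.log (1 / p.U)) * p.U ^ 4
  up : ∀ z ∈ Icc p.zs p.zmax, p.U ^ 4 ≤ p.hpl z ^ 2 * ((∫ s in z..p.zmax, p.G s) + p.U ^ 4)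
  dn : ∀ z ∈ Icc p.zs p.zmax, p.U ^ 4 ≤ p.hpl z ^ 2 * ((∫ s in p.zs..z, p.G s) + p.U ^ 4 / p.E ^ 2)

/-- **Leaf PLF**.  `M0` : the bound `U⁴ ≤ M0 E³` (from `mass(last E) ≤ M0 E`). -/
def SkwLeafPF : Prop :=
  ∀ ptop M0 : ℝ, 0 < ptop → ptop < 1 → 1 ≤ M0 → ∃ Cp : ℝ, 1 ≤ Cp ∧ ∀ p : SkwPF, p.ptop = ptop →
    1 ≤ p.ell → p.ell ≤ 2 → 0 < p.U → p.U ≤ 1 / Cp → 0 < p.E → p.E ≤ 1 → p.U ^ 4 ≤ M0 * p.E ^ 3 → SkwPFConcl Cp p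

end Claimed.Agent.R286
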