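import Claimed.Agent.R286.W.Leaves
import Claimed.Agent.R286.W.PlatF

/-!
# Row 286 (S0533), folder W, file InstDefs : THE INSTANCE of the width construction, objects and CONTRACTS      (helper246; prefix `SkwIn` / `skwIn` / `skw_in_`)

`SkwHyp c d`, `SkwPlat c d` (W/Defs.lean) are abstract hypotheses.  Here they are CONSTRUCTED from what LL Section 3 knows about a direct path:
* `SkwProf`  : the fixed scalar profile seen from the active side: `ξ_*`, `p_top`, a smooth `At` with `A_0 = At` on `[0, ξ_*)` (LL Lemma 3.1), the cut-off `P` (03 l.113);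
* `SkwIn`    : the numbers of one instance + `Sv`, `qv` (functions of the MASS `v`; `Sv` may be a step function: fine level) + `Gm = Γ̂` (function of `ξ`);
* `skwInV`   : the mass `v(z)` (`= ℓ A_λ(z)` active, `= ℓ w(z)` plateau), `skwInG = dv/dz`, `skwInD` : the record `SkwD`.
Still PURE REAL ANALYSIS.  The link `LlPt → (SkwProf, SkwIn)` is W/InstLl.lean.
(D1) enters in TAIL form in the mass: `∫_r^ℓ (Sv - qv)² dv ≤ C1v Y⁴ / r` for `v(zlo/4) ≤ r ≤ ℓ` (dyadic form ⇒ tail form: leaf `SkwLeafInTail`).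
Every `def SkwLeafIn.. : Prop` is one leaf: prove `theorem skw_leaf_in.. : SkwLeafIn..` in the file named in its docstring.
-/

set_option autoImplicit false

namespace Claimed.Agent.R286

open Set MeasureTheory

/-- the fixed scalar profile, active side -/
structure SkwProf where
  /-- `ξ_*` -/
  zs : ℝ
  ptop : ℝ
  /-- `P = 0` after `z0`; `A_0' ≥ cA` up to `2 z0` -/
  z0 : ℝ
  cA : ℝ
  /-- smooth representative of `A_0` on the active side -/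
  At : ℝ → ℝ
  P : ℝ → ℝ

/-- LL Lemma 3.1 (`paths:base-profile`) + the choice of `z0`, `P` (03 l.111-117).  `r` = finite order of smoothness of the representative `At`
(83: the tower of `LlBaseProfile` lives on the closed interval; a `C^r` extension to `ℝ` is elementary, a `C^∞` one is not). -/
structure SkwProf.Ok (π : SkwProf) (r : ℕ) : Prop where
  z00 : 0 < π.z0
  z0s : 2 * π.z0 ≤ π.zs
  pt0 : 0 < π.ptop
  pt1 : π.ptop < 1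
  cA0 : 0 < π.cA
  At_sm : ContDiff ℝ r π.At
  P_sm : ContDiff ℝ r π.P
  At0 : π.At 0 = 0
  Atz : π.At π.zs = π.ptop
  dAt : ∀ ξ ∈ Icc 0 π.zs, 0 ≤ deriv π.At ξ
  dAt0 : ∀ ξ ∈ Icc 0 (2 * π.z0), π.cA ≤ deriv π.At ξ
  /-- full support: no gap below `ξ_*` -/
  smono : StrictMonoOn π.At (Icc 0 π.zs)
  P0 : π.P 0 = 0
  P_zero : ∀ ξ, π.z0 ≤ ξ → π.P ξ = 0

/-- one instance -/
structure SkwIn where
  ell : ℝ
  lam : ℝ
  x : ℝ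
  U : ℝ
  Z : ℝ
  b : ℝ
  tiny : ℝ
  A : ℝ
  E : ℝ
  zlo : ℝ
  /-- `S_v` as a function of the mass -/
  Sv : ℝ → ℝ
  /-- `q(v)` as a function of the mass -/
  qv : ℝ → ℝ
  /-- `Γ̂(ξ)` -/
  Gm : ℝ → ℝ

/-- the plateau parameters -/
def SkwIn.pf (i : SkwIn) (π : SkwProf) : SkwPF := ⟨i.U, i.E, π.ptop, i.ell, π.zs⟩

/-- `A_λ = A_0 + λ P` -/
def skwInA (π : SkwProf) (i : SkwIn) (ξ : ℝ) : ℝ := π.At ξ + i.lam * π.P ξ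

/-- active density `ℓ A_λ'` -/
noncomputable def skwInGa (π : SkwProf) (i : SkwIn) (z : ℝ) : ℝ := i.ell * (deriv π.At z + i.lam * deriv π.P z)

/-- the mass `v(z)` -/
noncomputable def skwInV (π : SkwProf) (i : SkwIn) (z : ℝ) : ℝ :=
  if z ≤ π.zs then i.ell * skwInA π i z else i.ell * (i.pf π).wof z

/-- `G = dv/dz` -/
noncomputable def skwInG (π : SkwProf) (i : SkwIn) (z : ℝ) : ℝ :=
  if z ≤ π.zs then skwInGa π i z else (i.pf π).G z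

/-- the two endpoint functions -/
noncomputable def skwInHx (π : SkwProf) (i : SkwIn) (z : ℝ) : ℝ :=
  max (max 0 (i.E / 2 - (π.zs - z))) (max 0 (2 * min i.E i.b - max 0 (π.zs - z - i.E)))

/-- **the record of the direct path** -/
noncomputable def skwInD (π : SkwProf) (i : SkwIn) : SkwD where
  x := i.x
  U := i.U
  Z := i.Z
  b := i.b
  tiny := i.tiny
  A := i.A
  E := i.E
  zlo := i.zlo
  zmax := (i.pf π).zmax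
  G := skwInG π i
  S := fun z => i.Sv (skwInV π i z)
  q := fun z => i.Gm (min z π.zs)
  hpl := (i.pf π).hpl
  Hx := skwInHx π i

theorem skwInA_eqns_cite (π : SkwProf) (i : SkwIn) (ξ : ℝ) : skwInA π i ξ = π.At ξ + i.lam * π.P ξ := rfl
theorem skwInGa_eqns_cite (π : SkwProf) (i : SkwIn) (z : ℝ) :
    skwInGa π i z = i.ell * (deriv π.At z + i.lam * deriv π.P z) := rfl
theorem skwInV_eqns_cite (π : SkwProf) (i : SkwIn) (z : ℝ) :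
    skwInV π i z = if z ≤ π.zs then i.ell * skwInA π i z else i.ell * (i.pf π).wof z := rfl
theorem skwInG_eqns_cite (π : SkwProf) (i : SkwIn) (z : ℝ) :
    skwInG π i z = if z ≤ π.zs then skwInGa π i z else (i.pf π).G z := rfl
theorem skwInHx_eqns_cite (π : SkwProf) (i : SkwIn) (z : ℝ) :
    skwInHx π i z = max (max 0 (i.E / 2 - (π.zs - z))) (max 0 (2 * min i.E i.b - max 0 (π.zs - z - i.E))) := rfl
theorem SkwIn.pf_eqns_cite (i : SkwIn) (π : SkwProf) : i.pf π = ⟨i.U, i.E, π.ptop, i.ell, π.zs⟩ := rfl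

/-- the numerical hypotheses on an instance.  `κ0` : smallness of `λ`, `U`;  `n`, `Mn` : Taylor order and bound of `G^(n)`
(`b = x^ε`, `tiny = x^K`: `Mn b^n ≤ tiny` as soon as `n ε > K` and `N` is large);  `Klo` : `zlo ≳ min(Y,1)`. -/
structure SkwIn.Num (i : SkwIn) (π : SkwProf) (κ0 Mn Klo : ℝ) (n : ℕ) : Prop where
  ell1 : 1 ≤ i.ell
  ell2 : i.ell ≤ 2
  lam0 : 0 ≤ i.lam
  lam1 : i.lam ≤ κ0
  x0 : 0 < i.x
  xU : i.x ≤ i.U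
  U1 : i.U ≤ κ0
  Z1 : 1 ≤ i.Z
  b0 : 0 < i.b
  b1 : i.b ≤ 1 / 8
  t0 : 0 < i.tiny
  t1 : i.tiny ≤ i.x ^ 12
  tn : Mn * i.b ^ n ≤ i.tiny
  A1 : 1 ≤ i.A
  E0 : 0 < i.E
  Es : i.E ≤ π.zs
  /-- the definition of `E_b` (03 l.421; `Ũ = U` since `U ≤ U_0`) -/
  Eeq : π.ptop - π.At (π.zs - i.E) = i.U ^ 4 / i.E ^ 2
  zlo0 : 0 < i.zlo
  zlo1 : i.zlo ≤ π.zs / 4
  zloY : min (i.U * i.Z) 1 ≤ Klo * i.zlo

/-- the hypotheses on the mean `S` and the reference `q` -/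
structure SkwIn.Dev (i : SkwIn) (π : SkwProf) (Lq C1v : ℝ) : Prop where
  Smono : MonotoneOn i.Sv (Icc 0 i.ell)
  S0 : ∀ v ∈ Icc 0 i.ell, 0 ≤ i.Sv v
  S1 : ∀ v ∈ Icc 0 i.ell, i.Sv v ≤ 1
  Glip : ∀ ξ ∈ Icc 0 π.zs, ∀ ξ' ∈ Icc 0 π.zs, |i.Gm ξ - i.Gm ξ'| ≤ Lq * |ξ - ξ'|
  G00 : i.Gm 0 = 0
  G0 : ∀ ξ ∈ Icc 0 π.zs, 0 ≤ i.Gm ξ
  G1 : ∀ ξ ∈ Icc 0 π.zs, i.Gm ξ ≤ 1
  /-- `q(v(z)) = Γ̂(min(z, ξ_*))` -/
  qG : ∀ z ∈ Icc 0 (i.pf π).zmax, i.qv (skwInV π i z) = i.Gm (min z π.zs)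
  /-- (D1), tail form in the mass, for `r ≥ v(zlo/4)` (the paper has `r ≳ U`: take `zlo = c₁ Y` with `c₁ ≥ 4 / cv`, then `v(zlo/4) ≥ cv zlo / 4 ≥ U`) -/
  D1v : ∀ r, skwInV π i (i.zlo / 4) ≤ r → r ≤ i.ell → ∫ v in r..i.ell, (i.Sv v - i.qv v) ^ 2 ≤ C1v * (i.U * i.Z) ^ 4 / r

/-! ## Leaves -/

/-- **Leaf IN-G** (file W/InstG.lean, prefix `skw_ig_`): the active density.  `A_λ' ≥ 0`: on `[0, z0]` by `A_0' ≥ cA` and `λ |P'| ≤ cA/2`; after `z0`, `P = 0`. -/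
def SkwLeafInG : Prop :=
  ∀ (π : SkwProf) (r : ℕ), 2 ≤ r → π.Ok r → ∃ M0 lam0 : ℝ, 1 ≤ M0 ∧ 0 < lam0 ∧ lam0 ≤ 1 ∧ ∀ i : SkwIn, 1 ≤ i.ell → i.ell ≤ 2 → 0 ≤ i.lam → i.lam ≤ lam0 →
    (∀ z ∈ Icc 0 π.zs, 0 ≤ skwInGa π i z ∧ skwInGa π i z ≤ M0) ∧
    (∀ z ∈ Icc 0 (2 * π.z0), π.cA / 2 ≤ skwInGa π i z) ∧
    (∀ z, π.z0 < z → skwInGa π i z = i.ell * deriv π.At z) ∧
    Continuous (skwInGa π i) ∧
    (∀ z, HasDerivAt (fun ξ => i.ell * skwInA π i ξ) (skwInGa π i z) z) ∧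
    StrictMonoOn (skwInA π i) (Icc 0 π.zs) ∧
    skwInA π i 0 = 0 ∧ skwInA π i π.zs = π.ptop

/-- **Leaf IN-ADJ** (file W/InstAdj.lean, prefix `skw_ia_`): `SkwAdj` from the smoothness of the profile, via `skw_leaf_adj` (W/Adj.lean).
`Cadj κ := C(n,κ) κ^n`, `Mn := sup_{[0,zs]} 2 (|At^(n+1)| + |P^(n+1)|)`; `l ≤ κ b ⇒ Mn l^n ≤ κ^n tiny`. -/
def SkwLeafInAdj : Prop :=
  ∀ (π : SkwProf) (r n : ℕ), n + 1 ≤ r → π.Ok r → ∃ (Mn : ℝ) (Cadj : ℝ → ℝ), 0 ≤ Mn ∧ (∀ κ, 1 ≤ Cadj κ) ∧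
    ∀ (i : SkwIn) (c : SkwC) (d : SkwD), 1 ≤ i.ell → i.ell ≤ 2 → 0 ≤ i.lam → i.lam ≤ 1 →
      (∀ z ∈ Icc 0 π.zs, 0 ≤ skwInGa π i z) → c.zs = π.zs → c.Cadj = Cadj → (∀ z ∈ Icc 0 π.zs, d.G z = skwInGa π i z) →
      0 < d.b → Mn * d.b ^ n ≤ d.tiny → SkwAdj c d

/-- **Leaf IN-E** (file W/InstE.lean, prefix `skw_ie_`): `E_b` is small when `U` is small (strict increase of `A_0` below `ξ_*`), the last active interval of length `E`. -/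
def SkwLeafInE : Prop :=
  ∀ (π : SkwProf) (r : ℕ), 2 ≤ r → π.Ok r → ∀ M0 : ℝ, 1 ≤ M0 → ∀ E1 : ℝ, 0 < E1 → ∃ U1 : ℝ, 0 < U1 ∧ U1 ≤ 1 ∧ ∀ i : SkwIn, 1 ≤ i.ell → i.ell ≤ 2 →
    (∀ z ∈ Icc 0 π.zs, skwInGa π i z ≤ M0) → (∀ z, π.z0 < z → skwInGa π i z = i.ell * deriv π.At z) →
    0 < i.U → i.U ≤ U1 → 0 < i.E → i.E ≤ π.zs → π.ptop - π.At (π.zs - i.E) = i.U ^ 4 / i.E ^ 2 →
    i.E ≤ E1 ∧ (i.E < π.zs - π.z0 → ∫ z in (π.zs - i.E)..π.zs, skwInGa π i z = i.ell * (i.U ^ 4 / i.E ^ 2)) ∧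
    (i.E < π.zs - π.z0 → i.U ^ 4 ≤ M0 * i.E ^ 3)

/-- what the mass coordinate satisfies -/
structure SkwInVConcl (cv : ℝ) (π : SkwProf) (i : SkwIn) : Prop where
  v0 : skwInV π i 0 = 0
  vs : skwInV π i π.zs = i.ell * π.ptop
  vmax : skwInV π i (i.pf π).zmax = i.ell
  cont : ContinuousOn (skwInV π i) (Icc 0 (i.pf π).zmax)
  mono : StrictMonoOn (skwInV π i) (Icc 0 (i.pf π).zmax)
  lower : ∀ z ∈ Icc 0 (i.pf π).zmax, cv * skwR z ≤ skwInV π i z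
  upper : ∀ z ∈ Icc 0 (i.pf π).zmax, skwInV π i z ≤ skwR z / cv
  Gint : IntervalIntegrable (skwInG π i) volume 0 (i.pf π).zmax
  mass : ∀ z₁ ∈ Icc 0 (i.pf π).zmax, ∀ z₂ ∈ Icc 0 (i.pf π).zmax, ∫ z in z₁..z₂, skwInG π i z = skwInV π i z₂ - skwInV π i z₁
  /-- change of variables `dv = G dz`, ANY integrand (Mathlib: `integral_Icc_deriv_smul_of_deriv_nonneg`) -/
  cov : ∀ (g : ℝ → ℝ), ∀ z₁ ∈ Icc 0 (i.pf π).zmax, ∀ z₂ ∈ Icc 0 (i.pf π).zmax, z₁ ≤ z₂ →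
    ∫ z in z₁..z₂, g (skwInV π i z) * skwInG π i z = ∫ v in (skwInV π i z₁)..(skwInV π i z₂), g v

/-- **Leaf IN-V** (file W/InstV.lean, prefix `skw_iv_`): the mass coordinate, from the conclusions of IN-G and of PLF (`SkwPFConcl`). -/
def SkwLeafInV : Prop :=
  ∀ (π : SkwProf) (r : ℕ), 2 ≤ r → π.Ok r → ∀ M0 Cp : ℝ, 1 ≤ M0 → 1 ≤ Cp → ∃ cv : ℝ, 0 < cv ∧ cv ≤ 1 ∧ ∀ i : SkwIn, 1 ≤ i.ell → i.ell ≤ 2 →
    (∀ z ∈ Icc 0 π.zs, 0 ≤ skwInGa π i z ∧ skwInGa π i z ≤ M0) → (∀ z ∈ Icc 0 (2 * π.z0), π.cA / 2 ≤ skwInGa π i z) →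
    Continuous (skwInGa π i) → (∀ z, HasDerivAt (fun ξ => i.ell * skwInA π i ξ) (skwInGa π i z) z) →
    StrictMonoOn (skwInA π i) (Icc 0 π.zs) → skwInA π i 0 = 0 → skwInA π i π.zs = π.ptop →
    SkwPFConcl Cp (i.pf π) → SkwInVConcl cv π i

/-- **Leaf IN-S1** (file W/InstS.lean, prefix `skw_is_`; LL 08 l.113-115, S1 of 37): `|f| ≤ Cf r` on `[zlo/4, zmax]`, in the vocabulary of W/Defs.
Proof: `ρ = max(z, min(Y,..))`; if `S(z) ≥ 4 Lq ρ` and `2ρ ≤ zr` then `f ≥ S(z)/2` on `[ρ, 2ρ]`, where `G ≥ cG`: (D1) gives `S(z)² ≤ 4 C1 Y⁴/(cG ρ²)`. -/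
def SkwLeafInS1 : Prop :=
  ∀ zs Lq C1 cG zr Klo : ℝ, 0 < zs → 1 ≤ Lq → 1 ≤ C1 → 0 < cG → 0 < zr → zr ≤ zs → 1 ≤ Klo → ∃ Cf : ℝ, 1 ≤ Cf ∧ ∀ d : SkwD,
    0 < d.U → 1 ≤ d.Z → 0 < d.zlo → zs ≤ d.zmax → min (d.U * d.Z) 1 ≤ Klo * d.zlo →
    (∀ z ∈ Icc 0 d.zmax, 0 ≤ d.G z) → (∀ z ∈ Icc 0 zr, cG ≤ d.G z) → IntervalIntegrable d.G volume 0 d.zmax →
    MonotoneOn d.S (Icc 0 d.zmax) → (∀ z ∈ Icc 0 d.zmax, 0 ≤ d.S z) → (∀ z ∈ Icc 0 d.zmax, d.S z ≤ 1) →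
    (∀ z ∈ Icc 0 d.zmax, ∀ z' ∈ Icc 0 d.zmax, |d.q z - d.q z'| ≤ Lq * |z - z'|) → d.q 0 = 0 →
    (∀ z ∈ Icc 0 d.zmax, 0 ≤ d.q z) → (∀ z ∈ Icc 0 d.zmax, d.q z ≤ 1) →
    (∀ ρ ∈ Icc (d.zlo / 4) d.zmax, ∫ z in ρ..(min (2 * ρ) d.zmax), skwF d z ^ 2 * d.G z ≤ C1 * (d.U * d.Z) ^ 4 / skwR ρ) →
    ∀ z ∈ Icc (d.zlo / 4) d.zmax, |skwF d z| ≤ Cf * skwR z

/-- **Leaf IN-TAIL** (file W/InstS.lean): dyadic (D1) in the mass ⇒ tail form.  `F ≥ 0` integrable on `[U, ℓ]`. -/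
def SkwLeafInTail : Prop :=
  ∀ (F : ℝ → ℝ) (U ell B : ℝ), 0 < U → U ≤ ell → 0 ≤ B → (∀ v ∈ Icc U ell, 0 ≤ F v) → IntervalIntegrable F volume U ell →
    (∀ r ∈ Icc U ell, r * ∫ v in r..(min (2 * r) ell), F v ≤ B) → ∀ r ∈ Icc U ell, ∫ v in r..ell, F v ≤ 2 * B / r

/-- **the instance theorem, direct path** (file W/Inst.lean, prefix `skw_in_`).  Order: profile, Taylor order `n`, constants of `q`, (D1), `zlo`;
then the structural constants `c`, the smallness `κ0` and `Mn`; then the instance. -/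
def SkwInstDirect : Prop :=
  ∀ (π : SkwProf) (r n : ℕ), 2 ≤ r → n + 1 ≤ r → π.Ok r → ∀ (Lq C1v Klo : ℝ), 1 ≤ Lq → 1 ≤ C1v → 1 ≤ Klo →
    ∃ (c : SkwC) (κ0 Mn cv : ℝ), c.Ok ∧ c.zs = π.zs ∧ 0 < κ0 ∧ 0 ≤ Mn ∧ 0 < cv ∧
      ∀ i : SkwIn, i.Num π κ0 Mn Klo n → i.Dev π Lq C1v →
        SkwHyp c (skwInD π i) ∧ SkwPlat c (skwInD π i) ∧ SkwInVConcl cv π i

end Claimed.Agent.R286
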