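import Claimed.Agent.R286.W.InstDefs
import Claimed.Agent.R286.LL.PathsDefs

/-!
# Row 286 (S0533), folder W, file InstLl : the width construction FOR THE DIRECT PATHS `LlPt` of LL Section 3: objects and CONTRACTS      (typed by helper246; OWNER from 03:10Z: helper83, who may edit; prefix `SkwLl` / `skwLl` / `skw_ll_`)

Link `LlPt → (SkwProf, SkwIn)` (W/InstDefs.lean), the exit `SkwLlDirect` used by PM / IV / PC (LL 08), and the field slope (D3) in the coordinate `z`.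
* `SkwL03` = what W ASKS from LL Section 3 / the scalar unit (owner of the INSTANCE of `SkwL03`: L03 = helper272/253; every field is in LL Lemma 3.1, Lemma 3.2 (P2) or 03 l.111-117).
* `Sv` (the mean `S` as a function of the mass; path level or step function of the fine level), `Z`, `zlo` stay PARAMETERS: statements are per instance, no measurability in `γ`.
* slack `b = x^eps`, artificial constant `tiny = x^K`; Taylor order `n = r - 1` with `n eps > K`.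
Regimes:  standard `zlo = c₁ Y`;  relaxed (LL 08 l.986, `Y` not small) `zlo = ξ_*/4`: both are covered by `min(Y,1) ≤ Klo zlo`.
-/

set_option autoImplicit false

namespace Claimed.Agent.R286

open Set MeasureTheory

/-- the profile of the fixed-temperature reference -/
noncomputable def skwLlProf (𝔹 : LlBase) (F : LlFix) (At : ℝ → ℝ) (cA : ℝ) : SkwProf :=
  ⟨𝔹.xiS F.T, 𝔹.pTop F.T, F.z0, cA, At, F.P⟩

/-- the instance belonging to a direct point -/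
noncomputable def skwLlIn (𝔹 : LlBase) (F : LlFix) (p : LlPt) (Sv : ℝ → ℝ) (Z eps : ℝ) (K : ℕ) (A zlo : ℝ) : SkwIn :=
  ⟨p.ell, p.lam, p.x, p.U F, Z, p.x ^ eps, p.x ^ K, A, p.Eb F 𝔹, zlo, Sv, p.q F 𝔹, p.GamN F 𝔹⟩

theorem skwLlProf_eqns_cite (𝔹 : LlBase) (F : LlFix) (At : ℝ → ℝ) (cA : ℝ) :
    skwLlProf 𝔹 F At cA = ⟨𝔹.xiS F.T, 𝔹.pTop F.T, F.z0, cA, At, F.P⟩ := rfl
theorem skwLlIn_eqns_cite (𝔹 : LlBase) (F : LlFix) (p : LlPt) (Sv : ℝ → ℝ) (Z eps : ℝ) (K : ℕ) (A zlo : ℝ) :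
    skwLlIn 𝔹 F p Sv Z eps K A zlo
      = ⟨p.ell, p.lam, p.x, p.U F, Z, p.x ^ eps, p.x ^ K, A, p.Eb F 𝔹, zlo, Sv, p.q F 𝔹, p.GamN F 𝔹⟩ := rfl

/-- **ASK to LL Section 3** (INSTANCE: `skw_l03`, owner L03).  `At` (a `C^r` representative), `cA`, `Lq` are fixed with `T`, `r` and the cut-offs. -/
structure SkwL03 (𝔹 : LlBase) (F : LlFix) (At : ℝ → ℝ) (cA Lq : ℝ) (r : ℕ) : Prop where
  fix : F.Ok
  /-- LL Lemma 3.1 incl. FULL SUPPORT (strict increase of `A_0` on `[0, ξ_*]`), `A_0(0) = 0`, `A_0(ξ_*-) = p_top`, and `A_0' ≥ cA` up to `2 z0 ≤ ξ_*` (03 l.111) -/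
  prof : (skwLlProf 𝔹 F At cA).Ok r
  A0_act : ∀ ξ ∈ Ico 0 (𝔹.xiS F.T), 𝔹.A0 F.T ξ = At ξ
  A0_top : ∀ ξ, 𝔹.xiS F.T ≤ ξ → 𝔹.A0 F.T ξ = 1
  /-- `v_b` is a small mass (03 l.372: the inverse density is regular up to `8 v_b`): the matrix clock is constant on the plateau -/
  vb8 : 8 * F.vb ≤ 𝔹.pTop F.T
  Lq1 : 1 ≤ Lq
  /-- `0 ≤ Γ̂' ≤ 1/b_∘ ≤ Lq` on the active interval ((P2)), `Γ̂(0) = 0`, `0 ≤ Γ̂ ≤ 1` -/
  Gam : LlUnif F fun p => p.sm = false →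
    (∀ ξ ∈ Icc 0 (𝔹.xiS F.T), ∀ ξ' ∈ Icc 0 (𝔹.xiS F.T), |p.GamN F 𝔹 ξ - p.GamN F 𝔹 ξ'| ≤ Lq * |ξ - ξ'|) ∧
    p.GamN F 𝔹 0 = 0 ∧ ∀ ξ ∈ Icc 0 (𝔹.xiS F.T), 0 ≤ p.GamN F 𝔹 ξ ∧ p.GamN F 𝔹 ξ ≤ 1

/-- **Leaf LL-EB** (file W/InstLlA.lean, prefix `skw_lla_`): `E_b` (an `sInf`) solves its equation.  `E ↦ E² (p_top - A_0(ξ_* - E))` is continuous, strictly increasing on `[0, ξ_*]`, `= 0` at `0`. -/
def SkwLeafLlEb : Prop :=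
  ∀ (𝔹 : LlBase) (F : LlFix) (At : ℝ → ℝ) (cA Lq : ℝ) (r : ℕ), 2 ≤ r → SkwL03 𝔹 F At cA Lq r → ∃ U1 : ℝ, 0 < U1 ∧ U1 ≤ F.U0 / 2 ∧ ∀ p : LlPt,
    0 < p.U F → p.U F ≤ U1 →
    p.Ut F = p.U F ∧ F.Ups (p.U F) = 1 ∧ 0 < p.Eb F 𝔹 ∧ p.Eb F 𝔹 ≤ 𝔹.xiS F.T ∧
    𝔹.pTop F.T - At (𝔹.xiS F.T - p.Eb F 𝔹) = p.U F ^ 4 / p.Eb F 𝔹 ^ 2

/-- **Leaf LL-XI** (file W/InstLlA.lean): the normalised time at the mass `v(z)` is `min(z, ξ_*)`; hence `K`, `q` in the coordinate `z`.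
Hypotheses = conclusions of IN-G and PLF for this instance. -/
def SkwLeafLlXi : Prop :=
  ∀ (𝔹 : LlBase) (F : LlFix) (At : ℝ → ℝ) (cA Lq : ℝ) (r : ℕ), 2 ≤ r → SkwL03 𝔹 F At cA Lq r → ∀ (p : LlPt) (i : SkwIn) (Cp : ℝ),
    p.sm = false → 1 ≤ p.ell → i.ell = p.ell → i.lam = p.lam → 0 ≤ p.lam →
    StrictMonoOn (skwInA (skwLlProf 𝔹 F At cA) i) (Icc 0 (𝔹.xiS F.T)) → skwInA (skwLlProf 𝔹 F At cA) i (𝔹.xiS F.T) = 𝔹.pTop F.T →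
    SkwPFConcl Cp (i.pf (skwLlProf 𝔹 F At cA)) →
    ∀ z ∈ Icc 0 (i.pf (skwLlProf 𝔹 F At cA)).zmax,
      p.xi F 𝔹 (skwInV (skwLlProf 𝔹 F At cA) i z) = min z (𝔹.xiS F.T) ∧
      p.K F 𝔹 (skwInV (skwLlProf 𝔹 F At cA) i z) = (p.ell ^ 2)⁻¹ * min z (𝔹.xiS F.T) ∧
      p.q F 𝔹 (skwInV (skwLlProf 𝔹 F At cA) i z) = p.GamN F 𝔹 (min z (𝔹.xiS F.T))

/-- hypotheses on the mean `S` (function of the mass), the majorant `Z` and the lower end `zlo`, for one direct point -/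
structure SkwLlDev (𝔹 : LlBase) (F : LlFix) (π : SkwProf) (p : LlPt) (i : SkwIn) (C1v Klo : ℝ) : Prop where
  Z1 : 1 ≤ i.Z
  zlo0 : 0 < i.zlo
  zlo1 : i.zlo ≤ π.zs / 4
  zloY : min (i.U * i.Z) 1 ≤ Klo * i.zlo
  Smono : MonotoneOn i.Sv (Icc 0 p.ell)
  S0 : ∀ v ∈ Icc 0 p.ell, 0 ≤ i.Sv v
  S1 : ∀ v ∈ Icc 0 p.ell, i.Sv v ≤ 1
  /-- (D1), tail form -/
  D1v : ∀ r, skwInV π i (i.zlo / 4) ≤ r → r ≤ p.ell →
    ∫ v in r..p.ell, (i.Sv v - p.q F 𝔹 v) ^ 2 ≤ C1v * (i.U * i.Z) ^ 4 / r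

/-- **EXIT of unit W for the direct paths** (file W/InstLlB.lean, prefix `skw_llb_`): TEX[LL:lem:statistics-widths].
Constants: `eps, K, C1v, Klo`, order `r > 1 + K/eps` of the representative `At` (Taylor order `n = r - 1`)  ⟹  slope `A`, constant `C`, structural constants `c`, `cv`, threshold `N0`;  then the point `p` with `U ≤ 1/C`, then `Sv, Z, zlo`. -/
def SkwLlDirect : Prop :=
  ∀ (𝔹 : LlBase) (F : LlFix) (eps : ℝ) (K : ℕ) (C1v Klo : ℝ), 0 < eps → 12 ≤ K → 1 ≤ C1v → 1 ≤ Klo →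
    ∀ (r : ℕ), 2 ≤ r → (K : ℝ) < eps * ((r : ℝ) - 1) → ∀ (At : ℝ → ℝ) (cA Lq : ℝ), SkwL03 𝔹 F At cA Lq r →
    ∃ (A C cv : ℝ) (c : SkwC) (N0 : ℕ), 1 ≤ A ∧ 1 ≤ C ∧ 0 < cv ∧ c.Ok ∧ c.zs = 𝔹.xiS F.T ∧
      ∀ p : LlPt, p.Ok F → N0 ≤ p.N → p.sm = false → p.U F ≤ 1 / C → ∀ (Sv : ℝ → ℝ) (Z zlo : ℝ),
        SkwLlDev 𝔹 F (skwLlProf 𝔹 F At cA) p (skwLlIn 𝔹 F p Sv Z eps K A zlo) C1v Klo →
        SkwHyp c (skwInD (skwLlProf 𝔹 F At cA) (skwLlIn 𝔹 F p Sv Z eps K A zlo)) ∧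
        SkwPlat c (skwInD (skwLlProf 𝔹 F At cA) (skwLlIn 𝔹 F p Sv Z eps K A zlo)) ∧
        SkwInVConcl cv (skwLlProf 𝔹 F At cA) (skwLlIn 𝔹 F p Sv Z eps K A zlo) ∧
        SkwConcl C (skwInD (skwLlProf 𝔹 F At cA) (skwLlIn 𝔹 F p Sv Z eps K A zlo))
          (skwInD (skwLlProf 𝔹 F At cA) (skwLlIn 𝔹 F p Sv Z eps K A zlo)).zmax
          (skwInD (skwLlProf 𝔹 F At cA) (skwLlIn 𝔹 F p Sv Z eps K A zlo)).zmax c.zs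
          (skwH c (skwInD (skwLlProf 𝔹 F At cA) (skwLlIn 𝔹 F p Sv Z eps K A zlo)))

/-- **(D3)** in the coordinate `z` (file W/InstLlC.lean, prefix `skw_llc_`; LL 08 l.100-112, S2 of 37), WITH the relaxation `χ_e ∈ [0,1]` (LL 08 l.990):
active part: slope `≥ c λ r²` (from (P4); the negative ramp slope `≥ -χ_e λ_1` is absorbed since `λ_1/λ = λ^η → 0`; `H_lo`, `H_lin` are nondecreasing);
plateau: `h(v(z₂)) - h(v(z₁)) ≥ χ_e λ_1 (z₂ - z₁)/2` (EXACT identity `H_e(ℓ w₂) - H_e(ℓ w₁) = λ_1 Υ (z(w₂) - z(w₁))/2`; `h_*` is constant there: `K`, `q` by LL-XI, `b` by `vb8`).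
For `z₁ < ξ_* - E_b < z₂` split at `ξ_* - E_b` (the ramp lives at macroscopic mass). -/
def SkwLlD3 : Prop :=
  ∀ (𝔹 : LlBase) (F : LlFix) (At : ℝ → ℝ) (cA Lq : ℝ) (r : ℕ), 2 ≤ r → SkwL03 𝔹 F At cA Lq r → LlP4 𝔹 F →
    ∃ (c0 U1 : ℝ) (N0 : ℕ), 0 < c0 ∧ 0 < U1 ∧ ∀ p : LlPt, p.Ok F → N0 ≤ p.N → p.sm = false → p.U F ≤ U1 →
      ∀ i : SkwIn, i.ell = p.ell → i.lam = p.lam → i.U = p.U F → i.E = p.Eb F 𝔹 →
      ∀ z₁ ∈ Icc 0 (i.pf (skwLlProf 𝔹 F At cA)).zmax, ∀ z₂ ∈ Icc 0 (i.pf (skwLlProf 𝔹 F At cA)).zmax, z₁ ≤ z₂ →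
        p.x ≤ skwInV (skwLlProf 𝔹 F At cA) i z₁ →
        (z₂ ≤ 𝔹.xiS F.T → c0 * p.lam * skwR z₁ ^ 2 * (z₂ - z₁)
            ≤ p.h F 𝔹 (skwInV (skwLlProf 𝔹 F At cA) i z₂) - p.h F 𝔹 (skwInV (skwLlProf 𝔹 F At cA) i z₁)) ∧
        (𝔹.xiS F.T ≤ z₁ → p.chiE * p.lam1 F / 2 * (z₂ - z₁)
            ≤ p.h F 𝔹 (skwInV (skwLlProf 𝔹 F At cA) i z₂) - p.h F 𝔹 (skwInV (skwLlProf 𝔹 F At cA) i z₁))

end Claimed.Agent.R286
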