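import Claimed.Agent.R286.W.InstLl

/-!
# Row 286, folder W, file InstLlA : Leaves LL-EB (`E_b` solves its equation) and LL-XI (`ξ(v(z)) = min(z, ξ_*)`)      (contract helper246; PROVED by helper83, 0 open goals; prefix `skw_lla_`)
LL-EB: `φ(E) = E² (p_top - At(ξ_* - E))` is continuous, strictly increasing on `[0, ξ_*]`, `φ(0) = 0`: IVT gives `E_*`, which is the least element of the set defining `E_b`
(elements `> ξ_*` are larger anyway: nothing about `A_0` on the negative axis is needed).   `U1 = min(U_0/2, 1, ξ_*² p_top)`.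
LL-XI: `llInv A_λ (A_λ ζ) = ζ` on `[0, ξ_*)`, `llInv A_λ w = ξ_*` for `w ∈ [p_top, 1]` (least elements).
Only `At_sm.continuous` is used of the smoothness of `At`.
-/

set_option autoImplicit false

namespace Claimed.Agent.R286

open Set MeasureTheory

/-- **Leaf LL-EB** -/
theorem skw_leaf_llEb : SkwLeafLlEb := by
  intro 𝔹 F At cA Lq r _hr h
  have hπ := h.prof
  obtain ⟨L, hL⟩ : ∃ L, L = 𝔹.xiS F.T := ⟨_, rfl⟩
  obtain ⟨pt, hpt⟩ : ∃ pt, pt = 𝔹.pTop F.T := ⟨_, rfl⟩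
  have hz00 : 0 < F.z0 := hπ.z00
  have hz0s : 2 * F.z0 ≤ L := hL ▸ hπ.z0s
  have hL0 : 0 < L := by linarith
  have hpt0 : 0 < pt := hpt ▸ hπ.pt0
  have hAtc : Continuous At := hπ.At_sm.continuous
  have hAt0 : At 0 = 0 := hπ.At0
  have hAtz : At L = pt := by rw [hL, hpt]; exact hπ.Atz
  have hsm : StrictMonoOn At (Icc 0 L) := hL ▸ hπ.smono
  have hU0 : 0 < F.U0 := h.fix.U00
  have hLp : 0 < L ^ 2 * pt := by positivity
  refine ⟨min (F.U0 / 2) (min 1 (L ^ 2 * pt)), by positivity, min_le_left _ _, ?_⟩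
  intro p hUp hU
  have hU1 : p.U F ≤ F.U0 / 2 := hU.trans (min_le_left _ _)
  have hU2 : p.U F ≤ 1 := hU.trans ((min_le_right _ _).trans (min_le_left _ _))
  have hU3 : p.U F ≤ L ^ 2 * pt := hU.trans ((min_le_right _ _).trans (min_le_right _ _))
  have hUt : p.Ut F = p.U F := by
    unfold LlPt.Ut
    exact min_eq_right (by linarith)
  have hu0 : 0 < p.U F ^ 4 := pow_pos hUp 4
  have hu1 : p.U F ^ 4 ≤ L ^ 2 * pt := by
    have : p.U F ^ 4 ≤ p.U F ^ 1 := pow_le_pow_of_le_one hUp.le hU2 (by norm_num)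
    rw [pow_one] at this
    linarith
  -- the function `φ`
  have hφc : ContinuousOn (fun E : ℝ => E ^ 2 * (pt - At (L - E))) (Icc 0 L) := by
    have : Continuous (fun E : ℝ => E ^ 2 * (pt - At (L - E))) := by fun_prop
    exact this.continuousOn
  have hivt := intermediate_value_Icc hL0.le hφc
  have hmem : p.U F ^ 4 ∈ Icc ((fun E : ℝ => E ^ 2 * (pt - At (L - E))) 0) ((fun E : ℝ => E ^ 2 * (pt - At (L - E))) L) := by
    constructor
    · simp only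
      rw [sub_zero, hAtz]
      simp [hu0.le]
    · simp only
      rw [sub_self, hAt0, sub_zero]
      exact hu1
  obtain ⟨Es, hEs, hEq⟩ := hivt hmem
  simp only at hEq
  have hEs0 : 0 < Es := by
    rcases eq_or_lt_of_le hEs.1 with e | e
    · rw [← e] at hEq
      simp at hEq
      linarith
    · exact e
  have hg0 : ∀ E ∈ Icc 0 L, 0 ≤ pt - At (L - E) := by
    intro E hE
    have := hsm.monotoneOn (⟨by linarith [hE.2], by linarith [hE.1]⟩ : L - E ∈ Icc 0 L) (⟨hL0.le, le_rfl⟩ : L ∈ Icc 0 L)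
      (by linarith [hE.1])
    rw [hAtz] at this
    linarith
  have hφmono : ∀ E₁ ∈ Icc 0 L, ∀ E₂ ∈ Icc 0 L, E₁ < E₂ → E₁ ^ 2 * (pt - At (L - E₁)) < E₂ ^ 2 * (pt - At (L - E₂)) := by
    intro E₁ h1 E₂ h2 hlt
    have a1 := hsm (⟨by linarith [h2.2], by linarith [h2.1]⟩ : L - E₂ ∈ Icc 0 L)
      (⟨by linarith [h1.2], by linarith [h1.1]⟩ : L - E₁ ∈ Icc 0 L) (by linarith)
    have a2 := hg0 E₁ h1
    have a3 : E₁ ^ 2 ≤ E₂ ^ 2 := pow_le_pow_left₀ h1.1 hlt.le 2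
    have a4 : 0 < E₂ ^ 2 := pow_pos (lt_of_le_of_lt h1.1 hlt) 2
    calc E₁ ^ 2 * (pt - At (L - E₁)) ≤ E₂ ^ 2 * (pt - At (L - E₁)) := mul_le_mul_of_nonneg_right a3 a2
      _ < E₂ ^ 2 * (pt - At (L - E₂)) := mul_lt_mul_of_pos_left (by linarith) a4
  have hA0 : ∀ E, 0 < E → E ≤ L → 𝔹.A0 F.T (L - E) = At (L - E) := by
    intro E h1 h2
    exact h.A0_act (L - E) ⟨by linarith, by rw [← hL]; linarith⟩
  have hleast : IsLeast {E : ℝ | 0 < E ∧ p.Ut F ^ 4 / E ^ 2 ≤ 𝔹.pTop F.T - 𝔹.A0 F.T (𝔹.xiS F.T - E)} Es := by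
    rw [← hL, ← hpt, hUt]
    constructor
    · refine ⟨hEs0, ?_⟩
      rw [hA0 Es hEs0 hEs.2, div_le_iff₀ (pow_pos hEs0 2), ← hEq]
      exact le_of_eq (by ring)
    · rintro E ⟨hE0, hE⟩
      by_contra hlt
      have hlt : E < Es := not_le.1 hlt
      have hEL : E ≤ L := hlt.le.trans hEs.2
      rw [hA0 E hE0 hEL, div_le_iff₀ (pow_pos hE0 2)] at hE
      have := hφmono E ⟨hE0.le, hEL⟩ Es hEs hlt
      rw [hEq] at this
      linarith
  have hEb : p.Eb F 𝔹 = Es := by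
    unfold LlPt.Eb
    exact hleast.csInf_eq
  refine ⟨hUt, h.fix.Ups_one _ ⟨hUp.le, hU1⟩, ?_, ?_, ?_⟩
  · rw [hEb]; exact hEs0
  · rw [hEb, ← hL]; exact hEs.2
  · rw [hEb, ← hL, ← hpt, eq_div_iff (pow_pos hEs0 2).ne', ← hEq]
    ring

/-- **Leaf LL-XI** -/
theorem skw_leaf_llXi : SkwLeafLlXi := by
  intro 𝔹 F At cA Lq r _hr h p i Cp hsm hell hiell hilam hlam hmono htop hPF z hz
  have hπ := h.prof
  obtain ⟨L, hL⟩ : ∃ L, L = 𝔹.xiS F.T := ⟨_, rfl⟩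
  obtain ⟨pt, hpt⟩ : ∃ pt, pt = 𝔹.pTop F.T := ⟨_, rfl⟩
  have hz00 : 0 < F.z0 := hπ.z00
  have hz0s : 2 * F.z0 ≤ L := hL ▸ hπ.z0s
  have hL0 : 0 < L := by linarith
  have hpt1 : pt < 1 := hpt ▸ hπ.pt1
  have hell0 : p.ell ≠ 0 := by linarith
  have hAprof : p.Aprof F 𝔹 = p.Adir F 𝔹 := by simp [LlPt.Aprof, hsm]
  -- `Adir` on the active side
  have hAd : ∀ ξ ∈ Ico 0 L, p.Adir F 𝔹 ξ = skwInA (skwLlProf 𝔹 F At cA) i ξ := by
    intro ξ hξ
    unfold LlPt.Adir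
    rw [h.A0_act ξ (hL ▸ hξ), skwInA_eqns_cite, hilam]
    rfl
  have hAdL : p.Adir F 𝔹 L = 1 := by
    unfold LlPt.Adir
    rw [h.A0_top L (by rw [hL]), h.fix.P_zero L (by linarith)]
    ring
  rw [← hL] at hmono htop
  rw [← hpt] at htop
  -- inverse at an active point
  have hinv1 : ∀ ζ ∈ Ico 0 L, llInv (p.Adir F 𝔹) (skwInA (skwLlProf 𝔹 F At cA) i ζ) = ζ := by
    intro ζ hζ
    unfold llInv
    refine IsLeast.csInf_eq ⟨⟨hζ.1, by rw [hAd ζ hζ]⟩, ?_⟩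
    rintro ξ ⟨hξ0, hξ⟩
    by_contra hlt
    have hlt : ξ < ζ := not_le.1 hlt
    have hξL : ξ ∈ Ico 0 L := ⟨hξ0, hlt.trans hζ.2⟩
    rw [hAd ξ hξL] at hξ
    have := hmono (Ico_subset_Icc_self hξL) (Ico_subset_Icc_self hζ) hlt
    linarith
  -- inverse at a plateau value
  have hinv2 : ∀ w, pt ≤ w → w ≤ 1 → llInv (p.Adir F 𝔹) w = L := by
    intro w hw0 hw1
    unfold llInv
    refine IsLeast.csInf_eq ⟨⟨hL0.le, by rw [hAdL]; exact hw1⟩, ?_⟩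
    rintro ξ ⟨hξ0, hξ⟩
    by_contra hlt
    have hlt : ξ < L := not_le.1 hlt
    have hξL : ξ ∈ Ico 0 L := ⟨hξ0, hlt⟩
    rw [hAd ξ hξL] at hξ
    have := hmono (Ico_subset_Icc_self hξL) (⟨hL0.le, le_rfl⟩ : L ∈ Icc 0 L) hlt
    rw [htop] at this
    linarith
  have hxi : p.xi F 𝔹 (skwInV (skwLlProf 𝔹 F At cA) i z) = min z (𝔹.xiS F.T) := by
    rw [← hL]
    unfold LlPt.xi
    rw [hAprof, skwInV_eqns_cite]
    have hzs : (skwLlProf 𝔹 F At cA).zs = L := hL.symm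
    rw [hzs, hiell]
    rcases lt_trichotomy z L with hlt | heq | hgt
    · rw [if_pos hlt.le, mul_div_cancel_left₀ _ hell0, hinv1 z ⟨hz.1, hlt⟩, min_eq_left hlt.le]
    · rw [if_pos heq.le, mul_div_cancel_left₀ _ hell0, heq, htop, hinv2 pt le_rfl hpt1.le, min_self]
    · rw [if_neg (not_le.2 hgt), mul_div_cancel_left₀ _ hell0, min_eq_right hgt.le]
      have hm := hPF.wof_mem z ⟨by
        have : (i.pf (skwLlProf 𝔹 F At cA)).zs = L := hL.symm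
        rw [this]; exact hgt.le, hz.2⟩
      have hp : (i.pf (skwLlProf 𝔹 F At cA)).ptop = pt := hpt.symm
      rw [hp] at hm
      exact hinv2 _ hm.1 hm.2
  have hK : p.K F 𝔹 (skwInV (skwLlProf 𝔹 F At cA) i z) = (p.ell ^ 2)⁻¹ * min z (𝔹.xiS F.T) := by
    unfold LlPt.K
    rw [hxi]
  refine ⟨hxi, hK, ?_⟩
  unfold LlPt.q LlPt.Gam
  rw [hK, ← mul_assoc, mul_inv_cancel₀ (pow_ne_zero 2 hell0), one_mul]

end Claimed.Agent.R286
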