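import Claimed.Agent.R286.W.InstLlA
import Claimed.Agent.R286.W.Inst
import Claimed.Agent.R286.W.GlueD
import Claimed.Agent.R286.W.GlueK

/-!
# Row 286, folder W, file InstLlB : EXIT of unit W for the direct paths      (contract helper246; proof helper237; prefix `skw_llb_`)
Glue: `skw_inst_direct` (W/Inst.lean) at `π = skwLlProf ..`, Taylor order `n > K/eps`; `skw_direct` (W/GlueD.lean) gives `A`, `C`; `skw_leaf_llEb`, `skw_leaf_llXi`
(+ `skw_leaf_inG`, `skw_leaf_inE`, `skw_leaf_pf` for their hypotheses); numerics: `x = N^(-1/6) → 0`, `λ ≤ x^pS`, `x ≤ U`, `Mn x^(n eps) ≤ x^K`.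
-/

set_option autoImplicit false

namespace Claimed.Agent.R286

open Set MeasureTheory

/-- a strictly increasing chain is monotone -/
theorem skw_llb_chain {n : ℕ} {t : ℕ → ℝ} (h : ∀ i < n, t i < t (i + 1)) : ∀ j, j ≤ n → ∀ i, i ≤ j → t i ≤ t j := by
  intro j
  induction j with
  | zero => intro _ i hi; rw [Nat.le_zero.1 hi]
  | succ j ih =>
    intro hj i hi
    rcases Nat.lt_or_ge i (j + 1) with h1 | h1
    · exact (ih (by omega) i (by omega)).trans (h j (by omega)).le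
    · rw [le_antisymm hi h1]

/-- the conclusions of Lemma 8.2 are monotone in the constant -/
theorem skw_llb_concl_mono {C C' : ℝ} {c : SkwC} {d : SkwD} {hh : ℝ → ℝ} (H : SkwHyp c d) (hC : 1 ≤ C) (hCC : C ≤ C')
    (h : SkwConcl C d d.zmax d.zmax c.zs hh) : SkwConcl C' d d.zmax d.zmax c.zs hh := by
  have hC0 : 0 < C := by linarith
  have hC'0 : 0 < C' := by linarith
  have hU : 0 < d.U := H.x0.trans_le H.xU
  have hb := H.b0
  have hzlo := H.zlo0
  have hZ : 0 < d.Z := by linarith [H.Z1]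
  have hr : ∀ z, d.zlo / 2 ≤ z → 0 < skwR z := fun z hz => skw_gk_R_pos (by linarith)
  have hmin : ∀ z, d.zlo / 2 ≤ z → 0 ≤ min (d.b * skwR z) (d.U ^ 2 / skwR z) := by
    intro z hz
    have := hr z hz
    exact le_min (by positivity) (by positivity)
  have hh0 : ∀ z ∈ Icc (d.zlo / 2) d.zmax, 0 ≤ hh z := by
    intro z hz
    exact le_trans (div_nonneg (hmin z hz.1) hC0.le) (h.lower z hz)
  have hL : 0 ≤ skwL d := by
    have hx1 : d.x ≤ 1 := H.xU.trans H.U1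
    have ht1 : d.tiny ≤ 1 := H.t1.trans (pow_le_one₀ H.x0.le hx1)
    have : 0 ≤ Real.log (1 / d.tiny) := Real.log_nonneg (by rw [le_div_iff₀ H.t0]; linarith)
    unfold skwL
    linarith
  refine ⟨?_, h.meas, ?_, ?_, ?_, ?_, ?_, ?_⟩
  · intro z hz z' hz'
    exact (h.qlip z hz z' hz').trans (mul_le_mul_of_nonneg_right hCC (add_nonneg (hh0 z hz) (abs_nonneg _)))
  · intro z hz
    exact (div_le_div_of_nonneg_left (hmin z hz.1) hC0 hCC).trans (h.lower z hz)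
  · intro z hz
    exact (h.upper z hz).trans (mul_le_mul_of_nonneg_right hCC (hr z hz.1).le)
  · intro z hz
    refine (h.dev z hz).trans ?_
    have hE : 0 ≤ skwE d hh z := le_min (hr z hz.1).le (mul_nonneg (by positivity) (hh0 z hz))
    exact div_le_div_of_nonneg_right (mul_le_mul_of_nonneg_right hCC hE) hb.le
  · intro ρ hρ
    refine (h.budget ρ hρ).trans ?_
    have hrr := hr ρ (by linarith [hρ.1])
    apply div_le_div_of_nonneg_right _ hrr.le
    exact mul_le_mul_of_nonneg_right (mul_le_mul_of_nonneg_right hCC hL) (by positivity)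
  · intro z hz hlt
    have hz' : z ∈ Icc (d.zlo / 2) d.zmax := ⟨by linarith [hz.1], hz.2⟩
    have hrr := hr z hz'.1
    have hlt' : d.Z ^ 2 * hh z < d.b * skwR z / C :=
      hlt.trans_le (div_le_div_of_nonneg_left (by positivity) hC0 hCC)
    obtain ⟨⟨a, l, h1, h2, h3⟩, ⟨a', l', h4, h5, h6⟩, h7⟩ := h.win z hz hlt'
    refine ⟨⟨a, l, h1, h2, skw_gk_win_mono hC0 hCC hU hrr (hh0 z hz') h3⟩,
      ⟨a', l', h4, h5, skw_gk_win_mono hC0 hCC hU hrr (hh0 z hz') h6⟩, ?_⟩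
    have : 1 / C' ≤ 1 / C := div_le_div_of_nonneg_left zero_le_one hC0 hCC
    linarith
  · obtain ⟨n, t, ht0, htn, hlt, hj, hT⟩ := h.tiles
    refine ⟨n, t, ht0, htn, hlt, hj, ?_⟩
    intro i hi
    obtain ⟨h1, h2, h3⟩ := hT i hi
    have hch := skw_llb_chain hlt
    have hlo : d.zlo ≤ t i := by rw [← ht0]; exact hch i hi.le 0 (Nat.zero_le _)
    have hhi : t (i + 1) ≤ d.zmax := by rw [← htn]; exact hch n le_rfl (i + 1) hi
    have hlen : 0 < t (i + 1) - t i := by linarith [hlt i hi]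
    have hCb : C / d.b ≤ C' / d.b := div_le_div_of_nonneg_right hCC hb.le
    refine ⟨?_, ?_, ?_⟩
    · intro z hz
      have hz' : z ∈ Icc (d.zlo / 2) d.zmax := ⟨by linarith [hz.1], hz.2.trans hhi⟩
      obtain ⟨h4, h5⟩ := h1 z hz
      exact ⟨(div_le_div_of_nonneg_left (hh0 z hz') hC0 hCC).trans h4,
        h5.trans (mul_le_mul_of_nonneg_right hCC (hh0 z hz'))⟩
    · intro z hz
      refine (h2 z hz).trans (mul_le_mul_of_nonneg_right hCb ?_)
      have hI : 0 ≤ ∫ s in (t i)..(t (i + 1)), d.G s :=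
        intervalIntegral.integral_nonneg (by linarith) fun s hs => H.G0 s ⟨by linarith [hs.1], hs.2.trans hhi⟩
      have := H.t0
      positivity
    · intro z hz z' hz' hzz ha hb'
      refine (h3 z hz z' hz' hzz ha hb').trans (mul_le_mul_of_nonneg_right hCb ?_)
      exact le_min (hr (t i) (by linarith)).le (by positivity)

/-- `x^a → 0` -/
theorem skw_llb_small (a δ : ℝ) (ha : 0 < a) (hδ : 0 < δ) : ∃ N0 : ℕ, ∀ p : LlPt, N0 ≤ p.N → p.x ^ a ≤ δ := by
  have h1 : Filter.Tendsto (fun N : ℕ => ((N : ℝ)) ^ (-(a / 6))) Filter.atTop (nhds 0) :=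
    (tendsto_rpow_neg_atTop (by positivity : 0 < a / 6)).comp tendsto_natCast_atTop_atTop
  have h2 := h1.eventually (ge_mem_nhds hδ)
  obtain ⟨N0, hN0⟩ := Filter.eventually_atTop.1 h2
  refine ⟨N0, fun p hp => ?_⟩
  have h3 := hN0 p.N hp
  have h4 : p.x ^ a = ((p.N : ℝ)) ^ (-(a / 6)) := by
    unfold LlPt.x
    rw [← Real.rpow_mul (Nat.cast_nonneg _)]
    congr 1
    ring
  rw [h4]
  exact h3

theorem skw_llb_x_pos (p : LlPt) (h : 2 ≤ p.N) : 0 < p.x := by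
  unfold LlPt.x
  have : (0 : ℝ) < p.N := by exact_mod_cast (by omega : 0 < p.N)
  positivity

theorem skw_llb_x_le_one (p : LlPt) (h : 2 ≤ p.N) : p.x ≤ 1 := by
  unfold LlPt.x
  have : (1 : ℝ) ≤ p.N := by exact_mod_cast (by omega : 1 ≤ p.N)
  exact Real.rpow_le_one_of_one_le_of_nonpos this (by norm_num)

theorem skw_llb_inv_le {a C : ℝ} (ha : 0 < a) (h : 1 / a ≤ C) : 1 / C ≤ a := by
  have h0 : 0 < 1 / a := by positivity
  have hC : 0 < C := h0.trans_le h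
  rw [div_le_iff₀ hC]
  rw [div_le_iff₀ ha] at h
  linarith

/-- TEX[LL:lem:statistics-widths] direct paths of LL Section 3 -/
theorem skw_ll_direct : SkwLlDirect := by
  intro 𝔹 F eps K C1v Klo heps hK hC1v hKlo r hr hKr At cA Lq h
  obtain ⟨π, hπ⟩ : ∃ π, π = skwLlProf 𝔹 F At cA := ⟨_, rfl⟩
  have hOk : π.Ok r := hπ ▸ h.prof
  obtain ⟨n, hn⟩ : ∃ n : ℕ, n + 1 = r := ⟨r - 1, by omega⟩
  have hnr : (n : ℝ) = (r : ℝ) - 1 := by rw [← hn]; push_cast; ring
  obtain ⟨c, κ0, Mn, cv, hcOk, hczs, hκ0, hMn, hcv, hInst⟩ :=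
    skw_inst_direct π r n hr hn.le hOk Lq C1v Klo h.Lq1 hC1v hKlo
  obtain ⟨A, hA, C, hC, hDir⟩ := skw_direct c hcOk
  obtain ⟨M0, lam0, hM0, hlam0, _, hG⟩ := skw_leaf_inG π r hr hOk
  have hz00 := hOk.z00
  have hz0s := hOk.z0s
  have hE1 : 0 < min 1 ((π.zs - π.z0) / 2) := lt_min one_pos (by linarith)
  obtain ⟨U1e, hU1e, _, hE⟩ := skw_leaf_inE π r hr hOk M0 hM0 _ hE1
  obtain ⟨Cp, hCp, hPF⟩ := skw_leaf_pf π.ptop M0 hOk.pt0 hOk.pt1 hM0
  obtain ⟨U1b, hU1b, _, hEb⟩ := skw_leaf_llEb 𝔹 F At cA Lq r hr h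
  obtain ⟨Ng, hNg⟩ := h.Gam
  obtain ⟨N1, hN1⟩ := skw_llb_small F.pS (min κ0 lam0) h.fix.pS0 (lt_min hκ0 hlam0)
  obtain ⟨N2, hN2⟩ := skw_llb_small eps (min (1 / 8) (1 / C)) heps (lt_min (by norm_num) (by positivity))
  have hexp : 0 < eps * n - K := by rw [hnr]; linarith
  obtain ⟨N3, hN3⟩ := skw_llb_small (eps * n - K) (1 / (Mn + 1)) hexp (by positivity)
  set C' : ℝ := max C (max (1 / κ0) (max (1 / U1e) (max (1 / U1b) Cp))) with hC'
  have hCC' : C ≤ C' := le_max_left _ _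
  have hk1 : 1 / κ0 ≤ C' := (le_max_left _ _).trans (le_max_right _ _)
  have hk2 : 1 / U1e ≤ C' := (le_max_left _ _).trans ((le_max_right _ _).trans (le_max_right _ _))
  have hk3 : 1 / U1b ≤ C' :=
    (le_max_left _ _).trans ((le_max_right _ _).trans ((le_max_right _ _).trans (le_max_right _ _)))
  have hk4 : Cp ≤ C' :=
    (le_max_right _ _).trans ((le_max_right _ _).trans ((le_max_right _ _).trans (le_max_right _ _)))
  refine ⟨A, C', cv, c, max Ng (max N1 (max N2 N3)), hA, hC.trans hCC', hcv, hcOk, by rw [hczs, hπ]; rfl, ?_⟩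
  intro p hp hN hsm hU Sv Z zlo
  rw [← hπ]
  obtain ⟨i, hi⟩ : ∃ i, i = skwLlIn 𝔹 F p Sv Z eps K A zlo := ⟨_, rfl⟩
  rw [← hi]
  intro hDev
  have hNg' : Ng ≤ p.N := (le_max_left _ _).trans hN
  have hN1' : N1 ≤ p.N := (le_max_left _ _).trans ((le_max_right _ _).trans hN)
  have hN2' : N2 ≤ p.N := (le_max_left _ _).trans ((le_max_right _ _).trans ((le_max_right _ _).trans hN))
  have hN3' : N3 ≤ p.N := (le_max_right _ _).trans ((le_max_right _ _).trans ((le_max_right _ _).trans hN))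
  -- the fields of the instance
  have e_ell : i.ell = p.ell := by rw [hi]; rfl
  have e_lam : i.lam = p.lam := by rw [hi]; rfl
  have e_x : i.x = p.x := by rw [hi]; rfl
  have e_U : i.U = p.U F := by rw [hi]; rfl
  have e_b : i.b = p.x ^ eps := by rw [hi]; rfl
  have e_t : i.tiny = p.x ^ K := by rw [hi]; rfl
  have e_A : i.A = A := by rw [hi]; rfl
  have e_E : i.E = p.Eb F 𝔹 := by rw [hi]; rfl
  have e_q : i.qv = p.q F 𝔹 := by rw [hi]; rfl
  have e_G : i.Gm = p.GamN F 𝔹 := by rw [hi]; rfl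
  have e_zs : π.zs = 𝔹.xiS F.T := by rw [hπ]; rfl
  have e_pt : π.ptop = 𝔹.pTop F.T := by rw [hπ]; rfl
  have e_At : π.At = At := by rw [hπ]; rfl
  -- numerics
  have hx0 : 0 < p.x := skw_llb_x_pos p hp.N2
  have hx1 : p.x ≤ 1 := skw_llb_x_le_one p hp.N2
  have hl0 : 0 < p.lam := lt_of_lt_of_le (by positivity) hp.lam_lo
  have hl1 : p.lam ≤ min κ0 lam0 := hp.lam_hi.trans (hN1 p hN1')
  have hl2 : p.lam ≤ 1 := hp.lam_hi.trans (Real.rpow_le_one hx0.le hx1 h.fix.pS0.le)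
  have hell2 : p.ell ≤ 2 := by
    refine hp.ell2.trans ?_
    calc (2 : ℝ) ^ (1 / 6 : ℝ) ≤ (2 : ℝ) ^ (1 : ℝ) := Real.rpow_le_rpow_of_exponent_le (by norm_num) (by norm_num)
      _ = 2 := Real.rpow_one _
  have hxU : p.x ≤ p.U F := by
    unfold LlPt.U
    refine le_min hx1 ?_
    have : 1 ≤ p.lam ^ (-(F.sS / 2)) :=
      Real.one_le_rpow_of_pos_of_le_one_of_nonpos hl0 hl2 (by linarith [h.fix.sS0])
    exact le_mul_of_one_le_right hx0.le this
  have hU0 : 0 < p.U F := hx0.trans_le hxU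
  have hC'0 : 0 < C' := by linarith
  have hUC : p.U F ≤ 1 / C := hU.trans (div_le_div_of_nonneg_left zero_le_one (by linarith) hCC')
  have hUκ : p.U F ≤ κ0 := hU.trans (skw_llb_inv_le hκ0 hk1)
  have hUe : p.U F ≤ U1e := hU.trans (skw_llb_inv_le hU1e hk2)
  have hUb : p.U F ≤ U1b := hU.trans (skw_llb_inv_le hU1b hk3)
  have hUp : p.U F ≤ 1 / Cp := hU.trans (div_le_div_of_nonneg_left zero_le_one (by linarith) hk4)
  have hb0 : 0 < p.x ^ eps := by positivity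
  have hb1 := hN2 p hN2'
  have htn : Mn * (p.x ^ eps) ^ n ≤ p.x ^ K := by
    have h1 : (p.x ^ eps) ^ n = p.x ^ (eps * n - K) * p.x ^ K := by
      rw [← Real.rpow_natCast (p.x ^ eps) n, ← Real.rpow_mul hx0.le, ← Real.rpow_natCast p.x K, ← Real.rpow_add hx0]
      congr 1
      ring
    have h2 := hN3 p hN3'
    have h3 : Mn * p.x ^ (eps * n - K) ≤ 1 := by
      calc Mn * p.x ^ (eps * n - K) ≤ Mn * (1 / (Mn + 1)) := mul_le_mul_of_nonneg_left h2 hMn
        _ ≤ 1 := by rw [mul_one_div, div_le_one (by linarith)]; linarith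
    rw [h1, ← mul_assoc]
    calc Mn * p.x ^ (eps * n - K) * p.x ^ K ≤ 1 * p.x ^ K := mul_le_mul_of_nonneg_right h3 (by positivity)
      _ = p.x ^ K := one_mul _
  obtain ⟨_, _, hEb0, hEbs, hEbeq⟩ := hEb p hU0 hUb
  have hNum : i.Num π κ0 Mn Klo n := by
    refine ⟨?_, ?_, ?_, ?_, ?_, ?_, ?_, hDev.Z1, ?_, ?_, ?_, ?_, ?_, ?_, ?_, ?_, ?_, hDev.zlo0, hDev.zlo1, hDev.zloY⟩
    · rw [e_ell]; exact hp.ell1
    · rw [e_ell]; exact hell2
    · rw [e_lam]; exact hl0.le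
    · rw [e_lam]; exact hl1.trans (min_le_left _ _)
    · rw [e_x]; exact hx0
    · rw [e_x, e_U]; exact hxU
    · rw [e_U]; exact hUκ
    · rw [e_b]; exact hb0
    · rw [e_b]; exact hb1.trans (min_le_left _ _)
    · rw [e_t]; positivity
    · rw [e_t, e_x]; exact pow_le_pow_of_le_one hx0.le hx1 hK
    · rw [e_b, e_t]; exact htn
    · rw [e_A]; exact hA
    · rw [e_E]; exact hEb0
    · rw [e_E, e_zs]; exact hEbs
    · rw [e_E, e_zs, e_pt, e_At, e_U]; exact hEbeq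
  -- the conclusions of IN-G, IN-E, PLF
  obtain ⟨g1, g2, g3, g4, g5, g6, g7, g8⟩ := hG i hNum.ell1 hNum.ell2 hNum.lam0 (by rw [e_lam]; exact hl1.trans (min_le_right _ _))
  obtain ⟨k1, _, k3⟩ := hE i hNum.ell1 hNum.ell2 (fun z hz => (g1 z hz).2) g3 (by rw [e_U]; exact hU0) (by rw [e_U]; exact hUe)
    hNum.E0 hNum.Es hNum.Eeq
  have hElt : i.E < π.zs - π.z0 := by
    have := k1.trans (min_le_right _ _)
    linarith
  have hpf : SkwPFConcl Cp (i.pf π) :=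
    hPF (i.pf π) rfl hNum.ell1 hNum.ell2 (by show 0 < i.U; rw [e_U]; exact hU0) (by show i.U ≤ 1 / Cp; rw [e_U]; exact hUp)
      hNum.E0 (k1.trans (min_le_left _ _)) (k3 hElt)
  have hXi := skw_leaf_llXi 𝔹 F At cA Lq r hr h p i Cp hsm hp.ell1 e_ell e_lam hl0.le
    (by rw [← hπ, ← e_zs]; exact g6) (by rw [← hπ, ← e_zs, ← e_pt]; exact g8) (by rw [← hπ]; exact hpf)
  rw [← hπ] at hXi
  obtain ⟨q1, q2, q3⟩ := hNg p hp hNg' hsm
  have hDv : i.Dev π Lq C1v := by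
    refine ⟨?_, ?_, ?_, ?_, ?_, ?_, ?_, ?_, ?_⟩
    · rw [e_ell]; exact hDev.Smono
    · rw [e_ell]; exact hDev.S0
    · rw [e_ell]; exact hDev.S1
    · rw [e_G, e_zs]; exact q1
    · rw [e_G]; exact q2
    · rw [e_G, e_zs]; exact fun ξ hξ => (q3 ξ hξ).1
    · rw [e_G, e_zs]; exact fun ξ hξ => (q3 ξ hξ).2
    · intro z hz
      rw [e_q, e_G, e_zs]
      exact (hXi z hz).2.2
    · rw [e_ell, e_q]; exact hDev.D1v
  obtain ⟨r1, r2, r3⟩ := hInst i hNum hDv
  refine ⟨r1, r2, r3, ?_⟩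
  apply skw_llb_concl_mono r1 hC hCC'
  apply hDir _ r1 r2 e_A
  refine ⟨?_, ?_, ?_⟩
  · show i.b ≤ 1 / C
    rw [e_b]; exact hb1.trans (min_le_right _ _)
  · show i.U ≤ 1 / C
    rw [e_U]; exact hUC
  · show i.x ≤ 1 / C
    rw [e_x]; exact hxU.trans hUC

end Claimed.Agent.R286
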