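import Claimed.Agent.R286.W.Defs

/-!
# Row 286, folder W, file Leaves : the CONTRACTS of the width construction (LL Lemma 8.2)      (helper37; prefix `Skw`/`skw`)

Every `def SkwLeaf.. : Prop` is one leaf: prove `theorem skw_leaf.. : SkwLeaf..` in its own file `W/<Name>.lean`.
Pattern: `∀ c, c.Ok → ∃ C ≥ 1, ∀ d, SkwHyp c d → (smallness d.b, d.U, d.x ≤ 1/C) → conclusions with the constant C`.
-/

set_option autoImplicit false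

namespace Claimed.Agent.R286

open Set MeasureTheory

/-- smallness of the instance relative to a constant -/
structure SkwSmall (C : ℝ) (d : SkwD) : Prop where
  b : d.b ≤ 1 / C
  U : d.U ≤ 1 / C
  x : d.x ≤ 1 / C

/-- **Leaf ADJ** (LL l.138-154): adjacent-interval comparison for smooth nonnegative functions. -/
def SkwLeafAdj : Prop :=
  ∀ (n : ℕ) (κ : ℝ), 1 ≤ κ → ∃ C : ℝ, 1 ≤ C ∧ ∀ (G : ℝ → ℝ) (α β M l a l₁ a' l₂ : ℝ),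
    ContDiffOn ℝ n G (Icc α β) → (∀ z ∈ Icc α β, 0 ≤ G z) →
    (∀ z ∈ Icc α β, |iteratedDerivWithin n G (Icc α β) z| ≤ M) →
    0 < l → l / κ ≤ l₁ → l₁ ≤ κ * l → l / κ ≤ l₂ → l₂ ≤ κ * l →
    α ≤ a → a + l₁ ≤ β → α ≤ a' → a' + l₂ ≤ β → |a - a'| ≤ κ * l →
    ∀ s ∈ Icc a (a + l₁), G s ≤ C * ((∫ t in a'..(a' + l₂), G t) / l₂ + M * l ^ n)

/-- conclusions on the intrinsic width -/
structure SkwH0Concl (C : ℝ) (c : SkwC) (d : SkwD) : Prop where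
  cap : ∀ z ∈ Icc (d.zlo / 4) c.zs, skwH0 c d z ≤ d.b * skwR z
  lower : ∀ z ∈ Icc (d.zlo / 4) c.zs, min (d.b * skwR z) (d.U ^ 2 / skwR z) / C ≤ skwH0 c d z
  le : ∀ z ∈ Icc (d.zlo / 4) c.zs, skwPhi c d z (skwH0 c d z) ≤ d.U ^ 6 / skwR z ^ 3
  eq : ∀ z ∈ Icc (d.zlo / 4) c.zs, skwH0 c d z < d.b * skwR z → skwPhi c d z (skwH0 c d z) = d.U ^ 6 / skwR z ^ 3
  above : ∀ z ∈ Icc (d.zlo / 4) c.zs, ∀ l, 0 ≤ l → l ≤ d.b * skwR z → d.U ^ 6 / skwR z ^ 3 ≤ skwPhi c d z l → skwH0 c d z ≤ l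
  qlip : ∀ z ∈ Icc (d.zlo / 4) c.zs, ∀ z' ∈ Icc (d.zlo / 4) c.zs, skwR z ≤ 2 * skwR z' → skwR z' ≤ 2 * skwR z →
    skwH0 c d z' ≤ 3 * (skwH0 c d z + |z - z'|)
  meas : AEStronglyMeasurable (skwH0 c d) (volume.restrict (Icc (d.zlo / 4) c.zs))
  GH3 : ∀ z ∈ Icc (d.zlo / 4) c.zs, d.G z * skwH0 c d z ^ 3 ≤ C * (d.U ^ 6 / skwR z ^ 3 + d.tiny)
  budget : ∀ α β, d.zlo / 4 ≤ α → α ≤ β → β ≤ 2 * α → β ≤ c.zs →
    ∫ z in α..β, d.G z * skwH0 c d z ^ 2 ≤ C * d.U ^ 4 / skwR α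

/-- **Leaf H0** (LL "The intrinsic width"). -/
def SkwLeafH0 : Prop :=
  ∀ c : SkwC, c.Ok → ∃ C : ℝ, 1 ≤ C ∧ ∀ d : SkwD, SkwHyp c d → SkwH0Concl C c d

/-- positive sources whose persistence interval leaves the active interval are low -/
def SkwEdge (Ce : ℝ) (c : SkwC) (d : SkwD) : Prop :=
  ∀ s ∈ Icc 0 c.zs, 0 < skwF d s → c.zs - s < skwSrc d s / (2 * c.Lq) → skwSrc d s ≤ Ce * d.U ^ 2

/-- elementary properties of the cone envelope -/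
structure SkwConeConcl (c : SkwC) (d : SkwD) : Prop where
  lip : ∀ z z', |skwHf c d z - skwHf c d z'| ≤ d.A * |z - z'|
  nonneg : ∀ z, 0 ≤ skwHf c d z
  ge : ∀ z ∈ Icc 0 c.zs, skwSrc d z ≤ skwHf c d z
  le : ∀ z, 0 ≤ z → skwHf c d z ≤ d.b * skwR z
  /-- a linear bound on the sources passes to the envelope if the slope is large -/
  lin : ∀ K₀ e₀ : ℝ, 0 ≤ e₀ → 0 ≤ K₀ → K₀ ≤ d.A → (∀ s ∈ Icc 0 c.zs, skwSrc d s ≤ K₀ * (e₀ + (c.zs - s))) →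
    ∀ z ∈ Icc 0 c.zs, skwHf c d z ≤ K₀ * (e₀ + (c.zs - z))

/-- **Leaf CONE-A** (elementary). -/
def SkwLeafConeA : Prop := ∀ c : SkwC, c.Ok → ∀ d : SkwD, SkwHyp c d → SkwConeConcl c d

/-- **Leaf CONE-B** (LL "The deviation cone": the squared budget; split the SOURCES into dyadic height classes, grid of cells). -/
def SkwLeafConeB : Prop :=
  ∀ c : SkwC, c.Ok → ∀ Ce : ℝ, 1 ≤ Ce → ∃ C : ℝ, 1 ≤ C ∧ ∀ d : SkwD, SkwHyp c d →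
    ∀ α β, d.zlo / 2 ≤ α → α ≤ β → β ≤ 2 * α → β ≤ c.zs → (β + 2 * d.b ≤ c.zs ∨ SkwEdge Ce c d) →
      ∫ z in α..β, d.G z * skwHf c d z ^ 2 ≤ C * skwL d * d.U ^ 4 / skwR α

/-- **Leaf PLAT** (LL "The plateau and its active edge", first half): deviation bound on the plateau and the edge sources. -/
def SkwLeafPlat : Prop :=
  ∀ c : SkwC, c.Ok → ∃ C : ℝ, 1 ≤ C ∧ ∀ d : SkwD, SkwHyp c d → SkwPlat c d →
    (∀ z ∈ Icc c.zs d.zmax, |skwF d z| ≤ C * d.Z ^ 2 * d.hpl z) ∧ SkwEdge C c d ∧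
    (∀ z ∈ Icc c.zs d.zmax, d.U ^ 2 / C ≤ d.hpl z) ∧ d.U ^ 4 ≤ C * d.E ^ 3

/-- **Leaf ENDB** (LL "The plateau and its active edge", second half): squared budget of the two endpoint functions. -/
def SkwLeafEndB : Prop :=
  ∀ c : SkwC, c.Ok → ∃ C : ℝ, 1 ≤ C ∧ ∀ d : SkwD, SkwHyp c d → SkwPlat c d →
    ∫ z in (0 : ℝ)..c.zs, d.G z * d.Hx z ^ 2 ≤ C * d.U ^ 4

/-- **Leaf JOIN** (LL "Matching the two coordinates at the join").  `CJ` does not depend on the slope `A`. -/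
def SkwLeafJoin : Prop :=
  ∀ c : SkwC, c.Ok → ∃ CJ : ℝ, 1 ≤ CJ ∧ ∀ d : SkwD, SkwHyp c d → SkwPlat c d → SkwSmall CJ d →
    (∀ s ∈ Icc 0 c.zs, skwSrc d s ≤ CJ * (d.E + (c.zs - s))) ∧
    (∀ z ∈ Icc (d.zlo / 4) c.zs, skwH0 c d z ≤ 2 * (d.E + (c.zs - z)))

/-- **Leaf WINA** (LL "Windows and tiles", first case), for a general extra width `Hx`: active cut with room `hact ≤ K₀ (zs - z)`. -/
def SkwLeafWinA : Prop :=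
  ∀ c : SkwC, c.Ok → ∀ K₀ : ℝ, 1 ≤ K₀ → ∃ C : ℝ, 1 ≤ C ∧ ∀ d : SkwD, SkwHyp c d → SkwSmall C d →
    ∀ z ∈ Icc d.zlo c.zs, skwHact c d z < d.b * skwR z / C → skwHact c d z ≤ K₀ * (c.zs - z) →
      (∃ a l, d.zlo / 2 ≤ a ∧ a + l ≤ z ∧ SkwWin C d z (skwHact c d z) a l) ∧
      (∃ a l, z ≤ a ∧ a + l ≤ c.zs ∧ SkwWin C d z (skwHact c d z) a l)

/-- **Leaf WINB** (LL "Windows and tiles", the cuts within `E` of the join on the active side, and the plateau). -/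
def SkwLeafWinB : Prop :=
  ∀ c : SkwC, c.Ok → ∀ K₀ : ℝ, 1 ≤ K₀ → ∃ C : ℝ, 1 ≤ C ∧ ∀ d : SkwD, SkwHyp c d → SkwPlat c d → SkwSmall C d →
    (∀ z ∈ Icc 0 c.zs, skwHact c d z ≤ K₀ * (d.E + (c.zs - z))) →
    ∀ z ∈ Icc (c.zs - d.E) d.zmax, skwH c d z < d.b * skwR z / C →
      (∃ a l, d.zlo / 2 ≤ a ∧ a + l ≤ z ∧ SkwWin C d z (skwH c d z) a l) ∧
      (∃ a l, z ≤ a ∧ a + l ≤ d.zmax ∧ SkwWin C d z (skwH c d z) a l) ∧ z + 1 / C ≤ d.zmax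

/-- **Leaf TILE** (abstract tiling): a positive quasi-Lipschitz function on `[α, β]` admits a partition into intervals comparable to it. -/
def SkwLeafTile : Prop :=
  ∀ C₀ : ℝ, 1 ≤ C₀ → ∃ C : ℝ, 1 ≤ C ∧ ∀ (hh : ℝ → ℝ) (α β hmin : ℝ), α < β → 0 < hmin →
    (∀ z ∈ Icc α β, hmin ≤ hh z) → (∀ z ∈ Icc α β, ∀ z' ∈ Icc α β, hh z' ≤ C₀ * (hh z + |z - z'|)) →
    hh α ≤ C₀ * (β - α) →
    ∃ (n : ℕ) (t : ℕ → ℝ), t 0 = α ∧ t n = β ∧ (∀ i < n, t i < t (i + 1)) ∧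
      ∀ i < n, ∀ z ∈ Icc (t i) (t (i + 1)), hh z / C ≤ t (i + 1) - t i ∧ t (i + 1) - t i ≤ C * hh z

/-- **the direct-path theorem** (LL Lemma 8.2 (i)-(iii) + budgets) -/
def SkwDirect : Prop :=
  ∀ c : SkwC, c.Ok → ∃ A : ℝ, 1 ≤ A ∧ ∃ C : ℝ, 1 ≤ C ∧ ∀ d : SkwD, SkwHyp c d → SkwPlat c d → d.A = A → SkwSmall C d →
    SkwConcl C d d.zmax d.zmax c.zs (skwH c d)

/-- **the low-region theorem**: no plateau; `Hx` = ramp `(z - zw)_+` beyond the working interval `[zlo, zw]`; use with `(U,Z) := (Y,1)`. -/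
def SkwLow : Prop :=
  ∀ c : SkwC, c.Ok → ∀ δ₀ : ℝ, 0 < δ₀ → ∃ C : ℝ, 1 ≤ C ∧ ∀ (d : SkwD) (zw : ℝ), SkwHyp c d → d.A = 1 → SkwSmall C d →
    2 * d.zlo ≤ zw → zw + δ₀ ≤ c.zs → (∀ z, d.Hx z = max 0 (z - zw)) →
    SkwConcl C d zw c.zs c.zs (skwHact c d)

end Claimed.Agent.R286
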